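import Vale.Agent.P011.H775.CubEx
import Vale.Agent.P011.H321.Avoid

/-!
The local condition of the Hasse norm theorem for the cubic field `K[y]`, in the letters of the
cubic norm structure.
-/

open NumberField IsDedekindDomain

namespace Vale.Agent.P011.H487

/-- `b` is a norm from `K[y]` up to a factor close to one at the place `V`. -/
def LocD {K D : Type} [Field K] [NumberField K] [Ring D] [Algebra K D] (C : H775.Cub K D) (y : D)
    (V : HeightOneSpectrum (𝓞 K)) (b : K) : Prop :=
  ∃ c : Fin 3 → K, V.valuation K (b / C.N (c 0 • (1 : D) + c 1 • y + c 2 • (y * y)) - 1) <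
    V.valuation K (9 : K)

end Vale.Agent.P011.H487
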