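import Vale.Agent.P011.H699.Mautner

/-!
# A locally compact group with a discrete cocompact subgroup is unimodular
-/

open MeasureTheory Filter Topology Set
open scoped ENNReal NNReal

set_option linter.unusedSectionVars false

namespace Vale.Agent.P011.H487

open Vale.Agent.P011.H699

section uni

variable {G : Type*} [Group G] [TopologicalSpace G] [IsTopologicalGroup G] [LocallyCompactSpace G]
  [T2Space G] [SecondCountableTopology G] [MeasurableSpace G] [BorelSpace G]

/-- The weight of a discrete cocompact subgroup has a positive finite integral. -/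
theorem lintegral_wgt_pos (μ : Measure G) [μ.IsHaarMeasure] {N : Subgroup G} {K : Set G}
    (hN : Cocpt N K) : ∫⁻ x, wgt N K x ∂μ ≠ 0 := by
  have := hN.countable
  have hK : MeasurableSet K := hN.compact.measurableSet
  intro h0
  rw [lintegral_eq_zero_iff (measurable_wgt hK)] at h0
  have h1 : μ K = 0 := by
    refine measure_mono_null ?_ h0
    intro x hx
    exact wgt_ne_zero (L := N) (fun x => hN.finite x) hx
  have h2 : μ (⋃ γ : N, (fun x => (γ : G) * x) ⁻¹' K) = 0 := by
    refine measure_iUnion_null fun γ => ?_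
    rw [measure_preimage_mul, h1]
  have h3 : (⋃ γ : N, (fun x => (γ : G) * x) ⁻¹' K) = univ := by
    rw [eq_univ_iff_forall]
    intro x
    obtain ⟨γ, hγ, hx⟩ := hN.cover x
    exact mem_iUnion.2 ⟨⟨γ, hγ⟩, hx⟩
  rw [h3] at h2
  exact IsOpen.measure_ne_zero μ isOpen_univ univ_nonempty h2

theorem lintegral_wgt_ne_top (μ : Measure G) [μ.IsHaarMeasure] {N : Subgroup G} {K : Set G}
    (hN : Cocpt N K) : ∫⁻ x, wgt N K x ∂μ ≠ ∞ := by
  have hK : MeasurableSet K := hN.compact.measurableSet
  have := hN.countable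
  refine ne_top_of_le_ne_top (hN.compact.measure_lt_top (μ := μ)).ne ?_
  calc ∫⁻ x, wgt N K x ∂μ ≤ ∫⁻ x, K.indicator (fun _ => (1 : ℝ≥0∞)) x ∂μ :=
        lintegral_mono fun x => wgt_le_indicator K x
    _ = μ K := by rw [lintegral_indicator hK]; simp

/-- The integral of the weight is invariant under right translations. -/
theorem lintegral_wgt_mul (μ : Measure G) [μ.IsHaarMeasure] {N : Subgroup G} {K : Set G}
    (hN : Cocpt N K) (g : G) : ∫⁻ x, wgt N K (x * g) ∂μ = ∫⁻ x, wgt N K x ∂μ := by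
  have := hN.countable
  have hK : MeasurableSet K := hN.compact.measurableSet
  have hw : Measurable (wgt N K : G → ℝ≥0∞) := measurable_wgt hK
  have hts : ∀ x : G, ∑' γ : N, wgt N K ((γ : G) * x) = 1 := fun x =>
    tsum_wgt (L := N) (fun x => by
      obtain ⟨γ, hγ, hx⟩ := hN.cover x
      exact ⟨⟨γ, hγ⟩, hx⟩) (fun x => hN.finite x) x
  have h1 : ∫⁻ x, wgt N K (x * g) ∂μ =
      ∫⁻ x, ∑' γ : N, wgt N K ((γ : G) * x) * wgt N K (x * g) ∂μ := by
    refine lintegral_congr fun x => ?_
    rw [ENNReal.tsum_mul_right, hts, one_mul]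
  rw [h1, lintegral_tsum (f := fun (γ : N) (x : G) => wgt N K ((γ : G) * x) * wgt N K (x * g))
    fun γ => ((hw.comp (measurable_const_mul _)).mul
    (hw.comp (measurable_mul_const g))).aemeasurable]
  have h2 : ∀ γ : N, ∫⁻ x, wgt N K ((γ : G) * x) * wgt N K (x * g) ∂μ =
      ∫⁻ x, wgt N K x * wgt N K (((γ⁻¹ : N) : G) * (x * g)) ∂μ := by
    intro γ
    have := lintegral_mul_left_eq_self (μ := μ)
      (fun x => wgt N K x * wgt N K (((γ⁻¹ : N) : G) * (x * g))) (γ : G)
    rw [← this]
    refine lintegral_congr fun x => ?_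
    congr 2
    simp [mul_assoc]
  simp_rw [h2]
  rw [← lintegral_tsum (f := fun (γ : N) (x : G) => wgt N K x *
    wgt N K (((γ⁻¹ : N) : G) * (x * g))) fun γ => (hw.mul ((hw.comp (measurable_const_mul _)).comp
    (measurable_mul_const g))).aemeasurable]
  refine lintegral_congr fun x => ?_
  have h3 : ∑' γ : N, wgt N K (((γ⁻¹ : N) : G) * (x * g)) = 1 := by
    rw [← hts (x * g)]
    exact (Equiv.inv N).tsum_eq (fun γ : N => wgt N K ((γ : G) * (x * g)))
  rw [ENNReal.tsum_mul_left, h3, mul_one]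

/-- **Unimodularity.** -/
theorem isMulRightInvariant_of_cocpt (μ : Measure G) [μ.IsHaarMeasure] {N : Subgroup G} {K : Set G}
    (hN : Cocpt N K) : μ.IsMulRightInvariant := by
  refine ⟨fun g => ?_⟩
  have hK : MeasurableSet K := hN.compact.measurableSet
  have hw : Measurable (wgt N K : G → ℝ≥0∞) := by
    have := hN.countable
    exact measurable_wgt hK
  have h1 := Measure.isMulLeftInvariant_eq_smul (μ.map (fun x => x * g)) μ
  have h2 : ∫⁻ x, wgt N K x ∂(μ.map (fun x => x * g)) = ∫⁻ x, wgt N K x ∂μ := by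
    rw [lintegral_map hw (measurable_mul_const g), lintegral_wgt_mul μ hN]
  rw [h1, lintegral_smul_measure] at h2
  have h3 : (Measure.haarScalarFactor (μ.map (fun x => x * g)) μ : ℝ≥0∞) = 1 := by
    have h4 : (Measure.haarScalarFactor (μ.map (fun x => x * g)) μ : ℝ≥0∞) *
        ∫⁻ x, wgt N K x ∂μ = 1 * ∫⁻ x, wgt N K x ∂μ := by
      rw [one_mul]; exact h2
    exact (ENNReal.mul_left_inj (lintegral_wgt_pos μ hN) (lintegral_wgt_ne_top μ hN)).1 h4
  rw [h1]
  have h5 : Measure.haarScalarFactor (μ.map (fun x => x * g)) μ = 1 := by exact_mod_cast h3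
  rw [h5, one_smul]

end uni

end Vale.Agent.P011.H487
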