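import Vale.Agent.P011.H487.HermGen

/-!
Matrix forms of (NS1) and (NS2), for groups of units of the matrix ring, `T H Tᴴ = H`
(the conventions of `Vale/Agent/P011/One/LocSU.lean`).
-/

open Matrix

namespace Vale.Agent.P011.H487

variable {L ι : Type*} [Field L] [StarRing L] [Fintype ι] [DecidableEq ι]

/-- the hermitian form of a hermitian matrix, on columns -/
def colForm (J : Matrix ι ι L) (hJ : Jᴴ = J) : HForm L (ι → L) where
  b x y := star y ⬝ᵥ (J *ᵥ x)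
  add_left x y z := by rw [mulVec_add, dotProduct_add]
  smul_left a x y := by rw [mulVec_smul, dotProduct_smul, smul_eq_mul]
  star_b x y := by
    rw [star_dotProduct, star_star, star_mulVec, hJ, dotProduct_mulVec]

omit [DecidableEq ι] in
theorem colForm_b (J : Matrix ι ι L) (hJ : Jᴴ = J) (x y : ι → L) :
    (colForm J hJ).b x y = star y ⬝ᵥ (J *ᵥ x) := rfl

/-- units of the matrix ring as linear automorphisms -/
noncomputable def unitEquiv : (Matrix ι ι L)ˣ ≃* ((ι → L) ≃ₗ[L] (ι → L)) :=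
  (Matrix.GeneralLinearGroup.toLin (n := ι) (R := L)).trans
    (LinearMap.GeneralLinearGroup.generalLinearEquiv L (ι → L))

omit [StarRing L] in
theorem unitEquiv_apply (T : (Matrix ι ι L)ˣ) (x : ι → L) :
    unitEquiv T x = (T : Matrix ι ι L) *ᵥ x := rfl

omit [StarRing L] in
theorem det_unitEquiv (T : (Matrix ι ι L)ˣ) :
    LinearEquiv.det (unitEquiv T) = 1 ↔ (T : Matrix ι ι L).det = 1 := by
  rw [Units.ext_iff, LinearEquiv.coe_det, Units.val_one]
  have : ((unitEquiv T : (ι → L) ≃ₗ[L] (ι → L)) : (ι → L) →ₗ[L] (ι → L)) =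
      Matrix.toLin' (T : Matrix ι ι L) := by
    ext x i
    simp [unitEquiv_apply]
  rw [this, LinearMap.det_toLin']

/-- compatibility of the two conventions -/
theorem unitEquiv_mem_U {H : Matrix ι ι L} (hdet : H.det ≠ 0) (hJ : (H⁻¹)ᴴ = H⁻¹)
    (T : (Matrix ι ι L)ˣ) :
    unitEquiv T ∈ (colForm H⁻¹ hJ).U ↔
      (T : Matrix ι ι L) * H * (T : Matrix ι ι L)ᴴ = H := by
  have hu : IsUnit H.det := isUnit_iff_ne_zero.2 hdet
  have h1 : (unitEquiv T ∈ (colForm H⁻¹ hJ).U) ↔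
      (T : Matrix ι ι L)ᴴ * H⁻¹ * (T : Matrix ι ι L) = H⁻¹ := by
    rw [HForm.mem_U]
    constructor
    · intro h
      ext i j
      have := h (Pi.single j 1) (Pi.single i 1)
      rw [colForm_b, colForm_b, unitEquiv_apply, unitEquiv_apply, star_mulVec] at this
      have e1 : star (Pi.single i (1 : L) : ι → L) = Pi.single i (1 : L) := by
        rw [← Pi.single_star, star_one]
      rw [e1] at this
      rw [← dotProduct_mulVec, mulVec_mulVec, mulVec_mulVec, mulVec_single_one,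
        mulVec_single_one] at this
      simpa [Matrix.mul_assoc] using this
    · intro h x y
      rw [colForm_b, colForm_b, unitEquiv_apply, unitEquiv_apply, star_mulVec,
        ← dotProduct_mulVec, mulVec_mulVec, mulVec_mulVec, h]
  rw [h1]
  constructor
  · intro h
    have h2 : (T : Matrix ι ι L)ᴴ * (H⁻¹ * (T : Matrix ι ι L) * H) = 1 := by
      rw [← Matrix.mul_assoc, ← Matrix.mul_assoc, h, Matrix.nonsing_inv_mul _ hu]
    have h3 := mul_eq_one_comm.1 h2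
    calc (T : Matrix ι ι L) * H * (T : Matrix ι ι L)ᴴ
        = (H * H⁻¹) * ((T : Matrix ι ι L) * H * (T : Matrix ι ι L)ᴴ) := by
          rw [Matrix.mul_nonsing_inv _ hu, Matrix.one_mul]
      _ = H * (H⁻¹ * (T : Matrix ι ι L) * H * (T : Matrix ι ι L)ᴴ) := by
          simp only [Matrix.mul_assoc]
      _ = H := by rw [h3, Matrix.mul_one]
  · intro h
    have h2 : (H⁻¹ * (T : Matrix ι ι L) * H) * (T : Matrix ι ι L)ᴴ = 1 := by
      rw [Matrix.mul_assoc, Matrix.mul_assoc, ← Matrix.mul_assoc (T : Matrix ι ι L) H, h,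
        Matrix.nonsing_inv_mul _ hu]
    have h3 := mul_eq_one_comm.1 h2
    calc (T : Matrix ι ι L)ᴴ * H⁻¹ * (T : Matrix ι ι L)
        = (T : Matrix ι ι L)ᴴ * H⁻¹ * (T : Matrix ι ι L) * (H * H⁻¹) := by
          rw [Matrix.mul_nonsing_inv _ hu, Matrix.mul_one]
      _ = (T : Matrix ι ι L)ᴴ * (H⁻¹ * (T : Matrix ι ι L) * H) * H⁻¹ := by
          simp only [Matrix.mul_assoc]
      _ = H⁻¹ := by rw [h3, Matrix.one_mul]

theorem isHerm_inv {H : Matrix ι ι L} (hH : Hᴴ = H) : (H⁻¹)ᴴ = H⁻¹ := by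
  rw [conjTranspose_nonsing_inv, hH]

theorem colForm_nondeg {H : Matrix ι ι L} (hdet : H.det ≠ 0) (hJ : (H⁻¹)ᴴ = H⁻¹) :
    (colForm H⁻¹ hJ).Nondeg := by
  intro x hx
  have hu : IsUnit H.det := isUnit_iff_ne_zero.2 hdet
  have key : ∀ y, star x ⬝ᵥ y = 0 := by
    intro y
    have := hx (H *ᵥ y)
    rw [colForm_b, mulVec_mulVec, Matrix.nonsing_inv_mul _ hu, one_mulVec] at this
    exact this
  have h2 : star x = 0 := by
    ext i
    have := key (Pi.single i 1)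
    simpa using this
  rw [← star_star x, h2, star_zero]

theorem colForm_iso {H : Matrix ι ι L} (hH : Hᴴ = H) (hdet : H.det ≠ 0) (hJ : (H⁻¹)ᴴ = H⁻¹)
    (hiso : ∃ x : ι → L, x ≠ 0 ∧ x ⬝ᵥ (H *ᵥ star x) = 0) :
    ∃ z, z ≠ 0 ∧ (colForm H⁻¹ hJ).b z z = 0 := by
  have hu : IsUnit H.det := isUnit_iff_ne_zero.2 hdet
  obtain ⟨x, hx0, hx⟩ := hiso
  refine ⟨H *ᵥ star x, ?_, ?_⟩
  · intro h0
    apply hx0
    have : H⁻¹ *ᵥ (H *ᵥ star x) = star x := by
      rw [mulVec_mulVec, Matrix.nonsing_inv_mul _ hu, one_mulVec]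
    rw [h0, mulVec_zero] at this
    rw [← star_star x, ← this, star_zero]
  · rw [colForm_b, mulVec_mulVec, Matrix.nonsing_inv_mul _ hu, one_mulVec, star_mulVec, star_star,
      hH, ← dotProduct_mulVec]
    exact hx

/-- the unitary transvection with axis the row vector `z`, in matrix form:
`1 + c • (H z*) ⊗ z` (acting on rows by `x ↦ x + c h(x,z) z`) -/
def tvMat (H : Matrix ι ι L) (z : ι → L) (c : L) : Matrix ι ι L :=
  1 + c • vecMulVec (H *ᵥ star z) z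

/-- (NS1) for matrices: `SU(H)` is generated by the transvections `1 + c (H z*) z`,
`h(z,z) = 0`, `c + star c = 0`. -/
theorem mat_NS1 (hK : HForm.StarNT L) (hk : ∃ a : L, a ≠ 0 ∧ star a = a ∧ a ≠ 1)
    {H : Matrix ι ι L} (hH : Hᴴ = H) (hdet : H.det ≠ 0)
    (hiso : ∃ x : ι → L, x ≠ 0 ∧ x ⬝ᵥ (H *ᵥ star x) = 0)
    (T : (Matrix ι ι L)ˣ) (hT : (T : Matrix ι ι L) * H * (T : Matrix ι ι L)ᴴ = H)
    (hTd : (T : Matrix ι ι L).det = 1) :
    T ∈ Subgroup.closure {S : (Matrix ι ι L)ˣ | ∃ z c, z ⬝ᵥ (H *ᵥ star z) = 0 ∧ c + star c = 0 ∧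
      (S : Matrix ι ι L) = tvMat H z c} := by
  have hJ := isHerm_inv hH
  have hu : IsUnit H.det := isUnit_iff_ne_zero.2 hdet
  have h1 : unitEquiv T ∈ (colForm H⁻¹ hJ).T :=
    HForm.SU_le_T hK hk (colForm_nondeg hdet hJ) (colForm_iso hH hdet hJ hiso)
      ((unitEquiv_mem_U hdet hJ T).2 hT) ((det_unitEquiv T).2 hTd)
  have h2 : (colForm H⁻¹ hJ).T ≤ (Subgroup.closure {S : (Matrix ι ι L)ˣ | ∃ z c,
      z ⬝ᵥ (H *ᵥ star z) = 0 ∧ c + star c = 0 ∧
      (S : Matrix ι ι L) = tvMat H z c}).map (unitEquiv (ι := ι) (L := L)).toMonoidHom := by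
    unfold HForm.T
    rw [Subgroup.closure_le]
    rintro _ ⟨w, c, hw, hc, rfl⟩
    obtain ⟨S, hS⟩ := unitEquiv.surjective ((colForm H⁻¹ hJ).R w c)
    refine ⟨S, Subgroup.subset_closure ⟨star (H⁻¹ *ᵥ w), c, ?_, hc, ?_⟩, hS⟩
    · rw [star_star, mulVec_mulVec, Matrix.mul_nonsing_inv _ hu, one_mulVec, star_mulVec, hJ,
        ← dotProduct_mulVec]
      exact hw
    · unfold tvMat
      rw [star_star, mulVec_mulVec, Matrix.mul_nonsing_inv _ hu, one_mulVec]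
      apply Matrix.ext_of_mulVec_single
      intro j
      rw [← unitEquiv_apply, hS, HForm.R_apply _ (HForm.Rc_iso _ hw hc), colForm_b, add_mulVec,
        one_mulVec, smul_mulVec, vecMulVec_mulVec]
      ext i
      rw [star_mulVec, hJ, ← dotProduct_mulVec, op_smul_eq_smul, smul_smul]
  obtain ⟨S, hS, hS'⟩ := h2 h1
  rwa [← unitEquiv.injective hS']

/-- (NS2) for matrices. -/
theorem mat_NS2 (hK : HForm.StarNT L) (hk : ∃ a : L, a ≠ 0 ∧ star a = a ∧ a ^ 4 ≠ 1)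
    {H : Matrix ι ι L} (hH : Hᴴ = H) (hdet : H.det ≠ 0)
    (hiso : ∃ x : ι → L, x ≠ 0 ∧ x ⬝ᵥ (H *ᵥ star x) = 0)
    {Γ : Subgroup (Matrix ι ι L)ˣ}
    (hΓU : ∀ T ∈ Γ, (T : Matrix ι ι L) * H * (T : Matrix ι ι L)ᴴ = H)
    (hΓ : ∀ S : (Matrix ι ι L)ˣ, (S : Matrix ι ι L) * H * (S : Matrix ι ι L)ᴴ = H →
      (S : Matrix ι ι L).det = 1 → ∀ T ∈ Γ, S * T * S⁻¹ ∈ Γ)
    (hns : ∃ T ∈ Γ, ∀ a : L, (T : Matrix ι ι L) ≠ a • (1 : Matrix ι ι L))
    (T : (Matrix ι ι L)ˣ) (hT : (T : Matrix ι ι L) * H * (T : Matrix ι ι L)ᴴ = H)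
    (hTd : (T : Matrix ι ι L).det = 1) : T ∈ Γ := by
  have hJ := isHerm_inv hH
  have h1 : unitEquiv T ∈ Γ.map (unitEquiv (ι := ι) (L := L)).toMonoidHom := by
    refine HForm.SU_le_of_normal (h := colForm H⁻¹ hJ) hK (colForm_nondeg hdet hJ)
      (colForm_iso hH hdet hJ hiso) hk ?_ ?_ ?_ ((unitEquiv_mem_U hdet hJ T).2 hT)
      ((det_unitEquiv T).2 hTd)
    · rintro _ ⟨S, hS, rfl⟩
      exact (unitEquiv_mem_U hdet hJ S).2 (hΓU S hS)
    · rintro t ht htd _ ⟨S, hS, rfl⟩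
      obtain ⟨S', rfl⟩ := unitEquiv.surjective t
      refine ⟨S' * S * S'⁻¹, hΓ S' ((unitEquiv_mem_U hdet hJ S').1 ht)
        ((det_unitEquiv S').1 htd) S hS, ?_⟩
      simp
    · obtain ⟨S, hS, hSs⟩ := hns
      refine ⟨unitEquiv S, ⟨S, hS, rfl⟩, fun a => ?_⟩
      by_contra hne
      push Not at hne
      apply hSs a
      apply Matrix.ext_of_mulVec_single
      intro j
      rw [smul_mulVec, one_mulVec, ← hne]; rfl
  obtain ⟨S, hS, hS'⟩ := h1
  rwa [← unitEquiv.injective hS']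

end Vale.Agent.P011.H487
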