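import Vale.Agent.P011.H487.LocOpen
import Vale.Agent.P011.Even.GChoice

/-!
Coordinates of the cubic field `K[e]` over `k`.
-/

open NumberField IsDedekindDomain Module MvPolynomial

set_option linter.unusedSectionVars false

namespace Vale.Agent.P011.H487

open Vale.Agent.P011.H775 Vale.Agent.P011.H948
open Vale.Agent.P011.Arith (Z0)
open Vale.Agent.P011.Even

section span

variable {K D : Type} [Field K] [DivisionRing D] [Algebra K D] (C : Cub K D)

/-- The span of the powers of `e`. -/
def In (K : Type) {D : Type} [Field K] [DivisionRing D] [Algebra K D] (e w : D) : Prop :=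
  ∃ c : Fin 3 → K, w = c 0 • (1 : D) + c 1 • e + c 2 • (e * e)

theorem In.one (e : D) : In K e 1 := ⟨![1, 0, 0], by simp⟩

theorem In.smul {e w : D} (h : In K e w) (a : K) : In K e (a • w) := by
  obtain ⟨c, rfl⟩ := h
  exact ⟨fun i => a * c i, by simp only [smul_add, smul_smul]⟩

theorem In.add {e w w' : D} (h : In K e w) (h' : In K e w') : In K e (w + w') := by
  obtain ⟨c, rfl⟩ := h
  obtain ⟨c', rfl⟩ := h'
  refine ⟨fun i => c i + c' i, ?_⟩
  simp only [add_smul]
  abel

include C in
theorem In.mul_e {e w : D} (h : In K e w) : In K e (w * e) := by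
  obtain ⟨c, rfl⟩ := h
  have h1 : e * e * e = C.T e • (e * e) - C.S e • e + C.N e • (1 : D) := by
    have h := C.cayley e
    calc e * e * e = (e * e * e - C.T e • (e * e) + C.S e • e - C.N e • (1 : D)) +
          (C.T e • (e * e) - C.S e • e + C.N e • (1 : D)) := by abel
      _ = _ := by rw [h, zero_add]
  refine ⟨![c 2 * C.N e, c 0 - c 2 * C.S e, c 1 + c 2 * C.T e], ?_⟩
  simp only [Matrix.cons_val_zero, Matrix.cons_val_one, Matrix.cons_val]
  rw [add_mul, add_mul, smul_mul_assoc, smul_mul_assoc, smul_mul_assoc, one_mul, h1]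
  module

include C in
theorem In.mul_inv {e w : D} (he : e ≠ 0) (h : In K e w) : In K e (w * e⁻¹) := by
  obtain ⟨c, rfl⟩ := h
  have h1 : e⁻¹ = (C.N e)⁻¹ • (e * e - C.T e • e + C.S e • (1 : D)) := by
    rw [C.inv_eq he, C.adj_eq]
  have h2 : e * e * e⁻¹ = e := by rw [mul_assoc, mul_inv_cancel₀ he, mul_one]
  rw [add_mul, add_mul, smul_mul_assoc, smul_mul_assoc, smul_mul_assoc, one_mul, h2,
    mul_inv_cancel₀ he, h1]
  refine ⟨![c 0 * (C.N e)⁻¹ * C.S e + c 1, c 2 - c 0 * (C.N e)⁻¹ * C.T e, c 0 * (C.N e)⁻¹], ?_⟩
  simp only [Matrix.cons_val_zero, Matrix.cons_val_one, Matrix.cons_val]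
  module

include C in
theorem In.zpow {e : D} (he : e ≠ 0) (n : ℤ) : In K e (e ^ n) := by
  induction n using Int.induction_on with
  | zero => simpa using In.one e
  | succ n ih =>
    rw [zpow_add_one₀ he]
    exact In.mul_e C ih
  | pred n ih =>
    rw [zpow_sub_one₀ he]
    exact In.mul_inv C he ih

end span

section coord

variable {k K D : Type} [Field k] [NumberField k] [Field K] [NumberField K] [StarRing K]
  [DivisionRing D] [StarRing D] [Algebra k K] [Algebra k D] [Algebra K D] [IsScalarTower k K D]
  {d : kˣ} {s : K}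

/-- Real and imaginary part. -/
theorem exists_reim (hS : Setting k K D d s) : ∃ re im : K →ₗ[k] k,
    ∀ c : K, c = algebraMap k K (re c) + s * algebraMap k K (im c) := by
  let φ : (k × k) →ₗ[k] K :=
    { toFun := fun p => algebraMap k K p.1 + s * algebraMap k K p.2
      map_add' := fun p q => by
        simp only [Prod.fst_add, Prod.snd_add, map_add]
        ring
      map_smul' := fun c p => by
        change algebraMap k K (c * p.1) + s * algebraMap k K (c * p.2) =
          c • (algebraMap k K p.1 + s * algebraMap k K p.2)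
        rw [Algebra.smul_def, map_mul, map_mul]
        ring }
  have hst : ∀ c : k, star (algebraMap k K c) = algebraMap k K c := fun c =>
    (hS.fix _).mpr ⟨c, rfl⟩
  have hs0 : s ≠ 0 := Pow.s_ne_zero hS
  have hinj : Function.Injective φ := by
    rw [injective_iff_map_eq_zero]
    rintro ⟨a, b⟩ h
    have h1 : algebraMap k K a + s * algebraMap k K b = 0 := h
    have h2 := congrArg star h1
    rw [star_add, star_mul', hst, hst, hS.star_s, star_zero] at h2
    have h3 : algebraMap k K a = 0 := by
      have : (2 : K) * algebraMap k K a = 0 := by linear_combination h1 + h2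
      rcases mul_eq_zero.mp this with h | h
      · exact absurd h two_ne_zero
      · exact h
    have h4 : algebraMap k K b = 0 := by
      rw [h3, zero_add] at h1
      rcases mul_eq_zero.mp h1 with h | h
      · exact absurd h hs0
      · exact h
    rw [map_eq_zero] at h3 h4
    rw [h3, h4]
    rfl
  have hrank : Module.finrank k (k × k) = Module.finrank k K := by
    rw [hS.rank, Module.finrank_prod, Module.finrank_self]
  have : FiniteDimensional k K := Module.finite_of_finrank_pos (by rw [hS.rank]; norm_num)
  let ψ := LinearEquiv.ofInjectiveOfFinrankEq φ hinj hrank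
  refine ⟨(LinearMap.fst k k k).comp ψ.symm.toLinearMap,
    (LinearMap.snd k k k).comp ψ.symm.toLinearMap, fun c => ?_⟩
  have h1 : φ (ψ.symm c) = c := by
    have := ψ.apply_symm_apply c
    exact this
  exact h1.symm

/-- The point with given coordinates. -/
def zf (s : K) (e : D) (x : Fin (3 + 3) → k) : D :=
  ∑ i : Fin 3, (x (Fin.castAdd 3 i) • e ^ (i : ℕ) + x (Fin.natAdd 3 i) • (s • e ^ (i : ℕ)))

theorem zf_pm (s : K) (e : D) : Pm (k := k) (zf s e) := by
  unfold zf
  exact Pm.sum _ fun i _ => (Pm.coord _ _).add (Pm.coord _ _)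

theorem zf_commute {s' : K} {y e' : D} (h : Commute y e') (x : Fin (3 + 3) → k) :
    Commute y (zf s' e' x) := by
  unfold zf
  refine Commute.sum_right _ _ _ fun i _ => ?_
  have h1 := h.pow_right (i : ℕ)
  exact (h1.smul_right _).add_right ((h1.smul_right _).smul_right _)

theorem star_zf (hS : Setting k K D d s) {e : D} (he : e * star e = 1) (x : Fin (3 + 3) → k) :
    star (zf s e x) = zf (-s) e⁻¹ x := by
  have hst : ∀ (c : k) (y : D), star (c • y) = c • star y := fun c y => (sig hS).map_smul c y
  have hi : star e = e⁻¹ := (inv_eq_of_mul_eq_one_right he).symm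
  unfold zf
  rw [star_sum]
  refine Finset.sum_congr rfl fun i _ => ?_
  rw [star_add, hst, hst, hS.star_smul, hS.star_s, star_pow, hi]

theorem zf_surj (hS : Setting k K D d s) {e w : D} (h : In K e w) :
    ∃ x : Fin (3 + 3) → k, zf s e x = w := by
  obtain ⟨c, rfl⟩ := h
  obtain ⟨re, im, hri⟩ := exists_reim hS
  refine ⟨Fin.append (fun i => re (c i)) (fun i => im (c i)), ?_⟩
  unfold zf
  simp only [Fin.append_left, Fin.append_right]
  have h1 : ∀ (i : Fin 3) (y : D), re (c i) • y + im (c i) • (s • y) = c i • y := by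
    intro i y
    conv_rhs => rw [hri (c i)]
    rw [add_smul, mul_comm s, mul_smul, algebraMap_smul, algebraMap_smul]
  simp only [h1, Fin.sum_univ_three]
  congr 1
  · congr 1
    · simp
    · simp
  · simp [pow_two]

end coord

end Vale.Agent.P011.H487
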