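import Vale.Agent.P011.H544.Ord
import Vale.Agent.P011.H487.GUni

/-!
# The unitary group of the base change as a topological group, and its lattices
-/

open Module Topology Filter Set MeasureTheory

set_option linter.unusedSectionVars false

namespace Vale.Agent.P011.H487

open Vale.Agent.P011.H544 Vale.Agent.P011.H699

section top

variable {k R D ι : Type*} [Field k] [CommRing R] [TopologicalSpace R] [IsTopologicalRing R]
    [Algebra k R] [DivisionRing D] [StarRing D] [Algebra k D] [StarLin k D] [Fintype ι]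
    (B : Basis ι k D)

instance continuousStar_BE : ContinuousStar (BE B R) := by
  classical
  exact (bcT B R).continuousStar

instance t2_BE [T2Space R] : T2Space (BE B R) := by
  classical
  exact (bcT B R).t2

instance locallyCompact_BE [LocallyCompactSpace R] : LocallyCompactSpace (BE B R) := by
  classical
  exact (bcT B R).locallyCompact

instance secondCountable_BE [SecondCountableTopology R] : SecondCountableTopology (BE B R) := by
  classical
  exact (bcT B R).φ.toHomeomorph.secondCountableTopology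

theorem isClosedEmbedding_G [T2Space R] :
    IsClosedEmbedding (fun u : unitary (BE B R) => (u : BE B R)) :=
  (isClosed_unitary (R := BE B R)).isClosedEmbedding_subtypeVal

instance locallyCompact_G [T2Space R] [LocallyCompactSpace R] :
    LocallyCompactSpace (unitary (BE B R)) :=
  (isClosedEmbedding_G B).locallyCompactSpace

instance secondCountable_G [SecondCountableTopology R] :
    SecondCountableTopology (unitary (BE B R)) :=
  TopologicalSpace.Subtype.secondCountableTopology (unitary (BE B R) : Set (BE B R))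

instance t2_G [T2Space R] : T2Space (unitary (BE B R)) :=
  inferInstanceAs (T2Space {x // x ∈ unitary (BE B R)})

end top

section lat

variable {k R D ι Γ : Type*} [Field k] [CommRing R] [TopologicalSpace R] [IsTopologicalRing R]
    [Algebra k R] [DivisionRing D] [StarRing D] [Algebra k D] [StarLin k D] [Fintype ι]
    [DecidableEq ι] (B : Basis ι k D) [Nontrivial R] [T2Space R] {O : Subring k}
    {Lam : Subring D} [Countable Lam] [Group Γ] (i : Γ →* unitary (BE B R))

include B in
theorem countable_map (hi : ∀ γ, ∃ w ∈ Lam, (bcT B R).j w = (i γ : BE B R)) (Δ : Subgroup Γ) :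
    Countable (Δ.map i) := by
  have h : ∀ γ : Δ.map i, ∃ w : Lam, (bcT B R).j w = ((γ : unitary (BE B R)) : BE B R) := by
    rintro ⟨_, γ, -, rfl⟩
    obtain ⟨w, hw, h⟩ := hi γ
    exact ⟨⟨w, hw⟩, h⟩
  choose f hf using h
  have hinj : Function.Injective f := by
    intro x y hxy
    apply Subtype.ext
    apply Subtype.ext
    rw [← hf x, ← hf y, hxy]
  exact hinj.countable

/-- The subgroup is discrete and closed. -/
theorem finite_map
    (hOd : ∀ K : Set R, IsCompact K → {c : k | c ∈ O ∧ algebraMap k R c ∈ K}.Finite)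
    (hOc : ∃ K : Set R, IsCompact K ∧ ∀ r : R, ∃ c ∈ O, r - algebraMap k R c ∈ K)
    (H : IsOrd B O Lam) (hi : ∀ γ, ∃ w ∈ Lam, (bcT B R).j w = (i γ : BE B R)) (Δ : Subgroup Γ)
    {K : Set (unitary (BE B R))} (hK : IsCompact K) (x : unitary (BE B R)) :
    {γ : Δ.map i | (γ : unitary (BE B R)) * x ∈ K}.Finite := by
  have hL := (bcT B R).lat hOd hOc H
  have hK' : IsCompact ((fun u : unitary (BE B R) => ((u * x⁻¹ : unitary (BE B R)) : BE B R)) '' K) :=
    hK.image (continuous_subtype_val.comp (continuous_id.mul continuous_const))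
  have h1 := hL.disc _ hK'
  refine (h1.preimage (f := fun γ : Δ.map i => ((γ : unitary (BE B R)) : BE B R))
    (fun a _ b _ h => Subtype.ext (Subtype.ext h))).subset ?_
  rintro ⟨g, γ, hγ, rfl⟩ hx
  obtain ⟨w, hw, h⟩ := hi γ
  refine ⟨⟨i γ * x, hx, ?_⟩, w, hw, h⟩
  simp only [mul_inv_cancel_right]

/-- The subgroups of finite index of the unitary group of an order are cocompact lattices. -/
theorem exists_cocpt [LocallyCompactSpace R] [NoncompactSpace R] (hR : DetOne R)
    (hOd : ∀ K : Set R, IsCompact K → {c : k | c ∈ O ∧ algebraMap k R c ∈ K}.Finite)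
    (hOc : ∃ K : Set R, IsCompact K ∧ ∀ r : R, ∃ c ∈ O, r - algebraMap k R c ∈ K)
    (H : IsOrd B O Lam) (hi : ∀ γ, ∃ w ∈ Lam, (bcT B R).j w = (i γ : BE B R))
    (hs : ∀ w ∈ Lam, star w * w = 1 → w * star w = 1 →
      ∃ γ, (i γ : BE B R) = (bcT B R).j w)
    (Δ : Subgroup Γ) [Δ.FiniteIndex] : ∃ K, Cocpt (Δ.map i) K := by
  have hcs : ContinuousStar (BE B R) := inferInstance
  obtain ⟨C, hC, hcov⟩ := (bcT B R).unitary_cocompact hR hOd hOc H
  -- the compact set for the whole group
  have hC' : IsCompact ((fun u : unitary (BE B R) => (u : BE B R)) ⁻¹' (star '' C)) :=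
    (isClosedEmbedding_G B).isCompact_preimage (hC.image continuous_star)
  set K0 := (fun u : unitary (BE B R) => (u : BE B R)) ⁻¹' (star '' C) with hK0
  have hcov0 : ∀ x : unitary (BE B R), ∃ γ : Γ, i γ * x ∈ K0 := by
    intro x
    obtain ⟨w, hw, h1, h2, h3⟩ := hcov (star (x : BE B R))
      (by rw [star_star]; exact Unitary.mul_star_self_of_mem x.2)
      (by rw [star_star]; exact Unitary.star_mul_self_of_mem x.2)
    obtain ⟨γ, hγ⟩ := hs (star w) (H.star_mem w hw) (by rw [star_star]; exact h2)
      (by rw [star_star]; exact h1)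
    refine ⟨γ, star (x : BE B R) * (bcT B R).j w, h3, ?_⟩
    change star (star (x : BE B R) * (bcT B R).j w) = (i γ : BE B R) * (x : BE B R)
    rw [star_mul, star_star, hγ, (bcT B R).j_star]
  have hfi : Finite (Γ ⧸ Δ) := inferInstance
  let K : Set (unitary (BE B R)) := ⋃ q : Γ ⧸ Δ, (fun u => (i q.out)⁻¹ * u) '' K0
  refine ⟨K, ⟨countable_map B i hi Δ, isCompact_iUnion fun q => hC'.image
    (continuous_const.mul continuous_id), fun x => ?_, fun x => ?_⟩⟩
  · obtain ⟨γ, hγ⟩ := hcov0 x
    set q : Γ ⧸ Δ := (γ : Γ ⧸ Δ) with hq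
    have h1 : (q.out)⁻¹ * γ ∈ Δ := by
      rw [← QuotientGroup.eq]
      exact Quotient.out_eq' q
    refine ⟨i ((q.out)⁻¹ * γ), ⟨_, h1, rfl⟩, mem_iUnion.2 ⟨q, i γ * x, hγ, ?_⟩⟩
    simp only [map_mul, map_inv, mul_assoc]
  · exact finite_map B i hOd hOc H hi Δ (isCompact_iUnion fun q => hC'.image
      (continuous_const.mul continuous_id)) x

/-- **The unitary group of the base change is unimodular.** -/
theorem haar_biinvariant [SecondCountableTopology R] [LocallyCompactSpace R] [NoncompactSpace R]
    [MeasurableSpace (unitary (BE B R))] [BorelSpace (unitary (BE B R))]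
    (μ : Measure (unitary (BE B R))) [μ.IsHaarMeasure] (hR : DetOne R)
    (hOd : ∀ K : Set R, IsCompact K → {c : k | c ∈ O ∧ algebraMap k R c ∈ K}.Finite)
    (hOc : ∃ K : Set R, IsCompact K ∧ ∀ r : R, ∃ c ∈ O, r - algebraMap k R c ∈ K)
    (H : IsOrd B O Lam) : μ.IsMulRightInvariant := by
  -- the group of the unitary elements of the order
  let U : Subgroup (unitary (BE B R)) :=
    { carrier := {u | ∃ w ∈ Lam, (bcT B R).j w = (u : BE B R)}
      one_mem' := ⟨1, Lam.one_mem, map_one _⟩
      mul_mem' := by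
        rintro a b ⟨w, hw, h1⟩ ⟨z, hz, h2⟩
        exact ⟨w * z, Lam.mul_mem hw hz, by rw [map_mul, h1, h2]; rfl⟩
      inv_mem' := by
        rintro a ⟨w, hw, h1⟩
        exact ⟨star w, H.star_mem w hw, by rw [(bcT B R).j_star, h1]; rfl⟩ }
  obtain ⟨K, hK⟩ := exists_cocpt B U.subtype hR hOd hOc H (fun γ => γ.2)
    (fun w hw h1 h2 => ⟨⟨⟨(bcT B R).j w, Unitary.mem_iff.2 ⟨by
        rw [← (bcT B R).j_star, ← map_mul, h1, map_one], by
        rw [← (bcT B R).j_star, ← map_mul, h2, map_one]⟩⟩, w, hw, rfl⟩, rfl⟩) ⊤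
  exact isMulRightInvariant_of_cocpt μ hK

end lat

end Vale.Agent.P011.H487
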