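import Vale.Agent.P011.H487.GSpl
import Vale.Agent.P011.H321.SplitK

/-!
# Splittings of the algebra from splittings compatible with the centre
-/

open Module TensorProduct Matrix

set_option linter.unusedSectionVars false

namespace Vale.Agent.P011.H487

open Vale.Agent.P011.H544

/-- A homomorphism to a matrix ring compatible with an embedding of the centre is a splitting. -/
theorem exists_spl {k K D F : Type*} [Field k] [Field K] [StarRing K] [DivisionRing D]
    [StarRing D] [Algebra k K] [Algebra k D] [Algebra K D] [IsScalarTower k K D]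
    [Algebra.IsCentral K D] [Field F] [Algebra k F] {n N : ℕ} (hn0 : n ≠ 0)
    (hn : finrank K D = n ^ 2) (hrk : finrank k K = 2)
    (hst : ∀ c : K, star (algebraMap K D c) = algebraMap K D (star c))
    (hne : ∃ c : K, star c ≠ c)
    (hfix : ∀ c : k, star (algebraMap k K c) = algebraMap k K c)
    (φ : K →+* F) (hφ : ∀ c : k, φ (algebraMap k K c) = algebraMap k F c)
    (f : D →+* Matrix (Fin n) (Fin n) F)
    (hf : ∀ c : K, f (algebraMap K D c) = algebraMap F _ (φ c))
    (B : Basis (Fin N) k D) : ∃ H : Spl B F n, H.f = f := by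
  have hsm : ∀ (c : k) (x : D), f (c • x) = algebraMap k F c • f x := by
    intro c x
    have h1 : c • x = algebraMap K D (algebraMap k K c) * x := by
      rw [← IsScalarTower.algebraMap_apply, Algebra.smul_def]
    rw [h1, map_mul, hf, hφ, Algebra.smul_def]
  have hstk : ∀ (c : k) (x : D), star (c • x) = c • star x := by
    intro c x
    have h1 : c • x = algebraMap K D (algebraMap k K c) * x := by
      rw [← IsScalarTower.algebraMap_apply, Algebra.smul_def]
    rw [h1, star_mul, hst, hfix, ← IsScalarTower.algebraMap_apply, Algebra.smul_def,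
      Algebra.commutes]
  let τ : Fin 2 → K →+* F := ![φ, φ.comp (starRingEnd K)]
  let g : Fin 2 → D →+* Matrix (Fin n) (Fin n) F := ![f, H321.conjHom f]
  have hτ : Function.Injective τ := by
    obtain ⟨c, hc⟩ := hne
    have h1 : φ ≠ φ.comp (starRingEnd K) := by
      intro h
      apply hc
      apply φ.injective
      exact (RingHom.congr_fun h c).symm
    intro a b hab
    fin_cases a <;> fin_cases b
    · rfl
    · exact absurd hab h1
    · exact absurd hab.symm h1
    · rfl
  have hg : ∀ t (c : K), g t (algebraMap K D c) = algebraMap F _ (τ t c) := by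
    intro t c
    fin_cases t
    · exact hf c
    · change (f (star (algebraMap K D c)))ᵀ = algebraMap F _ (φ (star c))
      rw [hst, hf, Matrix.algebraMap_eq_diagonal, Matrix.diagonal_transpose]
  have hk : ∀ t (a : k) (x : D), g t (a • x) = algebraMap k F a • g t x := by
    intro t a x
    fin_cases t
    · exact hsm a x
    · change (f (star (a • x)))ᵀ = algebraMap k F a • (f (star x))ᵀ
      rw [hstk, hsm, transpose_smul]
  have hcard : finrank k D = Fintype.card (Fin 2) * n ^ 2 := by
    rw [← finrank_mul_finrank k K D, hn, hrk, Fintype.card_fin]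
  obtain ⟨hli, hsp⟩ := H321.linearIndependent_pi hn hn0 hcard hτ g hg hk B
  let e : (Fin 2 → Matrix (Fin n) (Fin n) F) ≃ₗ[F] M2 n F :=
    LinearEquiv.finTwoArrow F (Matrix (Fin n) (Fin n) F)
  have he : ∀ x : D, e (fun t => g t x) = two f x := fun x => rfl
  refine ⟨⟨f, hsm, ?_, ?_⟩, rfl⟩
  · have h1 := hli.map' (e : (Fin 2 → Matrix (Fin n) (Fin n) F) →ₗ[F] M2 n F)
      (LinearEquiv.ker e)
    exact h1
  · have h2 : (Set.range fun i => two f (B i)) =
        e '' (Set.range fun i (t : Fin 2) => g t (B i)) := by
      rw [← Set.range_comp]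
      rfl
    rw [h2, ← LinearEquiv.coe_coe, Submodule.span_image, hsp, Submodule.map_top,
      LinearEquiv.range]

end Vale.Agent.P011.H487
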