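import Vale.Agent.P011.H544.SInt
import Vale.Agent.P011.H487.GCoc
import Vale.Agent.P011.H487.GExSpl

/-!
# Number fields: the factor at a split place and the topology of the unitary group
-/

open Module Topology Filter Set MeasureTheory NumberField IsDedekindDomain Matrix

set_option linter.unusedSectionVars false

namespace Vale.Agent.P011.H487

open Vale.Agent.P011.H544 Vale.Agent.P011.H699

section KS

variable (k : Type) [Field k] [NumberField k] (S : Finset (HeightOneSpectrum (𝓞 k)))

/-- The factor of `k_S` at a place of `S`. -/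
noncomputable def facKS (q : S) :
    Fac k (KS k S) ((q : HeightOneSpectrum (𝓞 k)).adicCompletion k) := by
  classical
  exact
  { ρ := (Pi.evalAlgHom k (fun v : S => (v : HeightOneSpectrum (𝓞 k)).adicCompletion k) q).comp
      (AlgHom.snd k _ _)
    σ := (AddMonoidHom.inr (∀ v : InfinitePlace k, v.Completion) _).comp
      (AddMonoidHom.single (fun v : S => (v : HeightOneSpectrum (𝓞 k)).adicCompletion k) q)
    ρσ := fun a => by
      change (Pi.single q a : ∀ v : S, (v : HeightOneSpectrum (𝓞 k)).adicCompletion k) q = a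
      simp
    σρ := fun r => by
      refine Prod.ext (funext fun v => ?_) (funext fun v => ?_)
      · change (0 : v.Completion) = 0 * _
        rw [zero_mul]
      · change (Pi.single q (r.2 q) : ∀ v : S, (v : HeightOneSpectrum (𝓞 k)).adicCompletion k) v =
          (Pi.single q 1 : ∀ v : S, (v : HeightOneSpectrum (𝓞 k)).adicCompletion k) v * r.2 v
        by_cases h : v = q
        · subst h; simp
        · simp [Pi.single_eq_of_ne h]
    cρ := (continuous_apply q).comp continuous_snd
    cσ := by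
      refine Continuous.prodMk continuous_const ?_
      refine continuous_pi fun v => ?_
      change Continuous fun a : (q : HeightOneSpectrum (𝓞 k)).adicCompletion k =>
        (Pi.single q a : ∀ v : S, (v : HeightOneSpectrum (𝓞 k)).adicCompletion k) v
      by_cases h : v = q
      · subst h
        simp only [Pi.single_eq_same]
        exact continuous_id
      · simp only [Pi.single_eq_of_ne h]
        exact continuous_const }

variable {k S}

theorem facKS_ρ (q : S) (r : KS k S) : (facKS k S q).ρ r = r.2 q := rfl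

theorem facKS_e_fst (q : S) (v : InfinitePlace k) : (facKS k S q).e.1 v = 0 := rfl

theorem facKS_e_self (q : S) : (facKS k S q).e.2 q = 1 := (facKS k S q).ρσ 1

theorem facKS_e_ne (q : S) {v : S} (h : v ≠ q) : (facKS k S q).e.2 v = 0 := by
  classical
  have h1 : (facKS k S q).e.2 v =
    (Pi.single q 1 : ∀ v : S, (v : HeightOneSpectrum (𝓞 k)).adicCompletion k) v := by
    change (Pi.single q 1 : ∀ v : S, (v : HeightOneSpectrum (𝓞 k)).adicCompletion k) v = _
    congr 1
  rw [h1, Pi.single_eq_of_ne h]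

end KS

section near

variable {k : Type} [Field k] [NumberField k] {S : Finset (HeightOneSpectrum (𝓞 k))}
  {D ι : Type*} [DivisionRing D] [StarRing D] [Algebra k D] [Fintype ι] {n : ℕ}
  {B : Basis ι k D} (q : S) (H : Spl B ((q : HeightOneSpectrum (𝓞 k)).adicCompletion k) n)
  [StarLin k D]

/-- The component off the place `q` is close to one if the coordinates at the other places are. -/
theorem off_near_KS {O : Set (unitary (BE B (KS k S)))} (hO : O ∈ 𝓝 (1 : unitary (BE B (KS k S)))) :
    ∃ η : ℝ, 0 < η ∧ ∀ x : unitary (BE B (KS k S)),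
      (∀ (v : InfinitePlace k) (i : ι), ‖(eqF B (KS k S) ((x : BE B (KS k S)) - 1) i).1 v‖ < η) →
      (∀ v : S, v ≠ q → ∀ i : ι, ‖(eqF B (KS k S) ((x : BE B (KS k S)) - 1) i).2 v‖ < η) →
      off (facKS k S q) H x ∈ O := by
  obtain ⟨U, hU, h⟩ := off_near (facKS k S q) H O hO
  -- neighbourhoods of zero in the product
  have h1 : ∃ η : ℝ, 0 < η ∧ ∀ y : ι → KS k S, (∀ i (v : InfinitePlace k), ‖(y i).1 v‖ < η) →
      (∀ i (v : S), ‖(y i).2 v‖ < η) → y ∈ U := by
    obtain ⟨η, hη, hball⟩ := Metric.mem_nhds_iff.1 hU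
    refine ⟨η, hη, fun y h2 h3 => hball ?_⟩
    rw [Metric.mem_ball, dist_pi_lt_iff hη]
    intro i
    rw [Prod.dist_eq, max_lt_iff, dist_pi_lt_iff hη, dist_pi_lt_iff hη]
    refine ⟨fun v => ?_, fun v => ?_⟩
    · have := h2 i v
      rw [Pi.zero_apply, Prod.fst_zero, Pi.zero_apply, dist_zero_right]
      exact this
    · have := h3 i v
      rw [Pi.zero_apply, Prod.snd_zero, Pi.zero_apply, dist_zero_right]
      exact this
  obtain ⟨η, hη, hU1⟩ := h1
  refine ⟨η, hη, fun x h2 h3 => h x (hU1 _ (fun i v => ?_) (fun i v => ?_))⟩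
  · have h4 : ((1 - (facKS k S q).e) * eqF B (KS k S) ((x : BE B (KS k S)) - 1) i).1 v =
        (eqF B (KS k S) ((x : BE B (KS k S)) - 1) i).1 v := by
      rw [Prod.fst_mul, Pi.mul_apply, Prod.fst_sub, Pi.sub_apply, facKS_e_fst, sub_zero]
      exact one_mul _
    rw [h4]
    exact h2 v i
  · by_cases hv : v = q
    · subst hv
      have h4 : ((1 - (facKS k S v).e) * eqF B (KS k S) ((x : BE B (KS k S)) - 1) i).2 v = 0 := by
        rw [Prod.snd_mul, Pi.mul_apply, Prod.snd_sub, Pi.sub_apply, facKS_e_self]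
        have h5 : ((1 : KS k S).2 v) = 1 := rfl
        rw [h5, sub_self, zero_mul]
      rw [h4, norm_zero]
      exact hη
    · have h4 : ((1 - (facKS k S q).e) * eqF B (KS k S) ((x : BE B (KS k S)) - 1) i).2 v =
          (eqF B (KS k S) ((x : BE B (KS k S)) - 1) i).2 v := by
        rw [Prod.snd_mul, Pi.mul_apply, Prod.snd_sub, Pi.sub_apply, facKS_e_ne q hv, sub_zero]
        exact one_mul _
      rw [h4]
      exact h3 v hv i

/-- The form used for the levels. -/
theorem off_near_det {O : Set (unitary (BE B (KS k S)))}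
    (hO : O ∈ 𝓝 (1 : unitary (BE B (KS k S)))) :
    ∃ η : ℝ, 0 < η ∧ ∀ x : unitary (BE B (KS k S)),
      (∀ (v : InfinitePlace k) (i : ι), ‖(eqF B (KS k S) ((x : BE B (KS k S)) - 1) i).1 v‖ < η) →
      (∀ v : S, v ≠ q → ∀ i : ι, ‖(eqF B (KS k S) ((x : BE B (KS k S)) - 1) i).2 v‖ < η) →
      det (pr (facKS k S q) H x :
        Matrix (Fin n) (Fin n) ((q : HeightOneSpectrum (𝓞 k)).adicCompletion k)) = 1 →
      ∃ z, x * (jS (facKS k S q) H z)⁻¹ ∈ O := by
  obtain ⟨η, hη, h⟩ := off_near_KS q H hO
  refine ⟨η, hη, fun x h1 h2 hd => ?_⟩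
  obtain ⟨z, hz⟩ := jG_mem_range (facKS k S q) H hd
  exact ⟨z, by rw [hz]; exact h x h1 h2⟩

end near

section lat

variable {k : Type} [Field k] [NumberField k] {S : Finset (HeightOneSpectrum (𝓞 k))}
  {D Γ : Type*} [DivisionRing D] [StarRing D] [Algebra k D] {N : ℕ}
  (B : Basis (Fin N) k D) [StarLin k D]

instance secondCountable_KS : SecondCountableTopology (KS k S) := inferInstance

/-- The order of the elements of `D` preserving the lattice of the `S`-integral elements. -/
theorem isOrd_KS : IsOrd B (OS k S) (ordO B (OS k S)) := by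
  -- the denominator
  have hfrac : ∀ x : k, ∃ d ∈ (algebraMap (𝓞 k) k).range, d ≠ 0 ∧
      d * x ∈ (algebraMap (𝓞 k) k).range := by
    intro x
    obtain ⟨n, d, hd, rfl⟩ := IsFractionRing.div_surjective (A := 𝓞 k) x
    have hd0 : algebraMap (𝓞 k) k d ≠ 0 := by
      simpa using nonZeroDivisors.ne_zero hd
    exact ⟨_, ⟨d, rfl⟩, hd0, ⟨n, by field_simp⟩⟩
  obtain ⟨d, -, hd⟩ := exists_den B (algebraMap (𝓞 k) k).range hfrac
  have hle : (algebraMap (𝓞 k) k).range ≤ OS k S := by
    rintro _ ⟨x, rfl⟩ v _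
    exact v.valuation_le_one x
  exact (isOrd_ordO B (hd.mono B hle)).1

/-- The subgroups of finite index of `U(O_S)` are cocompact lattices. -/
theorem exists_cocpt_KS [Countable D] [Group Γ] (i : Γ →* unitary (BE B (KS k S)))
    (hi : ∀ γ, ∃ w ∈ ordO B (OS k S), (bcT B (KS k S)).j w = (i γ : BE B (KS k S)))
    (hs : ∀ w ∈ ordO B (OS k S), star w * w = 1 → w * star w = 1 →
      ∃ γ, (i γ : BE B (KS k S)) = (bcT B (KS k S)).j w)
    (Δ : Subgroup Γ) [Δ.FiniteIndex] : ∃ K, Cocpt (Δ.map i) K :=
  exists_cocpt B i (KS_detOne k S) OS_disc OS_coc (isOrd_KS B) hi hs Δ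

/-- Haar measure on the unitary group is invariant on both sides. -/
theorem haar_KS [Countable D] [MeasurableSpace (unitary (BE B (KS k S)))]
    [BorelSpace (unitary (BE B (KS k S)))] (μ : Measure (unitary (BE B (KS k S))))
    [μ.IsHaarMeasure] : μ.IsMulRightInvariant :=
  haar_biinvariant B μ (KS_detOne k S) OS_disc OS_coc (isOrd_KS B)

end lat

end Vale.Agent.P011.H487
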