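import Vale.Agent.P011.H487.GSpl

/-!
# Elements with split projection commute with a conjugate of the diagonal torus
-/

open Module Topology Filter Set Matrix

set_option linter.unusedSectionVars false

namespace Vale.Agent.P011.H487

open Vale.Agent.P011.H544

section alg

variable {F : Type*} [Field F] {n : ℕ}

/-- A diagonal matrix with determinant `c`. -/
noncomputable def dgl (hn : 0 < n) (c : Fˣ) : GL (Fin n) F :=
  ⟨diagonal (Function.update (fun _ => 1) ⟨0, hn⟩ (c : F)),
    diagonal (Function.update (fun _ => 1) ⟨0, hn⟩ ((c⁻¹ : Fˣ) : F)), by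
      rw [diagonal_mul_diagonal, ← diagonal_one]
      congr 1
      funext i
      by_cases h : i = ⟨0, hn⟩
      · subst h; simp
      · simp [Function.update_of_ne h], by
      rw [diagonal_mul_diagonal, ← diagonal_one]
      congr 1
      funext i
      by_cases h : i = ⟨0, hn⟩
      · subst h; simp
      · simp [Function.update_of_ne h]⟩

theorem dgl_val (hn : 0 < n) (c : Fˣ) : ((dgl hn c : GL (Fin n) F) : Matrix (Fin n) (Fin n) F) =
    diagonal (Function.update (fun _ => 1) ⟨0, hn⟩ (c : F)) := rfl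

theorem dgl_det (hn : 0 < n) (c : Fˣ) :
    det ((dgl hn c : GL (Fin n) F) : Matrix (Fin n) (Fin n) F) = c := by
  rw [dgl_val, det_diagonal, Finset.prod_eq_single ⟨0, hn⟩]
  · simp
  · intro j _ hj
    simp [Function.update_of_ne hj]
  · simp

/-- Diagonal invertible matrices commute. -/
theorem commute_diag {A C : GL (Fin n) F} {a c : Fin n → F}
    (hA : (A : Matrix (Fin n) (Fin n) F) = diagonal a)
    (hC : (C : Matrix (Fin n) (Fin n) F) = diagonal c) : Commute A C := by
  change A * C = C * A
  ext1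
  rw [Units.val_mul, Units.val_mul, hA, hC, diagonal_mul_diagonal, diagonal_mul_diagonal]
  congr 1
  funext i
  exact mul_comm _ _

/-- The conjugating matrix can be chosen of determinant one. -/
theorem exists_sl_conj (hn : 0 < n) (h : GL (Fin n) F) :
    ∃ (h' : SpecialLinearGroup (Fin n) F) (t : GL (Fin n) F) (c : Fin n → F),
      (t : Matrix (Fin n) (Fin n) F) = diagonal c ∧ h = SpecialLinearGroup.toGL h' * t := by
  set c : Fˣ := GeneralLinearGroup.det h with hc
  have hdet : det ((h * (dgl hn c)⁻¹ : GL (Fin n) F) : Matrix (Fin n) (Fin n) F) = 1 := by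
    have h1 : det ((h * (dgl hn c)⁻¹ : GL (Fin n) F) : Matrix (Fin n) (Fin n) F) *
        det ((dgl hn c : GL (Fin n) F) : Matrix (Fin n) (Fin n) F) =
        det (h : Matrix (Fin n) (Fin n) F) := by
      rw [← det_mul, ← Units.val_mul, inv_mul_cancel_right]
    rw [dgl_det] at h1
    have h2 : (c : F) = det (h : Matrix (Fin n) (Fin n) F) := by
      rw [hc]; rfl
    rw [← h2] at h1
    exact mul_right_cancel₀ c.ne_zero (h1.trans (one_mul _).symm)
  let h' : SpecialLinearGroup (Fin n) F :=
    ⟨((h * (dgl hn c)⁻¹ : GL (Fin n) F) : Matrix (Fin n) (Fin n) F), hdet⟩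
  have hz : SpecialLinearGroup.toGL h' = h * (dgl hn c)⁻¹ := by
    ext1
    rfl
  exact ⟨h', dgl hn c, _, dgl_val hn c, by rw [hz, inv_mul_cancel_right]⟩

end alg

section com

variable {k R F D ι : Type*} [Field k] [CommRing R] [TopologicalSpace R]
    [Algebra k R] [Field F] [TopologicalSpace F] [Algebra k F]
    [DivisionRing D] [StarRing D] [Algebra k D] [Fintype ι] {n : ℕ} {B : Basis ι k D}
    (W : Fac k R F) (H : Spl B F n) [StarLin k D]

/-- An element whose projection is diagonalisable commutes with a conjugate of the group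
of the diagonal elements of the factor. -/
theorem exists_commute (hn : 0 < n) {p : unitary (BE B R)} {h t : GL (Fin n) F} {a : Fin n → F}
    (ht : (t : Matrix (Fin n) (Fin n) F) = diagonal a) (hp : pr W H p = h * t * h⁻¹) :
    ∃ h' : SpecialLinearGroup (Fin n) F, ∀ (z : SpecialLinearGroup (Fin n) F) (b : Fin n → F),
      (z : Matrix (Fin n) (Fin n) F) = diagonal b → Commute p (jS W H (h' * z * h'⁻¹)) := by
  obtain ⟨h', s, c, hs, rfl⟩ := exists_sl_conj hn h
  refine ⟨h', fun z b hz => ?_⟩
  rw [jS_apply]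
  apply commute_jG
  have hz' : (SpecialLinearGroup.toGL z : Matrix (Fin n) (Fin n) F) = diagonal b := hz
  have h1 : Commute s t := commute_diag hs ht
  have h2 : pr W H p = SpecialLinearGroup.toGL h' * t * (SpecialLinearGroup.toGL h')⁻¹ := by
    rw [hp, _root_.mul_inv_rev]
    calc SpecialLinearGroup.toGL h' * s * t * (s⁻¹ * (SpecialLinearGroup.toGL h')⁻¹)
        = SpecialLinearGroup.toGL h' * (s * t) * s⁻¹ * (SpecialLinearGroup.toGL h')⁻¹ := by group
      _ = _ := by rw [h1.eq]; group
  have h3 : Commute t (SpecialLinearGroup.toGL z) := commute_diag ht hz'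
  rw [h2, map_mul, map_mul, map_inv]
  change _ * _ = _ * _
  calc SpecialLinearGroup.toGL h' * t * (SpecialLinearGroup.toGL h')⁻¹ *
        (SpecialLinearGroup.toGL h' * SpecialLinearGroup.toGL z * (SpecialLinearGroup.toGL h')⁻¹)
      = SpecialLinearGroup.toGL h' * (t * SpecialLinearGroup.toGL z) *
        (SpecialLinearGroup.toGL h')⁻¹ := by group
    _ = SpecialLinearGroup.toGL h' * (SpecialLinearGroup.toGL z * t) *
        (SpecialLinearGroup.toGL h')⁻¹ := by rw [h3.eq]
    _ = _ := by group

/-- The same for matrices. -/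
theorem exists_commute' (hn : 0 < n) {p : unitary (BE B R)}
    {h h' : Matrix (Fin n) (Fin n) F} {a : Fin n → F} (hh : h * h' = 1)
    (hp : (pr W H p : Matrix (Fin n) (Fin n) F) = h * diagonal a * h') :
    ∃ g : SpecialLinearGroup (Fin n) F, ∀ (z : SpecialLinearGroup (Fin n) F) (b : Fin n → F),
      (z : Matrix (Fin n) (Fin n) F) = diagonal b → Commute p (jS W H (g * z * g⁻¹)) := by
  have hh' : h' * h = 1 := mul_eq_one_comm.1 hh
  let g : GL (Fin n) F := ⟨h, h', hh, hh'⟩
  have hda : (g⁻¹ * pr W H p * g : GL (Fin n) F) = (g⁻¹ * pr W H p * g : GL (Fin n) F) := rfl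
  have ht : ((g⁻¹ * pr W H p * g : GL (Fin n) F) : Matrix (Fin n) (Fin n) F) = diagonal a := by
    rw [Units.val_mul, Units.val_mul, hp]
    change h' * (h * diagonal a * h') * h = diagonal a
    calc h' * (h * diagonal a * h') * h = (h' * h) * diagonal a * (h' * h) := by noncomm_ring
      _ = diagonal a := by rw [hh', one_mul, mul_one]
  exact exists_commute W H hn (h := g) ht (by group)

end com

section elem

variable {F : Type*} [NormedField F] {n : ℕ}

/-- A diagonal element of `SL_n(F)` with entries of pairwise different absolute values. -/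
theorem exists_diag_sl {ϖ : F} (h0 : ϖ ≠ 0) (h1 : ‖ϖ‖ < 1) :
    ∃ (z : SpecialLinearGroup (Fin n) F) (b : Fin n → F),
      (z : Matrix (Fin n) (Fin n) F) = diagonal b ∧ (∀ i, b i ≠ 0) ∧
      ∀ i j : Fin n, i < j → ‖b j‖ < ‖b i‖ := by
  let e : Fin n → ℤ := fun i => 2 * (i : ℤ) - ((n : ℤ) - 1)
  have hsum : ∑ i, e i = 0 := by
    simp only [e]
    rw [Finset.sum_sub_distrib, ← Finset.mul_sum, Finset.sum_const, Finset.card_univ,
      Fintype.card_fin, nsmul_eq_mul]
    have h2 : (∑ i : Fin n, ((i : ℕ) : ℤ)) * 2 = (n : ℤ) * ((n : ℤ) - 1) := by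
      have h3 := Fin.sum_univ_eq_sum_range (fun i : ℕ => (i : ℤ)) n
      rw [h3]
      have h4 := Finset.sum_range_id_mul_two n
      rcases n with _ | m
      · simp
      · have h5 : ((∑ i ∈ Finset.range (m + 1), i) * 2 : ℤ) = ((m + 1 : ℕ) : ℤ) * ((m : ℕ) : ℤ) := by
          have h6 : (((∑ i ∈ Finset.range (m + 1), i) * 2 : ℕ) : ℤ) =
            (((m + 1) * (m + 1 - 1) : ℕ) : ℤ) := by rw [h4]
          push_cast at h6
          simpa using h6
        push_cast at h5 ⊢
        rw [h5]
        ring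
    linarith
  have hb : ∀ i, ϖ ^ (e i) ≠ 0 := fun i => zpow_ne_zero _ h0
  have hprod : ∀ s : Finset (Fin n), ∏ i ∈ s, ϖ ^ (e i) = ϖ ^ (∑ i ∈ s, e i) := by
    intro s
    induction s using Finset.induction_on with
    | empty => simp
    | insert i s hi ih => rw [Finset.prod_insert hi, Finset.sum_insert hi, ih, zpow_add₀ h0]
  have hdet : det (diagonal fun i => ϖ ^ (e i)) = (1 : F) := by
    rw [det_diagonal, hprod, hsum, zpow_zero]
  refine ⟨⟨diagonal fun i => ϖ ^ (e i), hdet⟩, _, rfl, hb, fun i j hij => ?_⟩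
  rw [norm_zpow, norm_zpow]
  refine zpow_lt_zpow_right_of_lt_one₀ (norm_pos_iff.2 h0) h1 ?_
  have : (i : ℤ) < (j : ℤ) := by exact_mod_cast hij
  simp only [e]
  linarith

end elem

end Vale.Agent.P011.H487
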