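import Vale.Agent.P011.H487.HermMat
import Vale.Agent.P011.H961.Loc

/-!
# Unboundedness of the conjugates of a nonscalar isometry, and normal subgroups (T2)
-/

open Matrix Module

namespace Vale.Agent.P011.H487

namespace HForm

variable {K V : Type*} [Field K] [StarRing K] [AddCommGroup V] [Module K V] {h : HForm K V}

/-- the field has enough elements fixed by the involution -/
def Inf (K : Type*) [Field K] [StarRing K] : Prop :=
  ∀ A B C : K, (∀ r : K, r ≠ 0 → star r = r → A * r ^ 2 + C * r + B = 0) → A = 0 ∧ C = 0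

/-- first step: one hyperbolic pair -/
theorem iso_step (hK : StarNT K) (hinf : Inf K) {e f : V} (p : h.Hyp e f) (x : V →ₗ[K] V)
    (hx : ∀ z, h.b z z = 0 → h.b (x z) z = 0) :
    h.b (x f) e = h.b (x e) f ∧ ∀ y, h.b y e = 0 → h.b y f = 0 →
      h.b (x y) e = 0 ∧ h.b (x e) y = 0 ∧ h.b (x y) y = h.b (x e) f * h.b y y := by
  obtain ⟨θ, hθ0, hθ⟩ := exists_theta hK
  have see : h.b (x e) e = 0 := hx e p.ee
  have sff : h.b (x f) f = 0 := hx f p.ff
  have h1 : h.b (x f) e = h.b (x e) f := by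
    have hz : h.b (e + θ • f) (e + θ • f) = 0 := by
      rw [h.add_left, h.smul_left, h.add_right, h.add_right, h.smul_right, h.smul_right, p.ee,
        p.ef, p.fe, p.ff]
      linear_combination hθ
    have h2 := hx _ hz
    rw [map_add, map_smul, h.add_left, h.smul_left, h.add_right, h.add_right, h.smul_right,
      h.smul_right, see, sff] at h2
    have h3 : θ * (h.b (x f) e - h.b (x e) f) = 0 := by
      linear_combination h2 - h.b (x e) f * hθ
    exact sub_eq_zero.1 ((mul_eq_zero.1 h3).resolve_left hθ0)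
  refine ⟨h1, fun y hye hyf => ?_⟩
  have hey : h.b e y = 0 := h.eq_zero_symm hye
  have hfy : h.b f y = 0 := h.eq_zero_symm hyf
  obtain ⟨s, hs⟩ := exists_trace hK (h.star_self y)
  have key : ∀ α : K, α ≠ 0 →
      star α * h.b (x y) e + α * h.b (x e) y = 0 ∧
        h.b (x y) y - h.b (x e) f * h.b y y = 0 := by
    intro α hα
    have hα' : star α ≠ 0 := fun h0 => hα (by rw [← star_star α, h0, star_zero])
    set d : K := star s / star α with hd
    have hd1 : α * star d = s := by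
      rw [hd, star_div₀, star_star, star_star, mul_div_cancel₀ _ hα]
    have hd2 : star α * d = star s := by
      rw [hd, mul_div_cancel₀ _ hα']
    refine hinf _ (star d * h.b (x y) f + d * h.b (x f) y) _ fun r hr0 hr => ?_
    have hri : star r⁻¹ = r⁻¹ := by rw [star_inv₀, hr]
    have hz : h.b (y + (r * α) • e + (r⁻¹ * d) • f) (y + (r * α) • e + (r⁻¹ * d) • f) = 0 := by
      simp only [h.add_left, h.add_right, h.smul_left, h.smul_right, p.ee, p.ff, p.ef, p.fe,
        hye, hyf, hey, hfy, star_mul', hr, hri]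
      have e1 : r * r⁻¹ = 1 := mul_inv_cancel₀ hr0
      linear_combination hs + (s + star s) * e1 + r * r⁻¹ * hd1 + r * r⁻¹ * hd2
    have h2 := hx _ hz
    simp only [map_add, map_smul, h.add_left, h.add_right, h.smul_left, h.smul_right, see, sff,
      h1, star_mul', hr, hri] at h2
    have e1 : r * r⁻¹ = 1 := mul_inv_cancel₀ hr0
    linear_combination r * h2 - (star d * h.b (x y) f + d * h.b (x f) y) * e1 -
      r * h.b (x e) f * hs - r * h.b (x e) f * (s + star s) * e1 -
      r * r⁻¹ * r * h.b (x e) f * hd1 - r * r⁻¹ * r * h.b (x e) f * hd2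
  obtain ⟨θ', hθ'⟩ := hK
  have hθ'0 : θ' ≠ 0 := by
    rintro rfl
    exact hθ' (star_zero _)
  have k1 := key 1 one_ne_zero
  have k2 := key θ' hθ'0
  rw [star_one, one_mul, one_mul] at k1
  have h3 : (star θ' - θ') * h.b (x y) e = 0 := by
    linear_combination k2.1 - θ' * k1.1
  have h4 : h.b (x y) e = 0 := (mul_eq_zero.1 h3).resolve_left (sub_ne_zero.2 hθ')
  refine ⟨h4, ?_, sub_eq_zero.1 k1.2⟩
  have := k1.1
  rwa [h4, zero_add] at this

/-- **A linear map whose hermitian values vanish on the isotropic vectors is scalar.** -/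
theorem scalar_of_iso (hK : StarNT K) (hinf : Inf K) (hnd : h.Nondeg) {e f : V} (p : h.Hyp e f)
    (x : V →ₗ[K] V) (hx : ∀ z, h.b z z = 0 → h.b (x z) z = 0) : ∃ c : K, ∀ v, x v = c • v := by
  obtain ⟨h1, h2⟩ := iso_step hK hinf p x hx
  obtain ⟨h1', h2'⟩ := iso_step hK hinf p.swap x hx
  set c := h.b (x e) f with hc
  have see : h.b (x e) e = 0 := hx e p.ee
  have sff : h.b (x f) f = 0 := hx f p.ff
  -- the values on the diagonal
  have hdiag : ∀ v, h.b (x v) v = c * h.b v v := by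
    intro v
    obtain ⟨y, hye, hyf, hv⟩ := p.decomp v
    obtain ⟨a1, a2, a3⟩ := h2 y hye hyf
    obtain ⟨b1, b2, -⟩ := h2' y hyf hye
    generalize h.b v f = α at hv
    generalize h.b v e = β at hv
    rw [hv]
    simp only [map_add, map_smul, h.add_left, h.add_right, h.smul_left, h.smul_right, see, sff,
      h1, a1, a2, a3, b1, b2, p.ee, p.ff, p.ef, p.fe, hye, hyf, h.eq_zero_symm hye,
      h.eq_zero_symm hyf, ← hc]
    ring
  -- polarization
  have hpol : ∀ v w, h.b (x v) w = c * h.b v w := by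
    intro v w
    have key : ∀ a : K, star a * (h.b (x v) w - c * h.b v w) +
        a * (h.b (x w) v - c * h.b w v) = 0 := by
      intro a
      have e1 := hdiag (v + a • w)
      have e2 := hdiag v
      have e3 := hdiag w
      simp only [map_add, map_smul, h.add_left, h.add_right, h.smul_left, h.smul_right] at e1
      linear_combination e1 - e2 - a * star a * e3
    obtain ⟨θ', hθ'⟩ := hK
    have k1 := key 1
    have k2 := key θ'
    rw [star_one, one_mul, one_mul] at k1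
    have h3 : (star θ' - θ') * (h.b (x v) w - c * h.b v w) = 0 := by
      linear_combination k2 - θ' * k1
    exact sub_eq_zero.1 ((mul_eq_zero.1 h3).resolve_left (sub_ne_zero.2 hθ'))
  refine ⟨c, fun v => ?_⟩
  rw [← sub_eq_zero]
  apply hnd
  intro w
  apply h.eq_zero_symm
  rw [h.sub_left, h.smul_left, hpol, sub_self]

/-- Finitely many isotropic vectors detect the scalars. -/
theorem exists_finite_iso [FiniteDimensional K V] (hK : StarNT K) (hinf : Inf K) (hnd : h.Nondeg)
    (hiso : ∃ z, z ≠ 0 ∧ h.b z z = 0) :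
    ∃ F : Finset V, (∀ z ∈ F, z ≠ 0 ∧ h.b z z = 0) ∧ ∀ x : V →ₗ[K] V,
      (∀ z ∈ F, h.b (x z) z = 0) → ∃ c : K, ∀ v, x v = c • v := by
  classical
  obtain ⟨e, he0, he⟩ := hiso
  obtain ⟨f, p⟩ := exists_hyp hK hnd he0 he
  let φ : V → Dual K (V →ₗ[K] V) := fun z =>
    { toFun := fun x => h.b (x z) z
      map_add' := fun x y => by rw [LinearMap.add_apply, h.add_left]
      map_smul' := fun a x => by
        rw [LinearMap.smul_apply, h.smul_left, RingHom.id_apply, smul_eq_mul] }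
  let I : Set V := {z | z ≠ 0 ∧ h.b z z = 0}
  have hfg : (Submodule.span K (φ '' I)).FG := IsNoetherian.noetherian _
  obtain ⟨t, ht, hspan⟩ := Submodule.fg_span_iff_fg_span_finset_subset _ |>.1 hfg
  obtain ⟨F, hF, hFt⟩ := Finset.subset_set_image_iff.1 ht
  refine ⟨F, fun z hz => hF hz, fun x hx => ?_⟩
  refine scalar_of_iso hK hinf hnd p x fun z hz => ?_
  by_cases hz0 : z = 0
  · rw [hz0, h.zero_right]
  have h1 : φ z ∈ Submodule.span K (t : Set (Dual K (V →ₗ[K] V))) := by
    rw [← hspan]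
    exact Submodule.subset_span ⟨z, ⟨hz0, hz⟩, rfl⟩
  have h2 : ∀ ψ ∈ Submodule.span K (t : Set (Dual K (V →ₗ[K] V))), ψ x = 0 := by
    intro ψ hψ
    induction hψ using Submodule.span_induction with
    | mem ψ hψ =>
      rw [← hFt, Finset.coe_image] at hψ
      obtain ⟨w, hw, rfl⟩ := hψ
      exact hx w hw
    | zero => rfl
    | add a b _ _ ha hb => rw [LinearMap.add_apply, ha, hb, add_zero]
    | smul a b _ hb => rw [LinearMap.smul_apply, hb, smul_zero]
  exact h2 _ h1

end HForm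

section mat

open Vale.Agent.P011.H961

variable {L : Type*} [NontriviallyNormedField L] [StarRing L]

/-- an element fixed by the involution of norm greater than one -/
theorem exists_real (hst : ∀ x : L, ‖star x‖ = ‖x‖) : ∃ t : L, star t = t ∧ 1 < ‖t‖ := by
  obtain ⟨x, hx⟩ := NormedField.exists_one_lt_norm L
  refine ⟨x * star x, by rw [star_mul', star_star, mul_comm], ?_⟩
  rw [norm_mul, hst]
  nlinarith

theorem inf_of_norm (hst : ∀ x : L, ‖star x‖ = ‖x‖) : HForm.Inf L := by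
  obtain ⟨t, ht, ht1⟩ := exists_real hst
  intro A B C h
  have ht0 : t ≠ 0 := by
    rintro rfl
    rw [norm_zero] at ht1
    linarith
  have htn : t ≠ 1 := by
    rintro rfl
    rw [norm_one] at ht1
    exact lt_irrefl _ ht1
  have ht2 : t ^ 2 ≠ 1 := by
    intro h2
    have : ‖t‖ ^ 2 = 1 := by rw [← norm_pow, h2, norm_one]
    nlinarith
  have e1 := h 1 one_ne_zero (star_one _)
  have e2 := h t ht0 ht
  have e3 := h (t ^ 2) (pow_ne_zero _ ht0) (by rw [star_pow, ht])
  have f1 : A * (t + 1) + C = 0 := by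
    have : (t - 1) * (A * (t + 1) + C) = 0 := by linear_combination e2 - e1
    exact (mul_eq_zero.1 this).resolve_left (sub_ne_zero.2 htn)
  have f2 : A * (t ^ 2 + 1) + C = 0 := by
    have : (t ^ 2 - 1) * (A * (t ^ 2 + 1) + C) = 0 := by linear_combination e3 - e1
    exact (mul_eq_zero.1 this).resolve_left (sub_ne_zero.2 ht2)
  have f3 : t * (t - 1) * A = 0 := by linear_combination f2 - f1
  have hA : A = 0 := (mul_eq_zero.1 f3).resolve_left (mul_ne_zero ht0 (sub_ne_zero.2 htn))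
  refine ⟨hA, ?_⟩
  rw [hA, zero_mul, zero_add] at f1
  exact f1

variable {n : ℕ} {H : Matrix (Fin n) (Fin n) L}

/-- **Conjugates of a nonscalar isometry are unbounded.** -/
theorem unbd_u (hne : ∃ x : L, star x ≠ x) (hst : ∀ x : L, ‖star x‖ = ‖x‖)
    (hH : Hᴴ = H) (hdet : H.det ≠ 0)
    (hiso : ∃ x : Fin n → L, x ≠ 0 ∧ x ⬝ᵥ (H *ᵥ star x) = 0) : Unbd (UH H) := by
  classical
  have hJ := isHerm_inv hH
  obtain ⟨t, ht, ht1⟩ := exists_real hst
  have ht0 : t ≠ 0 := by
    rintro rfl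
    rw [norm_zero] at ht1
    linarith
  set h := colForm H⁻¹ hJ with hh
  have hnd : h.Nondeg := colForm_nondeg hdet hJ
  obtain ⟨F, hF, hFs⟩ := HForm.exists_finite_iso (h := h) hne (inf_of_norm hst) hnd
    (colForm_iso hH hdet hJ hiso)
  -- the torus elements
  have htor : ∀ z : Fin n → L, ∃ τ : (Matrix (Fin n) (Fin n) L)ˣ, z ∈ F →
      τ ∈ UH H ∧ unitEquiv τ z = t • z := by
    intro z
    by_cases hz : z ∈ F
    · obtain ⟨f, p⟩ := HForm.exists_hyp hne hnd (hF z hz).1 (hF z hz).2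
      obtain ⟨g, hg, hg1, -, -⟩ := p.tor hne ht0 ht
      obtain ⟨τ, hτ⟩ := unitEquiv.surjective g
      refine ⟨τ, fun _ => ⟨(unitEquiv_mem_U hdet hJ τ).1 ?_, by rw [hτ, hg1]⟩⟩
      rw [hτ]
      exact h.T_le_U hg
    · exact ⟨1, fun h => absurd h hz⟩
  choose τ hτ using htor
  let N : Matrix (Fin n) (Fin n) L → ℝ := fun X => ∑ i, ∑ j, ‖X i j‖
  have hN0 : ∀ X, 0 ≤ N X := fun X =>
    Finset.sum_nonneg fun _ _ => Finset.sum_nonneg fun _ _ => norm_nonneg _
  have hN : ∀ X i j, ‖X i j‖ ≤ N X := fun X i j =>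
    (Finset.single_le_sum (f := fun j => ‖X i j‖) (fun _ _ => norm_nonneg _)
      (Finset.mem_univ j)).trans
    (Finset.single_le_sum (f := fun i => ∑ j, ‖X i j‖)
      (fun _ _ => Finset.sum_nonneg fun _ _ => norm_nonneg _) (Finset.mem_univ i))
  let Rz : (Fin n → L) → ℝ := fun z => N (τ z : Matrix (Fin n) (Fin n) L) +
    N (((τ z)⁻¹ : (Matrix (Fin n) (Fin n) L)ˣ) : Matrix (Fin n) (Fin n) L)
  have hRz0 : ∀ z, 0 ≤ Rz z := fun z => add_nonneg (hN0 _) (hN0 _)
  refine ⟨∑ z ∈ F, Rz z, fun x hx hxs R1 => ?_⟩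
  -- an isotropic vector detecting x
  have hex : ∃ z ∈ F, h.b (unitEquiv x z) z ≠ 0 := by
    by_contra hcon
    push Not at hcon
    obtain ⟨c, hc⟩ := hFs (unitEquiv x : (Fin n → L) →ₗ[L] (Fin n → L)) hcon
    apply hxs c
    apply Matrix.ext_of_mulVec_single
    intro j
    rw [smul_mulVec, one_mulVec]
    exact hc _
  obtain ⟨z, hz, hzx⟩ := hex
  obtain ⟨hτU, hτz⟩ := hτ z hz
  -- the constant
  set C : ℝ := ∑ i, ‖z i‖ * ∑ j, ‖H⁻¹ i j‖ * ∑ k, ‖z k‖ with hC
  have hbound : ∀ X : Matrix (Fin n) (Fin n) L, Eb R1 X → ‖h.b (X *ᵥ z) z‖ ≤ C * R1 := by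
    intro X hX
    rw [hh, colForm_b, hC, Finset.sum_mul]
    change ‖∑ i, star z i * (H⁻¹ *ᵥ (X *ᵥ z)) i‖ ≤ _
    refine (norm_sum_le _ _).trans (Finset.sum_le_sum fun i _ => ?_)
    rw [norm_mul, Pi.star_apply, hst, mul_assoc]
    refine mul_le_mul_of_nonneg_left ?_ (norm_nonneg _)
    rw [Finset.sum_mul]
    change ‖∑ j, H⁻¹ i j * (X *ᵥ z) j‖ ≤ _
    refine (norm_sum_le _ _).trans (Finset.sum_le_sum fun j _ => ?_)
    rw [norm_mul, mul_assoc]
    refine mul_le_mul_of_nonneg_left ?_ (norm_nonneg _)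
    rw [Finset.sum_mul]
    change ‖∑ k, X j k * z k‖ ≤ _
    refine (norm_sum_le _ _).trans (Finset.sum_le_sum fun k _ => ?_)
    rw [norm_mul, mul_comm]
    exact mul_le_mul_of_nonneg_left (hX j k) (norm_nonneg _)
  -- the power
  obtain ⟨m, hm⟩ : ∃ m : ℕ, C * R1 < (‖t‖ ^ 2) ^ m * ‖h.b (unitEquiv x z) z‖ := by
    have h1 : Filter.Tendsto (fun m : ℕ => (‖t‖ ^ 2) ^ m * ‖h.b (unitEquiv x z) z‖) Filter.atTop
        Filter.atTop := by
      refine Filter.Tendsto.atTop_mul_const (norm_pos_iff.2 hzx) ?_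
      refine tendsto_pow_atTop_atTop_of_one_lt ?_
      nlinarith
    obtain ⟨m, hm⟩ := (h1.eventually_gt_atTop (C * R1)).exists
    exact ⟨m, hm⟩
  refine ⟨List.replicate m (τ z), fun s hs => ?_, fun hEb => ?_⟩
  · rw [List.eq_of_mem_replicate hs]
    have hle : Rz z ≤ ∑ z ∈ F, Rz z := Finset.single_le_sum (fun z _ => hRz0 z) hz
    refine ⟨hτU, fun i j => ?_, fun i j => ?_⟩
    · exact (hN _ i j).trans ((le_add_of_nonneg_right (hN0 _)).trans hle)
    · exact (hN _ i j).trans ((le_add_of_nonneg_left (hN0 _)).trans hle)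
  · rw [List.prod_replicate] at hEb
    have hpow : ∀ m : ℕ, unitEquiv (τ z ^ m) z = t ^ m • z := by
      intro m
      induction m with
      | zero => rw [pow_zero, pow_zero, one_smul, map_one]; rfl
      | succ m ih =>
        rw [pow_succ, map_mul, LinearEquiv.mul_apply, hτz, map_smul, ih, smul_smul, pow_succ,
          mul_comm]
    have hP : unitEquiv (τ z ^ m) ∈ h.U :=
      (unitEquiv_mem_U hdet hJ _).2 ((UH H).pow_mem hτU m)
    have h1 := hbound _ hEb
    rw [← unitEquiv_apply, map_mul, map_mul, map_inv, LinearEquiv.mul_apply,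
      LinearEquiv.mul_apply, h.b_inv hP, hpow, map_smul, h.smul_left, h.smul_right, norm_mul,
      norm_mul, hst, norm_pow, ← mul_assoc, ← mul_pow, ← pow_two] at h1
    exact absurd hm (not_lt.2 h1)

/-- **Normal subgroups of the unitary group.** -/
theorem locN_u (hne : ∃ x : L, star x ≠ x) (hst : ∀ x : L, ‖star x‖ = ‖x‖)
    (hH : Hᴴ = H) (hdet : H.det ≠ 0)
    (hiso : ∃ x : Fin n → L, x ≠ 0 ∧ x ⬝ᵥ (H *ᵥ star x) = 0) : LocN (UH H) := by
  intro Γ hΓ hnorm hns g hg hgd
  obtain ⟨t, ht, ht1⟩ := exists_real hst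
  have ht0 : t ≠ 0 := by
    rintro rfl
    rw [norm_zero] at ht1
    linarith
  refine mat_NS2 hne ⟨t, ht0, ht, fun h4 => ?_⟩ hH hdet hiso (fun T hT => hΓ hT)
    (fun S hS _ T hT => hnorm S hS T hT) hns g hg hgd
  have : ‖t‖ ^ 4 = 1 := by rw [← norm_pow, h4, norm_one]
  have h2 : 1 < ‖t‖ ^ 4 := one_lt_pow₀ ht1 (by norm_num)
  linarith

end mat

end Vale.Agent.P011.H487
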