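import Vale.Agent.P011.H487.Lin

/-!
Matrix forms of (S2).
-/

open Matrix

namespace Vale.Agent.P011.H487.Lin

variable {D ι : Type*} [DivisionRing D] [Fintype ι] [DecidableEq ι]

/-- the action on rows -/
noncomputable def rowAct : (Matrix ι ι D)ˣ →* ((ι → D) ≃ₗ[D] (ι → D)) where
  toFun T := LinearEquiv.ofLinearMap (vecMulLinear ((T⁻¹ : (Matrix ι ι D)ˣ) : Matrix ι ι D))
    (vecMulLinear (T : Matrix ι ι D))
    (by
      refine LinearMap.ext fun x => ?_
      rw [LinearMap.comp_apply, vecMulLinear_apply, vecMulLinear_apply, vecMul_vecMul, T.mul_inv,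
        vecMul_one]; rfl)
    (by
      refine LinearMap.ext fun x => ?_
      rw [LinearMap.comp_apply, vecMulLinear_apply, vecMulLinear_apply, vecMul_vecMul, T.inv_mul,
        vecMul_one]; rfl)
  map_one' := by
    ext x i
    simp
  map_mul' S T := by
    ext x i
    simp [vecMul_vecMul]

theorem rowAct_apply (T : (Matrix ι ι D)ˣ) (x : ι → D) :
    rowAct T x = x ᵥ* ((T⁻¹ : (Matrix ι ι D)ˣ) : Matrix ι ι D) := rfl

theorem rowAct_inj : Function.Injective (rowAct (D := D) (ι := ι)) := by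
  intro S T hST
  have : (S⁻¹ : (Matrix ι ι D)ˣ) = T⁻¹ := by
    apply Units.ext
    ext i j
    have := congrFun (congrArg (fun g : (ι → D) ≃ₗ[D] (ι → D) => g (Pi.single i 1)) hST) j
    rw [rowAct_apply, rowAct_apply] at this
    simpa using this
  exact inv_injective this

/-- The transvection `1 + r x` (`r` column, `x` row, `x r = 0`). -/
def tvm (r x : ι → D) (h : x ⬝ᵥ r = 0) : (Matrix ι ι D)ˣ where
  val := 1 + vecMulVec r x
  inv := 1 - vecMulVec r x
  val_inv := by
    have : vecMulVec r x * vecMulVec r x = 0 := by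
      ext i j
      simp only [Matrix.mul_apply, vecMulVec_apply, Matrix.zero_apply]
      have : ∀ k, r i * x k * (r k * x j) = r i * (x k * r k) * x j := fun k => by
        simp only [mul_assoc]
      simp only [this]
      rw [← Finset.sum_mul, ← Finset.mul_sum]
      have h2 : ∑ k, x k * r k = 0 := h
      rw [h2]; simp
    rw [mul_sub, mul_one, add_mul, one_mul, this]; abel
  inv_val := by
    have : vecMulVec r x * vecMulVec r x = 0 := by
      ext i j
      simp only [Matrix.mul_apply, vecMulVec_apply, Matrix.zero_apply]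
      have : ∀ k, r i * x k * (r k * x j) = r i * (x k * r k) * x j := fun k => by
        simp only [mul_assoc]
      simp only [this]
      rw [← Finset.sum_mul, ← Finset.mul_sum]
      have h2 : ∑ k, x k * r k = 0 := h
      rw [h2]; simp
    rw [mul_add, mul_one, sub_mul, one_mul, this]; abel

theorem tvm_val (r x : ι → D) (h : x ⬝ᵥ r = 0) :
    ((tvm r x h : (Matrix ι ι D)ˣ) : Matrix ι ι D) = 1 + vecMulVec r x := rfl

theorem tvm_inv_val (r x : ι → D) (h : x ⬝ᵥ r = 0) :
    (((tvm r x h)⁻¹ : (Matrix ι ι D)ˣ) : Matrix ι ι D) = 1 - vecMulVec r x := rfl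

omit [DecidableEq ι] in
theorem vecMul_vecMulVec' (y r x : ι → D) : y ᵥ* vecMulVec r x = (y ⬝ᵥ r) • x := by
  ext j
  simp only [vecMul, dotProduct, vecMulVec_apply, Pi.smul_apply, smul_eq_mul, Finset.sum_mul,
    mul_assoc]

/-- every abstract transvection comes from a matrix -/
theorem tau_eq (φ : (ι → D) →ₗ[D] D) (x : ι → D) (h : φ x = 0) :
    ∃ r, ∃ h' : x ⬝ᵥ r = 0, tau φ x = rowAct (tvm r x h')⁻¹ := by
  have hφ : ∀ y : ι → D, φ y = y ⬝ᵥ fun i => φ (Pi.single i 1) := by
    intro y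
    conv_lhs => rw [← Finset.univ_sum_single y]
    rw [map_sum]
    apply Finset.sum_congr rfl
    intro i _
    have : Pi.single i (y i) = y i • (Pi.single i (1 : D) : ι → D) := by
      rw [← Pi.single_smul, smul_eq_mul, mul_one]
    rw [this, map_smul, smul_eq_mul]
  refine ⟨fun i => φ (Pi.single i 1), by rw [← hφ, h], ?_⟩
  ext y j
  rw [tau_apply h, rowAct_apply, inv_inv, tvm_val, vecMul_add, vecMul_one, vecMul_vecMulVec',
    ← hφ]

theorem tvm_eq (r x : ι → D) (h : x ⬝ᵥ r = 0) :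
    ∃ φ : (ι → D) →ₗ[D] D, φ x = 0 ∧ tau φ x = rowAct (tvm r x h)⁻¹ := by
  refine ⟨LinearMap.mk (AddHom.mk (fun y => y ⬝ᵥ r) (fun y z => add_dotProduct _ _ _))
    (fun c y => smul_dotProduct _ _ _), h, ?_⟩
  ext y j
  rw [tau_apply (by exact h), rowAct_apply, inv_inv, tvm_val, vecMul_add, vecMul_one,
    vecMul_vecMulVec']
  rfl

/-- **(S2) for matrices over a division ring.** -/
theorem mat_S2 {a : D} (ha0 : a ≠ 0) (hac : ∀ x : D, a * x = x * a) (ha4 : a ^ 4 ≠ 1)
    (hι : 2 ≤ Fintype.card ι) {Γ : Subgroup (Matrix ι ι D)ˣ}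
    (hΓ : ∀ (r x : ι → D) (h : x ⬝ᵥ r = 0), ∀ T ∈ Γ, tvm r x h * T * (tvm r x h)⁻¹ ∈ Γ)
    (hns : ∃ T ∈ Γ, ∀ c : D, (∀ x : D, c * x = x * c) →
      (T : Matrix ι ι D) ≠ diagonal fun _ => c) (r x : ι → D) (h : x ⬝ᵥ r = 0) :
    tvm r x h ∈ Γ := by
  have hgen : ∀ (φ : (ι → D) →ₗ[D] D) (y : ι → D), φ y = 0 → ∀ g ∈ Γ.map rowAct,
      tau φ y * g * (tau φ y)⁻¹ ∈ Γ.map rowAct := by
    rintro φ y hy _ ⟨T, hT, rfl⟩
    have hy' : φ (-y) = 0 := by rw [map_neg, hy, neg_zero]
    obtain ⟨r', h', he⟩ := tau_eq φ (-y) hy'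
    have h1 : tau φ y = rowAct (tvm r' (-y) h') := by
      rw [← _root_.inv_inj, tau_inv hy, he, map_inv]
    rw [h1, ← map_inv, ← map_mul, ← map_mul]
    exact ⟨_, hΓ _ _ _ _ hT, rfl⟩
  have hgen2 : ∀ t ∈ E D (ι → D), ∀ g ∈ Γ.map rowAct,
      t * g * t⁻¹ ∈ Γ.map rowAct ∧ t⁻¹ * g * t ∈ Γ.map rowAct := by
    intro t ht
    unfold E at ht
    induction ht using Subgroup.closure_induction with
    | mem t ht =>
      obtain ⟨φ, y, hy, rfl⟩ := ht
      intro g hg
      have hy' : φ (-y) = 0 := by rw [map_neg, hy, neg_zero]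
      refine ⟨hgen φ y hy g hg, ?_⟩
      have := hgen φ (-y) hy' g hg
      rwa [← tau_inv hy, inv_inv] at this
    | one => intro g hg; simpa using hg
    | mul s t _ _ hs ht =>
      intro g hg
      constructor
      · have := (hs _ (ht g hg).1).1
        rwa [show s * (t * g * t⁻¹) * s⁻¹ = s * t * g * (s * t)⁻¹ by group] at this
      · have := (ht _ (hs g hg).2).2
        rwa [show t⁻¹ * (s⁻¹ * g * s) * t = (s * t)⁻¹ * g * (s * t) by group] at this
    | inv t _ ht =>
      intro g hg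
      rw [inv_inv]
      exact ⟨(ht g hg).2, (ht g hg).1⟩
  have hle : E D (ι → D) ≤ Γ.map rowAct := by
    refine E_le_of_normal ha0 hac ha4 (fun t ht g hg => (hgen2 t ht g hg).1) ?_
    obtain ⟨T, hT, hTn⟩ := hns
    obtain ⟨i, j, hij⟩ := Fintype.one_lt_card_iff.1 (by omega : 1 < Fintype.card ι)
    refine ⟨rowAct T, ⟨T, hT, rfl⟩, ?_⟩
    refine exists_moved (x0 := (Pi.single i 1 : ι → D)) (w0 := Pi.single j 1) ?_ ?_ ?_
    · intro h0
      have := congrFun h0 i
      rw [Pi.single_eq_same] at this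
      exact one_ne_zero this
    · intro c hc
      have := congrFun hc j
      rw [Pi.single_eq_same, Pi.smul_apply, Pi.single_eq_of_ne (Ne.symm hij), smul_zero] at this
      exact one_ne_zero this
    · intro c hc
      by_contra hne
      push Not at hne
      have hc0 : c ≠ 0 := by
        rintro rfl
        have h1 := hne (Pi.single i 1)
        rw [zero_smul] at h1
        have h2 : (Pi.single i 1 : ι → D) = 0 := by
          rw [← inv_apply (rowAct T) (Pi.single i 1), h1, map_zero]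
        have := congrFun h2 i
        rw [Pi.single_eq_same] at this
        exact one_ne_zero this
      have hc' : ∀ x : D, c⁻¹ * x = x * c⁻¹ := by
        intro x
        rw [eq_mul_inv_iff_mul_eq₀ hc0, mul_assoc, ← hc, inv_mul_cancel_left₀ hc0]
      apply hTn c⁻¹ hc'
      -- x = c (x T⁻¹)... apply at x T
      ext k l
      have h1 := hne ((Pi.single k 1 : ι → D) ᵥ* (T : Matrix ι ι D))
      rw [rowAct_apply, vecMul_vecMul, T.mul_inv, vecMul_one] at h1
      have h2 := congrFun h1 l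
      rw [Pi.smul_apply, smul_eq_mul, single_one_vecMul] at h2
      have h3 : (T : Matrix ι ι D) k l = c⁻¹ * (Pi.single k 1 : ι → D) l := by
        rw [h2, inv_mul_cancel_left₀ hc0]; rfl
      rw [h3]
      by_cases hkl : k = l
      · subst hkl; rw [Pi.single_eq_same, diagonal_apply_eq, mul_one]
      · rw [Pi.single_eq_of_ne (Ne.symm hkl), diagonal_apply_ne _ hkl, mul_zero]
  obtain ⟨φ, hφ, he⟩ := tvm_eq r x h
  have h1 := hle (tau_mem hφ)
  rw [he] at h1
  obtain ⟨S, hS, hS'⟩ := h1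
  have h2 := rowAct_inj hS'
  rw [h2] at hS
  simpa using inv_mem hS

section field

variable {F : Type*} [Field F]

/-- diagonal units -/
def dg : (ι → Fˣ) →* (Matrix ι ι F)ˣ where
  toFun u := ⟨diagonal fun i => (u i : F), diagonal fun i => ((u i)⁻¹ : Fˣ),
    by rw [diagonal_mul_diagonal]; simp, by rw [diagonal_mul_diagonal]; simp⟩
  map_one' := by ext i j; simp
  map_mul' u v := by
    apply Units.ext
    exact (diagonal_mul_diagonal _ _).symm

theorem dg_val (u : ι → Fˣ) : ((dg u : (Matrix ι ι F)ˣ) : Matrix ι ι F) =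
    diagonal fun i => (u i : F) := rfl

/-- the torus elements are products of transvections -/
theorem dg_mem {Γ : Subgroup (Matrix ι ι F)ˣ} (hE : E F (ι → F) ≤ Γ.map rowAct)
    (u : ι → Fˣ) (hu : ∏ i, u i = 1) : dg u ∈ Γ := by
  rcases isEmpty_or_nonempty ι with hι | ⟨⟨i0⟩⟩
  · have : dg u = 1 := by
      apply Units.ext; ext i; exact hι.elim i
    rw [this]; exact one_mem _
  have key : ∀ i : ι, ∀ a : Fˣ, dg (Pi.mulSingle i a * Pi.mulSingle i0 a⁻¹) ∈ Γ := by
    intro i a
    by_cases hi : i = i0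
    · rw [hi, ← Pi.mulSingle_mul, mul_inv_cancel, Pi.mulSingle_one, map_one]; exact one_mem _
    have p : Dp (Pi.single i 1 : ι → F) (Pi.single i0 1) (LinearMap.proj i)
        (LinearMap.proj i0) := by
      refine ⟨?_, ?_, ?_, ?_⟩
      · simp
      · rw [LinearMap.proj_apply, Pi.single_eq_of_ne hi]
      · rw [LinearMap.proj_apply, Pi.single_eq_of_ne (Ne.symm hi)]
      · simp
    obtain ⟨g, hg, hge, hgf, hgy⟩ := p.tor a.ne_zero
    obtain ⟨S, hS, hS'⟩ := hE hg
    have : S⁻¹ = dg (Pi.mulSingle i a * Pi.mulSingle i0 a⁻¹) := by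
      apply Units.ext
      ext k l
      have h1 : (Pi.single k 1 : ι → F) ᵥ* ((S⁻¹ : (Matrix ι ι F)ˣ) : Matrix ι ι F) =
          g (Pi.single k 1) := by
        rw [← rowAct_apply]
        exact congrArg (fun g : (ι → F) ≃ₗ[F] (ι → F) => g (Pi.single k 1)) hS'
      have h2 := congrFun h1 l
      rw [single_one_vecMul] at h2
      have h3 : ((S⁻¹ : (Matrix ι ι F)ˣ) : Matrix ι ι F) k l = g (Pi.single k 1) l := h2
      rw [h3, dg_val]
      by_cases hki : k = i
      · rw [hki, hge, Pi.smul_apply, smul_eq_mul]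
        by_cases hl : i = l
        · subst hl
          rw [Pi.single_eq_same, diagonal_apply_eq, Pi.mul_apply, Pi.mulSingle_eq_same,
            Pi.mulSingle_eq_of_ne hi, mul_one, mul_one]
        · rw [Pi.single_eq_of_ne (Ne.symm hl), diagonal_apply_ne _ hl, mul_zero]
      · by_cases hk0 : k = i0
        · rw [hk0, hgf, Pi.smul_apply, smul_eq_mul]
          by_cases hl : i0 = l
          · subst hl
            rw [Pi.single_eq_same, diagonal_apply_eq, Pi.mul_apply,
              Pi.mulSingle_eq_of_ne (Ne.symm hi), Pi.mulSingle_eq_same, one_mul, mul_one,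
              Units.val_inv_eq_inv_val]
          · rw [Pi.single_eq_of_ne (Ne.symm hl), diagonal_apply_ne _ hl, mul_zero]
        · rw [hgy _ (by rw [LinearMap.proj_apply, Pi.single_eq_of_ne (Ne.symm hki)])
            (by rw [LinearMap.proj_apply, Pi.single_eq_of_ne (Ne.symm hk0)])]
          by_cases hl : k = l
          · subst hl
            rw [Pi.single_eq_same, diagonal_apply_eq, Pi.mul_apply, Pi.mulSingle_eq_of_ne hki,
              Pi.mulSingle_eq_of_ne hk0, one_mul, Units.val_one]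
          · rw [Pi.single_eq_of_ne (Ne.symm hl), diagonal_apply_ne _ hl]
    rw [← this]; exact inv_mem hS
  have h1 : u = ∏ i, (Pi.mulSingle i (u i) * Pi.mulSingle i0 (u i)⁻¹) := by
    rw [Finset.prod_mul_distrib, Finset.univ_prod_mulSingle]
    have : ∏ i, (Pi.mulSingle i0 (u i)⁻¹ : ι → Fˣ) = 1 := by
      have h2 := map_prod (MonoidHom.mulSingle (fun _ : ι => Fˣ) i0) (fun i => (u i)⁻¹)
        Finset.univ
      rw [Finset.prod_inv_distrib, hu, inv_one, map_one] at h2
      exact h2.symm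
    rw [this, mul_one]
  have h3 : u ∈ Γ.comap dg := by
    rw [h1]
    exact prod_mem fun i _ => key i (u i)
  exact h3

/-- `SL` is generated by the transvections -/
theorem SL_mem {Γ : Subgroup (Matrix ι ι F)ˣ}
    (hΓ : ∀ (r x : ι → F) (h : x ⬝ᵥ r = 0), tvm r x h ∈ Γ) (T : (Matrix ι ι F)ˣ)
    (hT : (T : Matrix ι ι F).det = 1) : T ∈ Γ := by
  have hE : E F (ι → F) ≤ Γ.map rowAct := by
    unfold E
    rw [Subgroup.closure_le]
    rintro _ ⟨φ, x, hφ, rfl⟩
    obtain ⟨r, h', he⟩ := tau_eq φ x hφ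
    exact ⟨_, inv_mem (hΓ r x h'), he.symm⟩
  have htr : ∀ L : List (TransvectionStruct ι F), ∃ S ∈ Γ,
      ((S : (Matrix ι ι F)ˣ) : Matrix ι ι F) =
        (L.map TransvectionStruct.toMatrix).prod := by
    intro L
    induction L with
    | nil => exact ⟨1, one_mem _, by simp⟩
    | cons t L ih =>
      obtain ⟨S, hS, hS'⟩ := ih
      have hx : (Pi.single t.j 1 : ι → F) ⬝ᵥ Pi.single t.i t.c = 0 := by
        rw [dotProduct_single, Pi.single_eq_of_ne t.hij, zero_mul]
      refine ⟨tvm _ _ hx * S, mul_mem (hΓ _ _ _) hS, ?_⟩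
      rw [Units.val_mul, hS', List.map_cons, List.prod_cons, tvm_val]
      congr 1
      unfold TransvectionStruct.toMatrix Matrix.transvection
      congr 1
      ext k l
      rw [vecMulVec_apply, Matrix.single_apply]
      by_cases h1 : t.i = k
      · by_cases h2 : t.j = l
        · subst h1 h2; simp
        · rw [Pi.single_eq_of_ne (Ne.symm h2), mul_zero, if_neg (fun h => h2 h.2)]
      · rw [Pi.single_eq_of_ne (Ne.symm h1), zero_mul, if_neg (fun h => h1 h.1)]
  obtain ⟨L, L', d, hd⟩ :=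
    Matrix.Pivot.exists_list_transvec_mul_diagonal_mul_list_transvec (T : Matrix ι ι F)
  obtain ⟨P, hP, hP'⟩ := htr L
  obtain ⟨Q, hQ, hQ'⟩ := htr L'
  have hdet : ∏ i, d i = 1 := by
    rw [hd, det_mul, det_mul, TransvectionStruct.det_toMatrix_prod,
      TransvectionStruct.det_toMatrix_prod, det_diagonal, one_mul, mul_one] at hT
    exact hT
  have hd0 : ∀ i, d i ≠ 0 := by
    intro i h0
    rw [Finset.prod_eq_zero (Finset.mem_univ i) h0] at hdet
    exact zero_ne_one hdet
  have h1 := dg_mem hE (fun i => Units.mk0 (d i) (hd0 i)) (by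
    apply Units.ext
    rw [Units.coe_prod]; exact hdet)
  have h2 : T = P * dg (fun i => Units.mk0 (d i) (hd0 i)) * Q := by
    apply Units.ext
    rw [Units.val_mul, Units.val_mul, dg_val, hP', hQ', hd]; rfl
  rw [h2]
  exact mul_mem (mul_mem hP h1) hQ

/-- **(S2) for fields.** -/
theorem mat_S2_field {a : F} (ha0 : a ≠ 0) (ha4 : a ^ 4 ≠ 1)
    (hι : 2 ≤ Fintype.card ι) {Γ : Subgroup (Matrix ι ι F)ˣ}
    (hΓ : ∀ S : (Matrix ι ι F)ˣ, (S : Matrix ι ι F).det = 1 → ∀ T ∈ Γ, S * T * S⁻¹ ∈ Γ)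
    (hns : ∃ T ∈ Γ, ∀ c : F, (T : Matrix ι ι F) ≠ diagonal fun _ => c)
    (T : (Matrix ι ι F)ˣ) (hT : (T : Matrix ι ι F).det = 1) : T ∈ Γ := by
  refine SL_mem (fun r x h => mat_S2 ha0 (fun x => mul_comm _ _) ha4 hι ?_ ?_ r x h) T hT
  · intro r x h
    refine hΓ _ ?_
    rw [tvm_val, vecMulVec_eq Unit, det_one_add_replicateCol_mul_replicateRow, h, add_zero]
  · obtain ⟨S, hS, hS'⟩ := hns
    exact ⟨S, hS, fun c _ => hS' c⟩

end field

end Vale.Agent.P011.H487.Lin
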