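import Vale.Agent.P011.H487.Coord
import Vale.Agent.P011.H321.Cop
import Vale.Agent.P011.H14.Diag

/-!
The two polynomials of the sieve have no common factor.
-/

open NumberField IsDedekindDomain Module MvPolynomial

set_option linter.unusedSectionVars false

namespace Vale.Agent.P011.H487

open Vale.Agent.P011.H775 Vale.Agent.P011.H948
open Vale.Agent.P011.Arith (Z0)
open Vale.Agent.P011.Even
open Vale.Agent.P011.H321.Cop (GG XX YY)

section trace

variable {K D : Type} [Field K] [CharZero K] [StarRing K] [DivisionRing D] [StarRing D]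
  [Algebra K D] (C : Cub K D)

/-- The trace of a noncentral special unitary element is not zero. -/
theorem T_ne_zero (h : SCub C) {x : D} (hx : x * star x = 1) (hN : C.N x = 1)
    (hc : ∀ c : K, x ≠ c • (1 : D)) : C.T x ≠ 0 := by
  intro h0
  have hS : C.S x = 0 := by rw [S_of_unitary C h hx hN, h0, star_zero]
  have h1 := C.cayley x
  rw [h0, hS, hN, zero_smul, zero_smul, sub_zero, add_zero, one_smul] at h1
  have h2 : (x - 1) * (x * x + x + 1) = 0 := by
    rw [← h1]
    noncomm_ring
  rcases mul_eq_zero.mp h2 with h3 | h3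
  · exact hc 1 (by rw [one_smul]; exact sub_eq_zero.mp h3)
  · have h4 := congrArg C.T h3
    rw [map_add, map_add, h0, C.T_one, map_zero, add_zero] at h4
    have h5 := S_formula C x
    rw [hS, h0, mul_zero, zero_sub] at h5
    have h6 : C.T (x * x) = 0 := by
      have h7 : (2 : K)⁻¹ ≠ 0 := inv_ne_zero two_ne_zero
      rcases mul_eq_zero.mp h5.symm with h | h
      · exact absurd h h7
      · exact neg_eq_zero.mp h
    rw [h6, zero_add] at h4
    exact three_ne_zero h4

end trace

section split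

variable {k K D : Type} [Field k] [Field K] [DivisionRing D] [StarRing D] [Algebra k K]
  [Algebra k D] [Algebra K D] [IsScalarTower k K D] (C : Cub K D)
  {Ω : Type} [Field Ω] [Algebra K Ω] (f : D →ₐ[K] Matrix (Fin 3) (Fin 3) Ω)

theorem adj_diag (Y : Fin 3 → Ω) : (Matrix.diagonal Y).adjugate =
    Matrix.diagonal ![Y 1 * Y 2, Y 0 * Y 2, Y 0 * Y 1] := by
  rw [Matrix.adjugate_fin_three]
  ext i j
  fin_cases i <;> fin_cases j <;> simp [Matrix.diagonal]

/-- The function of the sieve in a splitting field. -/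
theorem gg_split (htr : ∀ x, (f x).trace = algebraMap K Ω (C.T x))
    (hdet : ∀ x, (f x).det = algebraMap K Ω (C.N x)) (hadj : ∀ x, (f x).adjugate = f (C.adj x))
    {h z : D} {X Y : Fin 3 → Ω} (hX : f z = Matrix.diagonal X)
    (hY : f (star z) = Matrix.diagonal Y) :
    algebraMap K Ω (gg C h z) = GG (fun j => f h j j) 27 X Y := by
  have h1 : algebraMap K Ω (ph C h z) = f h 0 0 * X 0 ^ 3 * (Y 1 * Y 2) ^ 3 +
      f h 1 1 * X 1 ^ 3 * (Y 0 * Y 2) ^ 3 + f h 2 2 * X 2 ^ 3 * (Y 0 * Y 1) ^ 3 := by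
    rw [ph, nu, ← htr, map_mul, map_mul, map_pow, map_pow, ← hadj, hX, hY, adj_diag,
      Matrix.diagonal_pow, Matrix.diagonal_pow, Matrix.diagonal_mul_diagonal,
      Matrix.trace_fin_three, Matrix.mul_diagonal, Matrix.mul_diagonal, Matrix.mul_diagonal]
    simp only [Pi.pow_apply, Matrix.cons_val_zero, Matrix.cons_val_one, Matrix.cons_val]
    ring
  have h2 : algebraMap K Ω (C.N z) = X 0 * X 1 * X 2 := by
    rw [← hdet, hX, Matrix.det_diagonal, Fin.prod_univ_three]
  have h3 : algebraMap K Ω (C.N (star z)) = Y 0 * Y 1 * Y 2 := by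
    rw [← hdet, hY, Matrix.det_diagonal, Fin.prod_univ_three]
  rw [gg, de, map_sub, map_mul, map_pow, map_pow, map_mul, map_pow, h1, h2, h3, map_ofNat, GG]

theorem split_zf {s' : K} {e' : D} {v : Fin 3 → Ω} (hv : f e' = Matrix.diagonal v)
    (x : Fin (3 + 3) → k) : f (zf s' e' x) = Matrix.diagonal fun j =>
      ∑ i : Fin 3, (algebraMap K Ω (algebraMap k K (x (Fin.castAdd 3 i))) +
        algebraMap K Ω s' * algebraMap K Ω (algebraMap k K (x (Fin.natAdd 3 i)))) *
          v j ^ (i : ℕ) := by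
  have hk : ∀ (c : k) (y : D), f (c • y) = algebraMap K Ω (algebraMap k K c) • f y := by
    intro c y
    rw [← algebraMap_smul K c y, map_smul, ← algebraMap_smul Ω (algebraMap k K c)]
  have hK : ∀ (c : K) (y : D), f (c • y) = algebraMap K Ω c • f y := by
    intro c y
    rw [map_smul, ← algebraMap_smul Ω c]
  unfold zf
  simp only [map_sum, map_add, hk, hK, map_pow, hv, Matrix.diagonal_pow]
  ext a b
  by_cases hab : a = b
  · subst hab
    simp only [Matrix.sum_apply, Matrix.add_apply, Matrix.smul_apply, Matrix.diagonal_apply_eq,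
      Pi.pow_apply, smul_eq_mul]
    exact Finset.sum_congr rfl fun i _ => by ring
  · simp only [Matrix.sum_apply, Matrix.add_apply, Matrix.smul_apply,
      Matrix.diagonal_apply_ne _ hab, smul_zero, add_zero, Finset.sum_const_zero]

theorem split_inv {e : D} {v : Fin 3 → Ω} (he : e ≠ 0) (hv : f e = Matrix.diagonal v) :
    f e⁻¹ = Matrix.diagonal fun j => (v j)⁻¹ := by
  have h1 : f e * f e⁻¹ = 1 := by rw [← map_mul, mul_inv_cancel₀ he, map_one]
  have hv0 : ∀ j, v j ≠ 0 := by
    intro j hj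
    have h2 := congrArg (fun M : Matrix (Fin 3) (Fin 3) Ω => M j j) h1
    simp only [hv, Matrix.diagonal_mul, hj, zero_mul, Matrix.one_apply_eq] at h2
    exact zero_ne_one h2
  have h3 : Matrix.diagonal (fun j => (v j)⁻¹) * f e = 1 := by
    rw [hv, Matrix.diagonal_mul_diagonal, ← Matrix.diagonal_one]
    congr 1
    funext j
    exact inv_mul_cancel₀ (hv0 j)
  calc f e⁻¹ = Matrix.diagonal (fun j => (v j)⁻¹) * f e * f e⁻¹ := by rw [h3, one_mul]
    _ = _ := by rw [mul_assoc, h1, mul_one]

end split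

section poly

variable {k K D : Type} [Field k] [NumberField k] [Field K] [NumberField K] [StarRing K]
  [DivisionRing D] [StarRing D] [Algebra k K] [Algebra k D] [Algebra K D] [IsScalarTower k K D]
  {d : kˣ} {s : K}

/-- **The two polynomials.** -/
theorem exists_poly (hS : Setting k K D d s) (hdeg : finrank K D = 3 ^ 2) (C : Cub K D)
    {h e : D} (hh : h * star h = 1) (hN : C.N h = 1) (hc : ∀ c : K, h ≠ c • (1 : D))
    (he : e * star e = 1) (hec : e ∉ Set.range (algebraMap K D)) :
    ∃ P : Fin 2 → MvPolynomial (Fin (3 + 3)) k,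
      (∀ x, gg C h (zf s e x) = algebraMap k K (eval x (P 0)) + s * algebraMap k K (eval x (P 1)) ∧
        gg C (star h) (star (zf s e x)) =
          algebraMap k K (eval x (P 0)) - s * algebraMap k K (eval x (P 1))) ∧
      (∃ i, P i ≠ 0) ∧ ∀ q, (∀ i, q ∣ P i) → IsUnit q := by
  have hfin := hS.fin
  have hcen := hS.cen
  have hC : SCub C := sCub_of C hdeg hS.star_smul
  have hs0 : s ≠ 0 := Pow.s_ne_zero hS
  have he0 : e ≠ 0 := left_ne_zero_of_mul_eq_one he
  have hi : star e = e⁻¹ := (inv_eq_of_mul_eq_one_right he).symm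
  have hst : ∀ c : k, star (algebraMap k K c) = algebraMap k K c := fun c =>
    (hS.fix _).mpr ⟨c, rfl⟩
  obtain ⟨re, im, hri⟩ := exists_reim hS
  have hz : Pm (k := k) (zf s e) := zf_pm s e
  have hzs : Pm (k := k) fun x => star (zf (k := k) s e x) := by
    have e1 : (fun x => star (zf (k := k) s e x)) = zf (-s) e⁻¹ := funext fun x => star_zf hS he x
    rw [e1]
    exact zf_pm _ _
  have hgg : Pm (k := k) fun x => gg C h (zf (k := k) s e x) := by
    unfold gg ph de nu
    exact ((Pm.T ((Pm.const h).mul ((hz.pow 3).mul ((Pm.adj hzs).pow 3)))).pow 3).sub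
      ((Pm.const (27 : K)).mul (((Pm.N hz).mul ((Pm.N hzs).pow 2)).pow 3))
  obtain ⟨P₁, hP₁⟩ := (hgg.lin re).exists_poly
  obtain ⟨P₂, hP₂⟩ := (hgg.lin im).exists_poly
  have hcz : ∀ x : Fin (3 + 3) → k, Commute (zf s e x) (star (zf s e x)) := by
    intro x
    rw [star_zf hS he]
    exact zf_commute ((zf_commute ((Commute.refl e).inv_right₀).symm x).symm) x
  have h1 : ∀ x, gg C h (zf s e x) =
      algebraMap k K (eval x P₁) + s * algebraMap k K (eval x P₂) := by
    intro x
    rw [← hP₁, ← hP₂]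
    exact hri _
  have h2 : ∀ x, gg C (star h) (star (zf s e x)) =
      algebraMap k K (eval x P₁) - s * algebraMap k K (eval x P₂) := by
    intro x
    rw [← star_gg C hC h (hcz x), h1, star_add, star_mul', hst, hst, hS.star_s]
    ring
  refine ⟨![P₁, P₂], fun x => ⟨h1 x, h2 x⟩, ?_⟩
  obtain ⟨Ω, _, _, _, f, ep, -, htr, hdet, hadj, hep, hfe, hjj⟩ :=
    H14.exists_diag_split C hdeg hec
  have hTh : C.T h ≠ 0 := T_ne_zero C hC hh hN hc
  have hTs : C.T (star h) ≠ 0 := by
    rw [hC.T, Ne, star_eq_zero]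
    exact hTh
  let ι : k →+* Ω := (algebraMap K Ω).comp (algebraMap k K)
  have hinv := split_inv f he0 hfe
  have hX : ∀ x : Fin (3 + 3) → k, f (zf s e x) =
      Matrix.diagonal (XX ι (algebraMap K Ω s) ep x) := fun x => split_zf f hfe x
  have hY : ∀ x : Fin (3 + 3) → k, f (star (zf s e x)) =
      Matrix.diagonal (YY ι (algebraMap K Ω s) ep x) := by
    intro x
    rw [star_zf hS he, split_zf f hinv x]
    congr 1
    funext j
    unfold YY
    refine Finset.sum_congr rfl fun i _ => ?_
    rw [map_neg]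
    change (ι _ + -algebraMap K Ω s * ι _) * _ = _
    ring
  have h2Ω : (2 : Ω) ≠ 0 := by
    have : (algebraMap K Ω) 2 ≠ 0 := by
      rw [Ne, map_eq_zero]
      exact two_ne_zero
    rwa [map_ofNat] at this
  have hsΩ : algebraMap K Ω s ≠ 0 := by rwa [Ne, map_eq_zero]
  have h3 := H321.Cop.cop ι (s := algebraMap K Ω s) (ep := ep) (a := fun j => f h j j)
    (b := fun j => f (star h) j j) (c := 27) (c' := 27) (P1 := P₁) (P2 := P₂) h2Ω hsΩ hep
    (hjj h fun h => hTh h.1) (hjj (star h) fun h => hTs h.1)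
    (fun x => by
      rw [← gg_split C f htr hdet hadj (hX x) (hY x), h1, map_add, map_mul]
      rfl)
    (fun x => by
      rw [← gg_split C f htr hdet hadj (z := star (zf s e x)) (hY x)
        (by rw [star_star]; exact hX x), h2, map_sub, map_mul]
      rfl)
  refine ⟨?_, fun q hq => h3.2 q (hq 0) (hq 1)⟩
  rcases h3.1 with h | h
  · exact ⟨0, h⟩
  · exact ⟨1, h⟩

end poly

end Vale.Agent.P011.H487
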