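import Vale.Agent.P011.H487.Sieve
import Vale.Agent.P011.H511.Large
import Vale.Agent.P011.H511.CSpl
import Vale.Agent.P011.H518.Star
import Vale.Agent.P011.H518.Near
import Vale.Agent.P011.H961.S4
import Vale.Agent.P011.H211.S2

/-!
**Every special unitary element is a product of two elements which commute with unitary elements
of a given reduced norm**, the first one close to one.
-/

open NumberField IsDedekindDomain Module

set_option linter.unusedSectionVars false

namespace Vale.Agent.P011.H487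

open Vale.Agent.P011.H775 Vale.Agent.P011.H948
open Vale.Agent.P011.Arith Vale.Agent.P011.Even Vale.Agent.P011.Two Vale.Agent.P011.One
open Vale.Agent.P011.H518 (Nr Gd Sv)

variable {k K D : Type} [Field k] [NumberField k] [Field K] [NumberField K] [StarRing K]
  [DivisionRing D] [StarRing D] [Algebra k K] [Algebra k D] [Algebra K D] [IsScalarTower k K D]
  {d : kˣ} {s : K} {Ω : Type} [Field Ω] [Algebra K Ω] {N : ℕ}

theorem large_of (hS : Setting k K D d s) (C : Cub K D) : Large C := by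
  have := hS.fin
  intro V h t hN hV hh
  exact H511.large C (V.valuation K) hN hV hh

/-- Central elements are not `Un`. -/
theorem not_un_smul_one (C : Cub K D) (V : HeightOneSpectrum (𝓞 K)) (c : K) :
    ¬ Un C V (c • (1 : D)) := by
  have h3 : V.valuation K (3 : K) ≤ 1 := val_nat_le V 3
  have hN : C.N (c • (1 : D)) = c ^ 3 := by rw [C.N_smul, C.N_one, mul_one]
  have hT : C.T (c • (1 : D)) = 3 * c := by rw [map_smul, C.T_one, smul_eq_mul, mul_comm]
  have hSS : C.S (c • (1 : D)) = 3 * c ^ 2 := by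
    have h1 : C.S (1 : D) = C.T (C.adj 1) := rfl
    rw [C.S_smul, h1, C.adj_one, C.T_one, mul_comm]
  rw [Un, hN, hT, hSS]
  rintro (h | h)
  · refine absurd h (not_lt.mpr ?_)
    rw [map_mul, mul_pow, map_pow]
    exact mul_le_of_le_one_left' (pow_le_one₀ zero_le h3)
  · refine absurd h (not_lt.mpr ?_)
    rw [map_mul, mul_pow, map_pow, map_pow, ← pow_mul, ← pow_mul]
    exact mul_le_of_le_one_left' (pow_le_one₀ zero_le h3)

/-- **The condition (S3a).** -/
theorem sv (hS : Setting k K D d s) (hdeg : finrank K D = 3 ^ 2) (C : Cub K D)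
    (f : D →ₐ[K] Matrix (Fin 3) (Fin 3) Ω) (B : Basis (Fin N) k D) : Sv k f B := by
  classical
  have hfin := hS.fin
  have hcen := hS.cen
  have hC : SCub C := sCub_of C hdeg hS.star_smul
  have hTf : (Tdiv k K D).Finite := Pow.tdiv_finite (n := 3) (by norm_num) hdeg
  have hdet : ∀ y : D, (f y).det = algebraMap K Ω (C.N y) := fun y =>
    (H511.spl_compat C hdeg f y).2.2.1
  intro η hη
  obtain ⟨η', hη', hnear⟩ := H518.val_norm_near C B hTf (γ := (9 : K)) (by norm_num)
  refine ⟨η', hη', fun u h hu hun hh _ => ?_⟩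
  have huU : (u : D) * star (u : D) = 1 := hu
  set b : K := C.N (u : D) with hb
  have hb0 : b ≠ 0 := C.N_ne_zero u.ne_zero
  have hbb : b * star b = 1 := by
    have := congrArg C.N huU
    rwa [C.N_mul, hC.N, C.N_one] at this
  have hGu : Gd f (f (u : D)).det 1 := ⟨u, hu, Commute.one_right u, rfl⟩
  have hone : Nr k K B η (1 : Dˣ) := by
    intro p _
    rw [Units.val_one, sub_self]
    change H182.na B (plAbv p) 0 < η
    rw [H182.na_zero]
    exact hη
  -- the inverse of `h`
  set x : D := ((h⁻¹ : Dˣ) : D) with hx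
  have hhinv : h⁻¹ ∈ SUD f := (SUD f).inv_mem hh
  have hxU : x * star x = 1 := hhinv.1
  have hxN : C.N x = 1 := by
    have h1 : (f x).det = 1 := hhinv.2
    rw [hdet] at h1
    exact (algebraMap K Ω).injective (by rw [h1, map_one])
  have hxh : (h : D) = x⁻¹ := by rw [hx, Units.val_inv_eq_inv_val, inv_inv]
  -- from an element commuting with `x t`
  have hfinish : ∀ t : Dˣ, (∃ e : D, e * star e = 1 ∧ Commute e (x * t) ∧ C.N e = b) →
      Gd f (f (u : D)).det (t⁻¹ * h) := by
    rintro t ⟨e, he, hec, heN⟩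
    have he0 : e ≠ 0 := left_ne_zero_of_mul_eq_one he
    refine ⟨Units.mk0 e he0, he, ?_, ?_⟩
    · have h1 : Commute e (x * t)⁻¹ := hec.inv_right₀
      have h2 : (x * (t : D))⁻¹ = (((t⁻¹ * h : Dˣ)) : D) := by
        rw [mul_inv_rev, ← hxh, Units.val_mul, Units.val_inv_eq_inv_val]
      rw [h2] at h1
      exact Units.ext h1.eq
    · rw [Units.val_mk0, hdet, hdet, heN]
  by_cases hxc : ∀ c : K, x ≠ c • (1 : D)
  swap
  · push Not at hxc
    obtain ⟨c, hc⟩ := hxc
    refine ⟨1, (SUD f).one_mem, hone, hGu, hfinish 1 ⟨u, huU, ?_, rfl⟩⟩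
    rw [Units.val_one, mul_one, hc]
    exact (Commute.one_right (u : D)).smul_right c
  -- the bad places
  have hfinB := H872.fin_locD C hxc hb0
  set Sg := hfinB.toFinset with hSg
  have hmem : ∀ V, V ∈ Sg ↔ ¬ LocD C x V b := fun V => by
    rw [hSg, Set.Finite.mem_toFinset]
    rfl
  have hTd : ∀ V, ¬ LocD C x V b → ∀ v : HeightOneSpectrum (𝓞 k),
      V.asIdeal.comap (algebraMap (𝓞 k) (𝓞 K)) = v.asIdeal → (Sum.inl v : Pl k) ∉ Tdiv k K D := by
    intro V hV v hv hvT
    exact hV (H518.locD_of_near C (hnear u hun v hvT V hv) x)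
  by_cases hSg0 : Sg = ∅
  · have hgood : ∀ V, LocD C x V b := by
      intro V
      by_contra hcon
      have := (hmem V).mpr hcon
      rw [hSg0] at this
      exact absurd this (Finset.notMem_empty V)
    obtain ⟨e, he, hec, heN⟩ := H211.s2_unitary hS hdeg C hxc hxU hbb hgood
    refine ⟨1, (SUD f).one_mem, hone, hGu, hfinish 1 ⟨e, he, ?_, heN⟩⟩
    rw [Units.val_one, mul_one]
    exact hec
  obtain ⟨V₁, hV₁⟩ := Finset.nonempty_iff_ne_empty.mpr hSg0
  obtain ⟨g, hg⟩ := H961.s4' hS hdeg C f Sg (fun V hV => hTd V ((hmem V).mp hV)) huU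
  set e : D := (u : D) * ((g : Dˣ) : D) with he
  have heU : e * star e = 1 := by
    have h1 : ((g : Dˣ) : D) * star ((g : Dˣ) : D) = 1 := g.2.1
    rw [he, star_mul, mul_assoc, ← mul_assoc ((g : Dˣ) : D), h1, one_mul, huU]
  have heN : C.N e = b := by
    have h1 : C.N ((g : Dˣ) : D) = 1 := by
      have h2 : (f ((g : Dˣ) : D)).det = 1 := g.2.2
      rw [hdet] at h2
      exact (algebraMap K Ω).injective (by rw [h2, map_one])
    rw [he, C.N_mul, h1, mul_one]
  have hec : ∀ c : K, e ≠ c • (1 : D) := by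
    intro c hc
    have h1 : Un C V₁ e := hg V₁ hV₁
    rw [hc] at h1
    exact not_un_smul_one C V₁ c h1
  obtain ⟨t, htU, htN, hte, htn, htc, htl⟩ := sieve hS hdeg C B (large_of hS C) hxU hxN hxc heU hec
    hb0 (fun V hV => ⟨hg V ((hmem V).mpr hV), hTd V hV⟩) hη
  have ht0 : t ≠ 0 := left_ne_zero_of_mul_eq_one htU
  have he0 : e ≠ 0 := left_ne_zero_of_mul_eq_one heU
  have hyU : x * t * star (x * t) = 1 := by
    rw [star_mul, mul_assoc, ← mul_assoc t, htU, one_mul, hxU]
  obtain ⟨e', he', hec', heN'⟩ := H211.s2_unitary hS hdeg C htc hyU hbb htl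
  refine ⟨Units.mk0 t ht0, ⟨htU, ?_⟩, htn, ⟨Units.mk0 e he0, heU, ?_, ?_⟩,
    hfinish (Units.mk0 t ht0) ⟨e', he', hec', heN'⟩⟩
  · rw [Units.val_mk0, hdet, htN, map_one]
  · exact Units.ext hte.eq
  · rw [Units.val_mk0, hdet, hdet, heN]

end Vale.Agent.P011.H487
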