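import Vale.Agent.P011.H487.SplG
import Vale.Agent.P011.H327.TNnf

/-!
# Split elements over number fields, in the letters of the frame
-/

open Module NumberField IsDedekindDomain Polynomial

set_option linter.unusedSectionVars false

namespace Vale.Agent.P011.H487.Spl

open Vale.Agent.P011.Arith Vale.Agent.P011.Even Vale.Agent.P011.Two Vale.Agent.P011.One
  Vale.Agent.P011.H182
open Vale.Agent.P011.H699.Odd (SplE Ug Gg Bl)

variable {k K D : Type} [Field k] [NumberField k] [Field K] [StarRing K] [NumberField K]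
    [DivisionRing D] [StarRing D] [Algebra k K] [Algebra k D] [Algebra K D] [IsScalarTower k K D]
    {d : kˣ} {s : K} {N n : ℕ}

/-- The finite sets of good places outside `P`. -/
def JJ (K D : Type) [Field K] [DivisionRing D] [Algebra k K] [Algebra K D] (n : ℕ) (d : kˣ)
    (P : Set (Pl k)) : Type :=
  {S : Finset (HeightOneSpectrum (𝓞 k)) // ∀ v ∈ S, (Sum.inl v : Pl k) ∉ P ∧ SpAt K D n d v}

/-- The places of `K` above the set `j`. -/
def plK {P : Set (Pl k)} (j : JJ K D n d P) : Set (HeightOneSpectrum (𝓞 K)) :=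
  {V | ∃ v ∈ j.1, Ab V v}

/-- The places of `K` above `P` or above a bad place. -/
def TK (K D : Type) [Field K] [NumberField K] [DivisionRing D] [Algebra k K] [Algebra K D] (n : ℕ)
    (d : kˣ) (P : Set (Pl k)) : Set (HeightOneSpectrum (𝓞 K)) :=
  {V | ∃ v : HeightOneSpectrum (𝓞 k), ((Sum.inl v : Pl k) ∈ P ∨ ¬ SpAt K D n d v) ∧ Ab V v}

theorem finite_TK (hS : Setting k K D d s) (hn : 0 < n) (hdeg : finrank K D = n ^ 2)
    {P : Set (Pl k)} (hP : P.Finite) : (TK K D n d P).Finite := by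
  have h1 : {v : HeightOneSpectrum (𝓞 k) | (Sum.inl v : Pl k) ∈ P ∨ ¬ SpAt K D n d v}.Finite :=
    (hP.preimage (Sum.inl_injective.injOn)).union (spAt_almost hS hn hdeg)
  have h2 := ov_finite (E := K) h1
  refine h2.subset ?_
  rintro V ⟨v, hv, hV⟩
  exact ⟨v, hv, hV⟩

/-- Every finite set of places outside `TK` is contained in some `plK j`. -/
theorem exists_jj {P : Set (Pl k)} (C : Finset (HeightOneSpectrum (𝓞 K)))
    (hC : ∀ V ∈ C, V ∉ TK K D n d P) : ∃ j : JJ K D n d P, (C : Set _) ⊆ plK j := by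
  classical
  choose b hb using fun V : HeightOneSpectrum (𝓞 K) => exists_below (F := k) V
  refine ⟨⟨C.image b, fun v hv => ?_⟩, fun V hV => ?_⟩
  · obtain ⟨V, hV, rfl⟩ := Finset.mem_image.mp hv
    have h1 := hC V hV
    by_contra hcon
    apply h1
    refine ⟨b V, ?_, hb V⟩
    rw [not_and_or, not_not] at hcon
    exact hcon
  · exact ⟨b V, Finset.mem_image_of_mem _ hV, hb V⟩

theorem nonempty_jj {P : Set (Pl k)} : Nonempty (JJ K D n d P) :=
  ⟨⟨∅, fun v hv => absurd hv (Finset.notMem_empty v)⟩⟩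

/-- **(SplE) over number fields.** -/
theorem splE_nf (hS : Setting k K D d s) (ho : Odd n) (hn3 : 3 ≤ n)
    (hdeg : finrank K D = n ^ 2) {Ω : Type} [Field Ω] [Algebra K Ω]
    (f₀ : D →ₐ[K] Matrix (Fin n) (Fin n) Ω) (B : Basis (Fin N) k D) {P : Set (Pl k)}
    (hP : P.Finite) {ι : Type} {ν : ι → AbsoluteValue D ℝ}
    (hν : ∀ ε : ℝ, 0 < ε → ∃ δ : ℝ, 0 < δ ∧ ∀ x : D, (∀ p ∈ P, nm B p x < δ) → ∀ i, ν i x < ε)
    {Nr : D →* K} (hN : ∀ x, (f₀ x).det = algebraMap K Ω (Nr x)) :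
    SplE n Nr ν (Vale.Agent.P011.H327.TN.Sp (plK (K := K) (D := D) (n := n) (d := d) (P := P))) := by
  classical
  intro j hs hu ε hε
  obtain ⟨δ, hδ, hδν⟩ := hν ε hε
  have hu' : ∀ h ∈ hs.image (fun u : Dˣ => (u : D)), h * star h = 1 := by
    intro h hh
    obtain ⟨u, hu1, rfl⟩ := Finset.mem_image.mp hh
    exact hu u hu1
  obtain ⟨g, hg, hgP, hgs⟩ := spl_nf hS ho hn3 hdeg f₀ B hP j.1 (fun v hv => (j.2 v hv).1)
    (fun v hv => (j.2 v hv).2) (hs.image fun u : Dˣ => (u : D)) hu' one_ne_zero hδ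
  refine ⟨g, ⟨hg.1, ?_⟩, hδν _ hgP, fun h hh => ?_⟩
  · have h1 := hN g
    rw [hg.2] at h1
    apply (algebraMap K Ω).injective
    rw [← h1, map_one]
  · obtain ⟨h1, h2⟩ := hgs h (Finset.mem_image_of_mem _ hh)
    rw [pow_one] at h1 h2
    rw [Units.val_mul]
    refine ⟨h1, ?_⟩
    rintro V ⟨v, hv, hV⟩
    exact h2 v hv V hV

end Vale.Agent.P011.H487.Spl
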