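import Vale.Agent.P011.H487.Fam

/-!
The local conditions at the places outside the exceptional set.
-/

open NumberField IsDedekindDomain Module

set_option linter.unusedSectionVars false

namespace Vale.Agent.P011.H487

open Vale.Agent.P011.H775 Vale.Agent.P011.H948
open Vale.Agent.P011.Arith (Z0)

theorem val_nat_le {K : Type} [Field K] [NumberField K] (V : HeightOneSpectrum (𝓞 K)) (n : ℕ)
    [n.AtLeastTwo] : V.valuation K (OfNat.ofNat n : K) ≤ 1 := by
  have h : V.valuation K (algebraMap (𝓞 K) K (OfNat.ofNat n)) ≤ 1 := V.valuation_le_one _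
  rwa [map_ofNat] at h

section crit

variable {K D : Type} [Field K] [NumberField K] [StarRing K] [DivisionRing D] [StarRing D]
  [Algebra K D]

/-- The criterion at an integral characteristic polynomial which is not a cube. -/
def S1a (C : Cub K D) : Prop := ∀ (y : D) (V : HeightOneSpectrum (𝓞 K)) (b : K),
  (∀ c : K, y ≠ c • (1 : D)) → V.valuation K (3 : K) = 1 → V.valuation K (C.T y) ≤ 1 →
  V.valuation K (C.S y) ≤ 1 → V.valuation K (C.N y) = 1 → V.valuation K b = 1 →
  (¬ ∃ c : K, V.valuation K c ≤ 1 ∧ V.valuation K (C.T y - 3 * c) < 1 ∧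
    V.valuation K (C.S y - 3 * c ^ 2) < 1 ∧ V.valuation K (C.N y - c ^ 3) < 1) → LocD C y V b

/-- The criterion at a nonintegral characteristic polynomial. -/
def S1b (C : Cub K D) : Prop := ∀ (y : D) (V : HeightOneSpectrum (𝓞 K)) (b : K),
  (∀ c : K, y ≠ c • (1 : D)) → C.N y = 1 →
  (1 < V.valuation K (C.T y) ∨ 1 < V.valuation K (C.S y)) → b ≠ 0 → LocD C y V b

variable (C : Cub K D)

/-- Auxiliary: a number whose cube is near `27` at `V`. -/
theorem cube_near (V : HeightOneSpectrum (𝓞 K)) {T c : K} (hc : V.valuation K c ≤ 1)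
    (hT : V.valuation K T ≤ 1) (h1 : V.valuation K (T - 3 * c) < 1)
    (h2 : V.valuation K (1 - c ^ 3) < 1) : V.valuation K (T ^ 3 - 27) < 1 := by
  have h3 : V.valuation K (3 : K) ≤ 1 := val_nat_le V 3
  have h27 : V.valuation K (27 : K) ≤ 1 := val_nat_le V 27
  have e : T ^ 3 - 27 = (T - 3 * c) * (T ^ 2 + T * (3 * c) + (3 * c) ^ 2) -
      27 * (1 - c ^ 3) := by ring
  have h4 : V.valuation K (3 * c) ≤ 1 := by
    rw [map_mul]
    exact mul_le_one' h3 hc
  have h5 : V.valuation K (T ^ 2 + T * (3 * c) + (3 * c) ^ 2) ≤ 1 := by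
    refine (V.valuation K).map_add_le ((V.valuation K).map_add_le ?_ ?_) ?_
    · rw [map_pow]
      exact pow_le_one' hT 2
    · rw [map_mul]
      exact mul_le_one' hT h4
    · rw [map_pow]
      exact pow_le_one' h4 2
  rw [e]
  refine (V.valuation K).map_sub_lt ?_ ?_
  · rw [map_mul]
    exact (mul_le_of_le_one_right' h5).trans_lt h1
  · rw [map_mul]
    exact (mul_le_of_le_one_left' h27).trans_lt h2

/-- One half of the criterion. -/
theorem crit_half (V : HeightOneSpectrum (𝓞 K)) {T p q : K} (hq : q ≠ 0) (hT : T = p / q)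
    (hp : V.valuation K p ≤ 1) (hq1 : V.valuation K q ≤ 1)
    (hG : 1 ≤ V.valuation K (p ^ 3 - 27 * q ^ 3)) :
    (V.valuation K q = 1 ∧ V.valuation K T ≤ 1 ∧ 1 ≤ V.valuation K (T ^ 3 - 27)) ∨
      1 < V.valuation K T := by
  have hq0 : V.valuation K q ≠ 0 := (V.valuation K).ne_zero_iff.mpr hq
  have h27 : V.valuation K (27 : K) ≤ 1 := val_nat_le V 27
  rcases hq1.lt_or_eq with h1 | h1
  · right
    have h2 : V.valuation K (27 * q ^ 3) < 1 := by
      rw [map_mul, map_pow]
      exact (mul_le_of_le_one_left' h27).trans_lt (pow_lt_one₀ zero_le h1 (by norm_num))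
    have h3 : 1 ≤ V.valuation K p := by
      by_contra hcon
      rw [not_le] at hcon
      have h4 : V.valuation K (p ^ 3) < 1 := by
        rw [map_pow]
        exact pow_lt_one₀ zero_le hcon (by norm_num)
      exact absurd hG (not_le.mpr ((V.valuation K).map_sub_lt h4 h2))
    rw [hT, map_div₀, lt_div_iff₀ (zero_lt_iff.mpr hq0), one_mul]
    exact h1.trans_le h3
  · left
    refine ⟨h1, ?_, ?_⟩
    · rw [hT, map_div₀, h1, div_one]
      exact hp
    · have e : T ^ 3 - 27 = (p ^ 3 - 27 * q ^ 3) / q ^ 3 := by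
        rw [hT]
        field_simp
      rw [e, map_div₀, map_pow, h1, one_pow, div_one]
      exact hG

/-- **The criterion at the places outside the exceptional set.** -/
theorem crit (h : SCub C) (h1a : S1a C) (h1b : S1b C) (V : HeightOneSpectrum (𝓞 K)) {x z : D}
    (hx : x * star x = 1) (hxN : C.N x = 1) (hz : z ≠ 0) (hc : Commute z (star z))
    (hy : ∀ c : K, x * tz C z ≠ c • (1 : D)) (h3 : V.valuation K (3 : K) = 1) {b : K}
    (hb : V.valuation K b = 1) (hN1 : V.valuation K (C.N z) ≤ 1)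
    (hN2 : V.valuation K (C.N (star z)) ≤ 1) (hp1 : V.valuation K (ph C x z) ≤ 1)
    (hp2 : V.valuation K (ph C (star x) (star z)) ≤ 1)
    (hG : 1 ≤ V.valuation K (gg C x z) ∨ 1 ≤ V.valuation K (gg C (star x) (star z))) :
    LocD C (x * tz C z) V b := by
  have hb0 : b ≠ 0 := by
    rintro rfl
    rw [map_zero] at hb
    exact zero_ne_one hb
  have hzs : star z ≠ 0 := by rwa [Ne, star_eq_zero]
  have hyN : C.N (x * tz C z) = 1 := by rw [C.N_mul, hxN, tz_norm C hz, one_mul]
  have hyU : x * tz C z * star (x * tz C z) = 1 := by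
    rw [star_mul, mul_assoc, ← mul_assoc (tz C z), tz_unitary C h hz hc, one_mul, hx]
  have hT := T_tz C x z
  have hS : C.S (x * tz C z) = ph C (star x) (star z) / de C (star z) := by
    rw [S_of_unitary C h hyU hyN, hT, star_div₀, star_ph C h x hc, star_de C h]
  have hd1 : V.valuation K (de C z) ≤ 1 := by
    rw [de, map_mul, map_pow]
    exact mul_le_one' hN1 (pow_le_one' hN2 2)
  have hd2 : V.valuation K (de C (star z)) ≤ 1 := by
    rw [de, map_mul, map_pow, star_star]
    exact mul_le_one' hN2 (pow_le_one' hN1 2)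
  have hNN : V.valuation K (de C z) = 1 ↔ V.valuation K (de C (star z)) = 1 := by
    have key : ∀ a c : Z0, a ≤ 1 → c ≤ 1 → a * c ^ 2 = 1 → a = 1 ∧ c = 1 := by
      intro a c ha hc' h4
      have h5 : c = 1 := by
        refine le_antisymm hc' ?_
        by_contra hcon
        rw [not_le] at hcon
        have h6 : a * c ^ 2 < 1 :=
          (mul_le_of_le_one_left' ha).trans_lt (pow_lt_one₀ zero_le hcon (by norm_num))
        exact absurd h4 h6.ne
      rw [h5, one_pow, mul_one] at h4
      exact ⟨h4, h5⟩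
    rw [de, de, map_mul, map_mul, map_pow, map_pow, star_star]
    constructor
    · intro h4
      obtain ⟨h5, h6⟩ := key _ _ hN1 hN2 h4
      rw [h5, h6]
      norm_num
    · intro h4
      obtain ⟨h5, h6⟩ := key _ _ hN2 hN1 h4
      rw [h5, h6]
      norm_num
  have hyN1 : V.valuation K (C.N (x * tz C z)) = 1 := by rw [hyN, map_one]
  rcases hG with hG | hG
  · rcases crit_half V (de_ne_zero C hz) hT hp1 hd1 hG with ⟨h4, h5, h6⟩ | h4
    · refine h1a _ V b hy h3 h5 ?_ hyN1 hb ?_
      · rw [hS, map_div₀, hNN.mp h4, div_one]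
        exact hp2
      · rintro ⟨c, hc1, hc2, -, hc4⟩
        rw [hyN] at hc4
        exact absurd h6 (not_le.mpr (cube_near V hc1 h5 hc2 hc4))
    · exact h1b _ V b hy hyN (Or.inl h4) hb0
  · rcases crit_half V (de_ne_zero C hzs) hS hp2 hd2 hG with ⟨h4, h5, h6⟩ | h4
    · refine h1a _ V b hy h3 ?_ h5 hyN1 hb ?_
      · rw [hT, map_div₀, hNN.mpr h4, div_one]
        exact hp1
      · rintro ⟨c, hc1, -, hc3, hc4⟩
        rw [hyN] at hc4
        refine absurd h6 (not_le.mpr (cube_near V (c := c ^ 2) ?_ h5 hc3 ?_))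
        · rw [map_pow]
          exact pow_le_one' hc1 2
        · have e : 1 - (c ^ 2) ^ 3 = (1 - c ^ 3) * (1 + c ^ 3) := by ring
          rw [e, map_mul]
          refine (mul_le_of_le_one_right' ?_).trans_lt hc4
          refine (V.valuation K).map_add_le (by rw [map_one]) ?_
          rw [map_pow]
          exact pow_le_one' hc1 3
    · exact h1b _ V b hy hyN (Or.inr h4) hb0

end crit

end Vale.Agent.P011.H487
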