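import Vale.Agent.P011.H487.Pm
import Vale.Agent.P011.H948.ChartC

/-!
A six dimensional family in the two dimensional torus of a cubic field.
-/

open Module MvPolynomial

set_option linter.unusedSectionVars false

namespace Vale.Agent.P011.H487

open Vale.Agent.P011.H775 Vale.Agent.P011.H948

section fam

variable {K D : Type} [Field K] [StarRing K] [DivisionRing D] [StarRing D] [Algebra K D]
  (C : Cub K D)

/-- The numerator. -/
def nu (z : D) : D := z ^ 3 * C.adj (star z) ^ 3

/-- The denominator. -/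
def de (z : D) : K := C.N z * C.N (star z) ^ 2

/-- The point of the torus. -/
def tz (z : D) : D := (de C z)⁻¹ • nu C z

/-- The trace of the translate, times the denominator. -/
def ph (h z : D) : K := C.T (h * nu C z)

/-- The function of the sieve. -/
def gg (h z : D) : K := ph C h z ^ 3 - 27 * de C z ^ 3

theorem de_ne_zero {z : D} (hz : z ≠ 0) : de C z ≠ 0 :=
  mul_ne_zero (C.N_ne_zero hz) (pow_ne_zero 2 (C.N_ne_zero (by rwa [Ne, star_eq_zero])))

theorem T_tz (h z : D) : C.T (h * tz C z) = ph C h z / de C z := by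
  rw [tz, mul_smul_comm, map_smul, smul_eq_mul, ph, div_eq_inv_mul]

theorem smul_pow3 (c : K) (x : D) : (c • x) ^ 3 = c ^ 3 • x ^ 3 := smul_pow c x 3

theorem tz_eq {z : D} (hz : z ≠ 0) :
    tz C z = (C.N (star z) / C.N z) • (z ^ 3 * (star z)⁻¹ ^ 3) := by
  have hs : star z ≠ 0 := by rwa [Ne, star_eq_zero]
  have h1 := C.N_ne_zero hz
  have h2 := C.N_ne_zero hs
  rw [tz, nu, C.adj_eq_inv hs, smul_pow, mul_smul_comm, smul_smul, de]
  congr 1
  field_simp

theorem inv_pow_mul {a : D} (ha : a ≠ 0) : a⁻¹ ^ 3 * a ^ 3 = 1 := by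
  rw [inv_pow, inv_mul_cancel₀ (pow_ne_zero 3 ha)]

theorem mul_inv_pow {a : D} (ha : a ≠ 0) : a ^ 3 * a⁻¹ ^ 3 = 1 := by
  rw [inv_pow, mul_inv_cancel₀ (pow_ne_zero 3 ha)]

theorem tz_unitary (h : SCub C) {z : D} (hz : z ≠ 0) (hc : Commute z (star z)) :
    tz C z * star (tz C z) = 1 := by
  have hs : star z ≠ 0 := by rwa [Ne, star_eq_zero]
  have h1 := C.N_ne_zero hz
  have h2 := C.N_ne_zero hs
  rw [tz_eq C hz, h.smul, star_mul, star_pow, star_pow, star_div₀, ← h.N, ← h.N, star_inv₀,
    star_star, smul_mul_smul_comm]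
  have e1 : C.N (star z) / C.N z * (C.N z / C.N (star z)) = 1 := by field_simp
  have hc2 : Commute ((star z)⁻¹ ^ 3) (z⁻¹ ^ 3) :=
    ((hc.symm.inv_left₀).inv_right₀).pow_pow 3 3
  rw [e1, one_smul, mul_assoc, ← mul_assoc ((star z)⁻¹ ^ 3), hc2.eq, mul_assoc,
    inv_pow_mul hs, mul_one, mul_inv_pow hz]

theorem N_pow (x : D) (n : ℕ) : C.N (x ^ n) = C.N x ^ n := by
  induction n with
  | zero => rw [pow_zero, pow_zero, C.N_one]
  | succ n ih => rw [pow_succ, pow_succ, C.N_mul, ih]

theorem tz_norm {z : D} (hz : z ≠ 0) : C.N (tz C z) = 1 := by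
  have hs : star z ≠ 0 := by rwa [Ne, star_eq_zero]
  have h1 := C.N_ne_zero hz
  have h2 := C.N_ne_zero hs
  rw [tz_eq C hz, C.N_smul, C.N_mul, N_pow, N_pow, C.N_inv]
  field_simp

theorem tz_comm {z e : D} (h1 : Commute e z) (h2 : Commute e (star z)) :
    Commute e (tz C z) := by
  rw [tz, nu]
  refine Commute.smul_right ?_ _
  refine (h1.pow_right 3).mul_right ?_
  refine Commute.pow_right ?_ 3
  rw [C.adj_eq]
  exact ((h2.mul_right h2).sub_right (h2.smul_right _)).add_right ((Commute.one_right e).smul_right _)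

/-- The powers of an element of the torus. -/
theorem tz_one_add (h : SCub C) {t : D} (ht : t * star t = 1) (hN : C.N t = 1) (h0 : 1 + t ≠ 0) :
    tz C (1 + t) = t ^ 3 := by
  have ht0 : t ≠ 0 := left_ne_zero_of_mul_eq_one ht
  have hst : star t = t⁻¹ := (inv_eq_of_mul_eq_one_right ht).symm
  have hs : star (1 + t) ≠ 0 := by rwa [Ne, star_eq_zero]
  have e1 : star (1 + t) = t⁻¹ * (1 + t) := by
    rw [star_add, star_one, hst, mul_add, mul_one, inv_mul_cancel₀ ht0, add_comm]
  have hN2 : C.N (star (1 + t)) = C.N (1 + t) := by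
    rw [e1, C.N_mul, C.N_inv, hN, inv_one, one_mul]
  have h1 := C.N_ne_zero h0
  have hc : Commute (1 + t) t⁻¹ := ((Commute.one_left t⁻¹).add_left
    ((Commute.refl t).inv_right₀))
  rw [tz_eq C h0, hN2, div_self h1, one_smul, e1, mul_inv_rev, inv_inv]
  have hc2 : Commute ((1 + t)⁻¹) t := ((Commute.one_left t).add_left (Commute.refl t)).inv_left₀
  rw [hc2.mul_pow, ← mul_assoc, mul_inv_pow h0, one_mul]

theorem S_of_unitary (h : SCub C) {y : D} (hy : y * star y = 1) (hN : C.N y = 1) :
    C.S y = star (C.T y) := by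
  have hy0 : y ≠ 0 := left_ne_zero_of_mul_eq_one hy
  have hst : y⁻¹ = star y := inv_eq_of_mul_eq_one_right hy
  rw [Cub.S, C.adj_eq_inv hy0, hN, one_smul, hst, h.T]

/-- The conjugate of the function of the sieve. -/
theorem star_ph (h : SCub C) (x : D) {z : D} (hc : Commute z (star z)) :
    star (ph C x z) = ph C (star x) (star z) := by
  have hc1 : Commute (C.adj z ^ 3) (star z ^ 3) := by
    refine Commute.pow_pow ?_ 3 3
    rw [C.adj_eq]
    exact ((hc.mul_left hc).sub_left (hc.smul_left _)).add_left ((Commute.one_left _).smul_left _)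
  rw [ph, ph, ← h.T, nu, nu, star_mul, star_mul, star_pow, star_pow, ← h.adj, star_star,
    hc1.eq, C.T_comm]

theorem star_de (h : SCub C) (z : D) : star (de C z) = de C (star z) := by
  rw [de, de, star_mul', star_pow, ← h.N, ← h.N, star_star]

theorem star_gg (h : SCub C) (x : D) {z : D} (hc : Commute z (star z)) :
    star (gg C x z) = gg C (star x) (star z) := by
  rw [gg, gg, star_sub, star_mul', star_pow, star_pow, star_ph C h x hc, star_de C h,
    star_ofNat]

/-- Central elements are zeros. -/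
theorem gg_eq_zero {x z : D} (hz : z ≠ 0) (hN : C.N x = 1) {c : K} (hc : x * tz C z = c • (1 : D)) :
    gg C x z = 0 := by
  have h1 : c ^ 3 = 1 := by
    have h2 := congrArg C.N hc
    rwa [C.N_mul, hN, tz_norm C hz, C.N_smul, C.N_one, mul_one, mul_one, eq_comm] at h2
  have h2 : ph C x z = 3 * c * de C z := by
    have h3 := T_tz C x z
    rw [hc, map_smul, C.T_one, smul_eq_mul] at h3
    have := de_ne_zero C hz
    field_simp at h3
    rw [← h3]
    ring
  rw [gg, h2, mul_pow, mul_pow, h1]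
  ring

theorem gg_zero {x : D} : gg C x 0 = 0 := by
  rw [gg, ph, de, nu, C.N_zero]
  simp

end fam

end Vale.Agent.P011.H487
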