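import Vale.Agent.P011.H544.TopBC

/-!
# The factor `GL_n(F)` of the unitary group of the base change

`R` a topological `k`-algebra with a factor `F` (a field), `D` a division algebra over `k` with
involution and `f : D → M_n(F)` such that `x ↦ (f x, (f x*)ᵀ)` identifies `F ⊗ D` with
`M_n(F) × M_n(F)`.  Then the unitary group of `R ⊗ D` is the product of `GL_n(F)` and of
the kernel of a projection `pr`.
-/

open Module TensorProduct Matrix Topology Filter

set_option linter.unusedSectionVars false

namespace Vale.Agent.P011.H487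

open Vale.Agent.P011.H544

/-- `F` is a factor of the ring `R`. -/
structure Fac (k R F : Type*) [Field k] [CommRing R] [TopologicalSpace R] [Algebra k R]
    [Field F] [TopologicalSpace F] [Algebra k F] where
  /-- the coordinate -/
  ρ : R →ₐ[k] F
  /-- the inclusion -/
  σ : F →+ R
  ρσ : ∀ a, ρ (σ a) = a
  σρ : ∀ r, σ (ρ r) = σ 1 * r
  cρ : Continuous ρ
  cσ : Continuous σ

namespace Fac

variable {k R F : Type*} [Field k] [CommRing R] [TopologicalSpace R] [Algebra k R]
    [Field F] [TopologicalSpace F] [Algebra k F] (W : Fac k R F)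

/-- the idempotent -/
def e : R := W.σ 1

theorem e_mul_σ (a : F) : W.e * W.σ a = W.σ a := by
  rw [e, ← W.σρ, W.ρσ]

theorem σ_mul (a b : F) : W.σ (a * b) = W.σ a * W.σ b := by
  have h : a * b = W.ρ (W.σ a * W.σ b) := by rw [map_mul, W.ρσ, W.ρσ]
  rw [h, W.σρ, ← mul_assoc]
  congr 1
  exact W.e_mul_σ a

theorem e_mul_e : W.e * W.e = W.e := W.e_mul_σ 1

theorem ρ_e : W.ρ W.e = 1 := W.ρσ 1

end Fac

/-- The two components. -/
abbrev M2 (n : ℕ) (F : Type*) : Type _ := Matrix (Fin n) (Fin n) F × Matrix (Fin n) (Fin n) F

/-- the two components of the base change of `f` -/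
def two {D F : Type*} [DivisionRing D] [StarRing D] [Field F] {n : ℕ}
    (f : D →+* Matrix (Fin n) (Fin n) F) (x : D) : M2 n F := (f x, (f (star x))ᵀ)

/-- A splitting of the algebra at the factor `F`. -/
structure Spl {k D ι : Type*} [Field k] [DivisionRing D] [StarRing D] [Algebra k D]
    (B : Basis ι k D) (F : Type*) [Field F] [Algebra k F] (n : ℕ) where
  /-- the splitting -/
  f : D →+* Matrix (Fin n) (Fin n) F
  f_smul : ∀ (c : k) (x : D), f (c • x) = algebraMap k F c • f x
  li : LinearIndependent F (fun i => two f (B i))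
  span : ⊤ ≤ Submodule.span F (Set.range fun i => two f (B i))

section lin

variable {F : Type*} [Field F] [TopologicalSpace F] [IsTopologicalRing F] {n : ℕ}

theorem cont_lin1 (L : Matrix (Fin n) (Fin n) F →ₗ[F] F) : Continuous L := by
  have h : ∀ A : Matrix (Fin n) (Fin n) F, L A = ∑ i, ∑ j, A i j * L (single i j 1) := by
    intro A
    conv_lhs => rw [matrix_eq_sum_single A]
    rw [map_sum]
    refine Finset.sum_congr rfl fun i _ => ?_
    rw [map_sum]
    refine Finset.sum_congr rfl fun j _ => ?_
    rw [← smul_eq_mul, ← map_smul, smul_single, smul_eq_mul, mul_one]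
  have h2 : (L : Matrix (Fin n) (Fin n) F → F) = fun A => ∑ i, ∑ j, A i j * L (single i j 1) :=
    funext h
  rw [h2]
  refine continuous_finsetSum _ fun i _ => continuous_finsetSum _ fun j _ => ?_
  exact (continuous_id.matrix_elem i j).mul continuous_const

theorem cont_lin2 (L : M2 n F →ₗ[F] F) : Continuous L := by
  have h : (L : M2 n F → F) = fun y => (L ∘ₗ LinearMap.inl F _ _) y.1 +
      (L ∘ₗ LinearMap.inr F _ _) y.2 := by
    funext y
    rw [LinearMap.comp_apply, LinearMap.comp_apply, ← map_add]
    simp
  rw [h]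
  exact ((cont_lin1 _).comp continuous_fst).add ((cont_lin1 _).comp continuous_snd)

end lin

section main

variable {k R F D ι : Type*} [Field k] [CommRing R] [TopologicalSpace R]
    [Algebra k R] [Field F] [TopologicalSpace F] [Algebra k F]
    [DivisionRing D] [StarRing D] [Algebra k D] [Fintype ι] {n : ℕ} {B : Basis ι k D}

namespace Spl

variable (H : Spl B F n) [StarLin k D]

theorem two_smul' (c : k) (x : D) : two H.f (c • x) = algebraMap k F c • two H.f x := by
  ext1
  · exact H.f_smul c x
  · change (H.f (star (c • x)))ᵀ = algebraMap k F c • (H.f (star x))ᵀ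
    rw [StarLin.star_smul', H.f_smul, transpose_smul]

theorem two_one : two H.f 1 = 1 := by
  ext1
  · exact map_one H.f
  · change (H.f (star 1))ᵀ = 1
    rw [star_one, map_one, transpose_one]

theorem two_mul' (x y : D) : two H.f (x * y) = two H.f x * two H.f y := by
  ext1
  · exact map_mul H.f x y
  · change (H.f (star (x * y)))ᵀ = (H.f (star x))ᵀ * (H.f (star y))ᵀ
    rw [star_mul, map_mul, transpose_mul]

theorem two_add (x y : D) : two H.f (x + y) = two H.f x + two H.f y := by
  ext1
  · exact map_add H.f x y
  · change (H.f (star (x + y)))ᵀ = (H.f (star x))ᵀ + (H.f (star y))ᵀ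
    rw [star_add, map_add, transpose_add]

/-- the basis of the two components -/
noncomputable def C : Basis ι F (M2 n F) := Basis.mk H.li H.span

theorem C_apply (i : ι) : H.C i = two H.f (B i) := by rw [C, Basis.mk_apply]

/-- the homomorphism `D → M_n(F) × M_n(F)` -/
noncomputable def tw : D →ₐ[k] M2 n F where
  toFun := two H.f
  map_one' := H.two_one
  map_mul' := H.two_mul'
  map_zero' := by
    have h := H.two_smul' 0 0
    rw [zero_smul, map_zero, zero_smul] at h
    exact h
  map_add' := H.two_add
  commutes' c := by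
    rw [Algebra.algebraMap_eq_smul_one, H.two_smul', H.two_one, algebraMap_smul,
      Algebra.algebraMap_eq_smul_one]

end Spl

/-- The involution on the two components. -/
def sw (y : M2 n F) : M2 n F := (y.2ᵀ, y.1ᵀ)

theorem sw_two (f : D →+* Matrix (Fin n) (Fin n) F) (x : D) : two f (star x) = sw (two f x) := by
  ext1
  · change f (star x) = ((f (star x))ᵀ)ᵀ
    rw [transpose_transpose]
  · change (f (star (star x)))ᵀ = (f x)ᵀ
    rw [star_star]

variable (W : Fac k R F) (H : Spl B F n) [StarLin k D]

/-- The scalars. -/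
noncomputable def scal (n : ℕ) : R →ₐ[k] M2 n F :=
  ((Algebra.ofId F (M2 n F)).restrictScalars k).comp W.ρ

theorem scal_apply (r : R) : scal W n r = algebraMap F (M2 n F) (W.ρ r) := rfl

theorem scal_comm (r : R) (x : D) : Commute (scal W n r) (H.tw x) :=
  Algebra.commutes (W.ρ r) _

/-- The projection to the two components, as a homomorphism on the tensor product. -/
noncomputable def PT : (R ⊗[k] D) →ₐ[k] M2 n F :=
  Algebra.TensorProduct.lift (scal W n) H.tw (scal_comm W H)

theorem PT_tmul (r : R) (x : D) : PT W H (r ⊗ₜ[k] x) = W.ρ r • two H.f x := by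
  rw [PT, Algebra.TensorProduct.lift_tmul, scal_apply, Algebra.smul_def]
  rfl

/-- The projection to the two components. -/
noncomputable def P : BE B R →+* M2 n F := (PT W H).toRingHom

theorem P_smul (r : R) (x : BE B R) : P W H (r • x) = W.ρ r • P W H x := by
  have h : ∀ x : R ⊗[k] D, PT W H (r • x) = W.ρ r • PT W H x := by
    intro x
    induction x using TensorProduct.induction_on with
    | zero => rw [smul_zero, map_zero, smul_zero]
    | tmul s y => rw [TensorProduct.smul_tmul', PT_tmul, PT_tmul, smul_eq_mul, map_mul, mul_smul]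
    | add x y hx hy => rw [smul_add, map_add, map_add, hx, hy, smul_add]
  exact h x

theorem P_star (x : BE B R) : P W H (star x) = sw (P W H x) := by
  have h : ∀ x : R ⊗[k] D, PT W H (starT (k := k) R x) = sw (PT W H x) := by
    intro x
    induction x using TensorProduct.induction_on with
    | zero => rw [map_zero, map_zero]; rfl
    | tmul s y =>
      rw [starT_tmul, PT_tmul, PT_tmul, sw_two]
      rfl
    | add x y hx hy =>
      rw [map_add, map_add, map_add, hx, hy]
      rfl
  exact h x

theorem P_j [DecidableEq ι] (x : D) : P W H ((bcT B R).j x) = two H.f x := by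
  have h := PT_tmul W H 1 x
  rw [map_one, one_smul] at h
  exact h

theorem P_eq (x : BE B R) : P W H x = ∑ i, W.ρ (eqF B R x i) • two H.f (B i) := by
  classical
  have hx : x = ∑ i, eqF B R x i • (bcT B R).b i := ((bcT B R).b.sum_repr x).symm
  conv_lhs => rw [hx]
  rw [map_sum]
  refine Finset.sum_congr rfl fun i _ => ?_
  rw [P_smul, BC.b_apply, P_j]
  rfl

theorem continuous_P [IsTopologicalRing F] : Continuous (P W H) := by
  have h : (P W H : BE B R → M2 n F) = fun x => ∑ i, W.ρ (eqF B R x i) • two H.f (B i) :=
    funext (P_eq W H)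
  rw [h]
  refine continuous_finsetSum _ fun i _ => ?_
  have h1 : Continuous fun x : BE B R => W.ρ (eqF B R x i) :=
    W.cρ.comp ((continuous_apply i).comp (cont_eqF B R))
  exact h1.smul continuous_const

/-- The inclusion of the two components. -/
noncomputable def J (y : M2 n F) : BE B R := (eqF B R).symm fun i => W.σ (H.C.repr y i)

theorem eqF_J (y : M2 n F) (i : ι) : eqF B R (J W H y) i = W.σ (H.C.repr y i) := by
  rw [J, LinearEquiv.apply_symm_apply]

theorem P_J (y : M2 n F) : P W H (J W H y) = y := by
  rw [P_eq]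
  simp only [eqF_J, W.ρσ]
  conv_rhs => rw [← H.C.sum_repr y]
  exact Finset.sum_congr rfl fun i _ => by rw [H.C_apply]

theorem J_P (x : BE B R) : J W H (P W H x) = W.e • x := by
  apply (eqF B R).injective
  funext i
  rw [eqF_J, map_smul, Pi.smul_apply, smul_eq_mul, Fac.e, ← W.σρ]
  congr 1
  rw [P_eq]
  have h : ∑ i, W.ρ (eqF B R x i) • two H.f (B i) = ∑ i, W.ρ (eqF B R x i) • H.C i :=
    Finset.sum_congr rfl fun i _ => by rw [H.C_apply]
  rw [h, Basis.repr_sum_self]

theorem J_add (y z : M2 n F) : J W H (y + z) = J W H y + J W H z := by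
  apply (eqF B R).injective
  funext i
  rw [map_add, Pi.add_apply, eqF_J, eqF_J, eqF_J, map_add, Finsupp.add_apply, map_add]

theorem e_J (y : M2 n F) : W.e • J W H y = J W H y := by
  rw [← J_P W H (J W H y), P_J]

theorem J_mul (y z : M2 n F) : J W H (y * z) = J W H y * J W H z := by
  have h : y * z = P W H (J W H y * J W H z) := by rw [map_mul, P_J, P_J]
  rw [h, J_P, ← smul_mul_assoc, e_J]

theorem J_one : J W H 1 = W.e • (1 : BE B R) := by
  rw [← map_one (P W H), J_P]

theorem star_smul_BE (r : R) (x : BE B R) : star (r • x) = r • star x :=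
  map_smul (starT (k := k) (A := D) R) r x

theorem J_star (y : M2 n F) : J W H (sw y) = star (J W H y) := by
  have h : sw y = P W H (star (J W H y)) := by rw [P_star, P_J]
  rw [h, J_P, ← star_smul_BE, e_J]

theorem continuous_J [IsTopologicalRing F] : Continuous (J W H : M2 n F → BE B R) := by
  refine cont_into B R _ ?_
  refine continuous_pi fun i => ?_
  simp only [eqF_J]
  exact W.cσ.comp (cont_lin2 (H.C.coord i))

end main

end Vale.Agent.P011.H487
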