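import Vale.Agent.P011.H487.GFac

/-!
# The factor `GL_n(F)` of the unitary group: projection, inclusion, splitting
-/

open Module TensorProduct Matrix Topology Filter

set_option linter.unusedSectionVars false

namespace Vale.Agent.P011.H487

open Vale.Agent.P011.H544

section gl

variable {F : Type*} [Field F] {n : ℕ}

/-- The element `(A, (A⁻¹)ᵀ)`. -/
def glM : GL (Fin n) F →* M2 n F where
  toFun A := ((A : Matrix (Fin n) (Fin n) F), ((A⁻¹ : GL (Fin n) F) : Matrix (Fin n) (Fin n) F)ᵀ)
  map_one' := by
    ext1
    · rfl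
    · simp
  map_mul' A B := by
    ext1
    · rfl
    · change (((A * B)⁻¹ : GL (Fin n) F) : Matrix (Fin n) (Fin n) F)ᵀ = _
      rw [_root_.mul_inv_rev, Units.val_mul, transpose_mul]
      rfl

theorem glM_fst (A : GL (Fin n) F) : (glM A).1 = (A : Matrix (Fin n) (Fin n) F) := rfl

theorem glM_snd (A : GL (Fin n) F) :
    (glM A).2 = ((A⁻¹ : GL (Fin n) F) : Matrix (Fin n) (Fin n) F)ᵀ := rfl

theorem sw_glM (A : GL (Fin n) F) : sw (glM A) = glM A⁻¹ := by
  ext1
  · change (((A⁻¹ : GL (Fin n) F) : Matrix (Fin n) (Fin n) F)ᵀ)ᵀ = _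
    rw [transpose_transpose, glM_fst]
  · change ((A : Matrix (Fin n) (Fin n) F))ᵀ = _
    rw [glM_snd, inv_inv]

theorem continuous_glM [TopologicalSpace F] [IsTopologicalRing F] :
    Continuous (glM : GL (Fin n) F → M2 n F) := by
  have h1 : Continuous fun A : GL (Fin n) F => (A : Matrix (Fin n) (Fin n) F) :=
    Units.continuous_val
  have h2 : Continuous fun A : GL (Fin n) F =>
      ((A⁻¹ : GL (Fin n) F) : Matrix (Fin n) (Fin n) F) := Units.continuous_coe_inv
  exact h1.prodMk h2.matrix_transpose

end gl

variable {k R F D ι : Type*} [Field k] [CommRing R] [TopologicalSpace R]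
    [Algebra k R] [Field F] [TopologicalSpace F] [Algebra k F]
    [DivisionRing D] [StarRing D] [Algebra k D] [Fintype ι] {n : ℕ} {B : Basis ι k D}
    (W : Fac k R F) (H : Spl B F n) [StarLin k D]

/-- The projection of the unitary group to `GL_n(F)`. -/
noncomputable def pr : unitary (BE B R) →* GL (Fin n) F where
  toFun u := ⟨(P W H u).1, (P W H (star (u : BE B R))).1, by
      rw [← Prod.fst_mul, ← map_mul, Unitary.mul_star_self_of_mem u.2, map_one]; rfl, by
      rw [← Prod.fst_mul, ← map_mul, Unitary.star_mul_self_of_mem u.2, map_one]; rfl⟩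
  map_one' := by
    ext1
    change (P W H 1).1 = 1
    rw [map_one]; rfl
  map_mul' u v := by
    ext1
    change (P W H (u * v)).1 = (P W H u).1 * (P W H v).1
    rw [map_mul]; rfl

theorem pr_val (u : unitary (BE B R)) :
    (pr W H u : Matrix (Fin n) (Fin n) F) = (P W H u).1 := rfl

theorem pr_inv_val (u : unitary (BE B R)) :
    (((pr W H u)⁻¹ : GL (Fin n) F) : Matrix (Fin n) (Fin n) F) =
      (P W H (star (u : BE B R))).1 := rfl

/-- The projection of the base change of an element of `D`. -/
theorem pr_j [DecidableEq ι] (u : unitary (BE B R)) {x : D} (hx : (u : BE B R) = (bcT B R).j x) :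
    (pr W H u : Matrix (Fin n) (Fin n) F) = H.f x := by
  rw [pr_val, hx, P_j]
  rfl

theorem P_unitary (u : unitary (BE B R)) : P W H u = glM (pr W H u) := by
  ext1
  · rfl
  · rw [glM_snd, pr_inv_val, P_star]
    change _ = ((P W H (u : BE B R)).2ᵀ)ᵀ
    rw [transpose_transpose]

/-- The inclusion of the two components, completed by the identity. -/
noncomputable def jF (y : M2 n F) : BE B R := J W H y + (1 - W.e) • (1 : BE B R)

theorem e_compl_J (y : M2 n F) : (1 - W.e) • J W H y = 0 := by
  rw [sub_smul, one_smul, e_J, sub_self]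

theorem jF_mul (y z : M2 n F) : jF W H (y * z) = jF W H y * jF W H z := by
  have h1 : J W H y * ((1 - W.e) • (1 : BE B R)) = 0 := by
    rw [mul_smul_comm, mul_one, e_compl_J]
  have h2 : ((1 - W.e) • (1 : BE B R)) * J W H z = 0 := by
    rw [smul_mul_assoc, one_mul, e_compl_J]
  have h3 : ((1 - W.e) • (1 : BE B R)) * ((1 - W.e) • (1 : BE B R)) = (1 - W.e) • (1 : BE B R) := by
    rw [smul_mul_smul_comm, mul_one]
    congr 1
    have := W.e_mul_e
    linear_combination this
  rw [jF, jF, jF, add_mul, mul_add, mul_add, h1, h2, h3, J_mul, add_zero, zero_add]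

theorem jF_one : jF W H 1 = 1 := by
  rw [jF, J_one, ← add_smul, add_sub_cancel, one_smul]

theorem star_jF (y : M2 n F) : star (jF W H y) = jF W H (sw y) := by
  rw [jF, star_add, ← J_star, star_smul_BE, star_one, jF]

theorem P_jF (y : M2 n F) : P W H (jF W H y) = y := by
  rw [jF, map_add, P_J, P_smul, map_sub, map_one, W.ρ_e, sub_self, zero_smul, add_zero]

/-- The inclusion of `GL_n(F)` in the unitary group. -/
noncomputable def jG : GL (Fin n) F →* unitary (BE B R) where
  toFun A := ⟨jF W H (glM A), Unitary.mem_iff.2 ⟨by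
    rw [star_jF, sw_glM, ← jF_mul, ← map_mul, inv_mul_cancel, map_one, jF_one], by
    rw [star_jF, sw_glM, ← jF_mul, ← map_mul, mul_inv_cancel, map_one, jF_one]⟩⟩
  map_one' := by
    ext1
    change jF W H (glM 1) = 1
    rw [map_one, jF_one]
  map_mul' A A' := by
    ext1
    change jF W H (glM (A * A')) = jF W H (glM A) * jF W H (glM A')
    rw [map_mul, jF_mul]

theorem jG_val (A : GL (Fin n) F) : (jG W H A : BE B R) = jF W H (glM A) := rfl

theorem pr_jG (A : GL (Fin n) F) : pr W H (jG W H A) = A := by
  ext1
  rw [pr_val, jG_val, P_jF, glM_fst]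

/-- The component of `u` off the factor. -/
noncomputable def off (u : unitary (BE B R)) : unitary (BE B R) := u * (jG W H (pr W H u))⁻¹

theorem off_mul_jG (u : unitary (BE B R)) : off W H u * jG W H (pr W H u) = u := by
  rw [off, inv_mul_cancel_right]

theorem pr_off (u : unitary (BE B R)) : pr W H (off W H u) = 1 := by
  rw [off, map_mul, map_inv, pr_jG, mul_inv_cancel]

theorem off_sub_one (u : unitary (BE B R)) :
    (off W H u : BE B R) - 1 = (1 - W.e) • ((u : BE B R) - 1) := by
  have h1 : W.e • (off W H u : BE B R) = W.e • (1 : BE B R) := by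
    rw [← J_P W H, P_unitary, pr_off, map_one, J_one]
  have h2 : (1 - W.e) • (off W H u : BE B R) = (1 - W.e) • (u : BE B R) := by
    have h3 : (1 - W.e) • (u : BE B R) =
        (off W H u : BE B R) * ((1 - W.e) • (jG W H (pr W H u) : BE B R)) := by
      conv_lhs => rw [← off_mul_jG W H u]
      rw [Submonoid.coe_mul, mul_smul_comm]
    have h4 : (1 - W.e) • (jG W H (pr W H u) : BE B R) = (1 - W.e) • (1 : BE B R) := by
      rw [jG_val, jF, smul_add, e_compl_J, zero_add, smul_smul]
      congr 1
      have := W.e_mul_e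
      linear_combination this
    rw [h3, h4, mul_smul_comm, mul_one]
  have h5 : (off W H u : BE B R) = W.e • (off W H u : BE B R) +
      (1 - W.e) • (off W H u : BE B R) := by
    rw [← add_smul, add_sub_cancel, one_smul]
  have h6 : (1 : BE B R) = W.e • (1 : BE B R) + (1 - W.e) • (1 : BE B R) := by
    rw [← add_smul, add_sub_cancel, one_smul]
  calc (off W H u : BE B R) - 1 = (W.e • (1 : BE B R) + (1 - W.e) • (u : BE B R)) -
        (W.e • (1 : BE B R) + (1 - W.e) • (1 : BE B R)) := by
        rw [← h6, ← h1, ← h2, ← h5]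
    _ = (1 - W.e) • ((u : BE B R) - 1) := by
        rw [smul_sub]; abel

/-- The elements with trivial projection commute with the factor. -/
theorem commute_of_pr {v : unitary (BE B R)} (hv : pr W H v = 1) (A : GL (Fin n) F) :
    Commute v (jG W H A) := by
  have h1 : W.e • (v : BE B R) = J W H 1 := by
    rw [← J_P W H, P_unitary, hv, map_one]
  have h2 : ∀ y, (v : BE B R) * J W H y = J W H y := by
    intro y
    calc (v : BE B R) * J W H y = (v : BE B R) * (W.e • J W H y) := by rw [e_J]
      _ = (W.e • (v : BE B R)) * J W H y := by rw [mul_smul_comm, smul_mul_assoc]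
      _ = J W H y := by rw [h1, ← J_mul, one_mul]
  have h3 : ∀ y, J W H y * (v : BE B R) = J W H y := by
    intro y
    calc J W H y * (v : BE B R) = (W.e • J W H y) * (v : BE B R) := by rw [e_J]
      _ = J W H y * (W.e • (v : BE B R)) := by rw [mul_smul_comm, smul_mul_assoc]
      _ = J W H y := by rw [h1, ← J_mul, mul_one]
  change v * jG W H A = jG W H A * v
  ext1
  rw [Submonoid.coe_mul, Submonoid.coe_mul, jG_val, jF, mul_add, add_mul, h2, h3,
    mul_smul_comm, smul_mul_assoc, mul_one, one_mul]

/-- Conjugation of the factor. -/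
theorem conj_jG (g : unitary (BE B R)) (A : GL (Fin n) F) :
    g * jG W H A * g⁻¹ = jG W H (pr W H g * A * (pr W H g)⁻¹) := by
  have h1 := off_mul_jG W H g
  have h2 := commute_of_pr W H (pr_off W H g) (pr W H g * A * (pr W H g)⁻¹)
  have h3 : g * jG W H A * g⁻¹ =
      off W H g * jG W H (pr W H g * A * (pr W H g)⁻¹) * (off W H g)⁻¹ := by
    conv_lhs => rw [← h1]
    rw [map_mul, map_mul, map_inv]
    group
  rw [h3, h2.eq, mul_inv_cancel_right]

/-- Elements commute with the factor as their projections do. -/
theorem commute_jG {p : unitary (BE B R)} {A : GL (Fin n) F} (h : Commute (pr W H p) A) :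
    Commute p (jG W H A) := by
  have h1 := conj_jG W H p A
  rw [h.eq, mul_inv_cancel_right] at h1
  exact mul_inv_eq_iff_eq_mul.1 h1

/-- The inclusion of `SL_n(F)`. -/
noncomputable def jS : SpecialLinearGroup (Fin n) F →* unitary (BE B R) :=
  (jG W H).comp SpecialLinearGroup.toGL

theorem jS_apply (z : SpecialLinearGroup (Fin n) F) :
    jS W H z = jG W H (SpecialLinearGroup.toGL z) := rfl

theorem pr_jS (z : SpecialLinearGroup (Fin n) F) :
    pr W H (jS W H z) = SpecialLinearGroup.toGL z := by
  rw [jS_apply, pr_jG]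

theorem jG_mem_range {A : GL (Fin n) F} (hA : det (A : Matrix (Fin n) (Fin n) F) = 1) :
    jG W H A ∈ (jS W H).range := by
  let z : SpecialLinearGroup (Fin n) F := ⟨(A : Matrix (Fin n) (Fin n) F), hA⟩
  have hz : SpecialLinearGroup.toGL z = A := by
    ext1
    rfl
  exact ⟨z, by rw [jS_apply, hz]⟩

theorem conj_det (A C : GL (Fin n) F) (hA : det (A : Matrix (Fin n) (Fin n) F) = 1) :
    det ((C * A * C⁻¹ : GL (Fin n) F) : Matrix (Fin n) (Fin n) F) = 1 := by
  rw [Units.val_mul, Units.val_mul, det_mul, det_mul, hA, mul_one, ← det_mul, ← Units.val_mul,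
    mul_inv_cancel, Units.val_one, det_one]

/-- The factor `SL_n(F)` is normal. -/
instance normal_range : (jS W H).range.Normal := ⟨by
  rintro _ ⟨z, rfl⟩ g
  rw [jS_apply, conj_jG]
  exact jG_mem_range W H (conj_det _ _ z.2)⟩

section top

theorem continuous_pr [IsTopologicalRing F] [ContinuousStar (BE B R)] :
    Continuous (pr W H) := by
  rw [Units.continuous_iff]
  constructor
  · change Continuous fun u : unitary (BE B R) => (P W H (u : BE B R)).1
    exact continuous_fst.comp ((continuous_P W H).comp continuous_subtype_val)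
  · change Continuous fun u : unitary (BE B R) => (P W H (star (u : BE B R))).1
    exact continuous_fst.comp ((continuous_P W H).comp
      (continuous_star.comp continuous_subtype_val))

theorem continuous_jG [IsTopologicalRing F] [IsTopologicalRing R] : Continuous (jG W H) := by
  refine Continuous.subtype_mk ?_ _
  change Continuous fun A : GL (Fin n) F => J W H (glM A) + (1 - W.e) • (1 : BE B R)
  exact ((continuous_J W H).comp continuous_glM).add continuous_const

theorem continuous_jS [IsTopologicalRing F] [IsTopologicalRing R] : Continuous (jS W H) :=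
  (continuous_jG W H).comp SpecialLinearGroup.continuous_toGL

/-- The unitary group is the product of the kernel of the projection and of `GL_n(F)`. -/
noncomputable def splitG [IsTopologicalRing F] [IsTopologicalRing R] [ContinuousStar (BE B R)] :
    unitary (BE B R) ≃ₜ* (pr W H).ker × GL (Fin n) F where
  toFun u := (⟨off W H u, pr_off W H u⟩, pr W H u)
  invFun p := p.1 * jG W H p.2
  left_inv u := off_mul_jG W H u
  right_inv p := by
    have h1 : pr W H ((p.1 : unitary (BE B R)) * jG W H p.2) = p.2 := by
      rw [map_mul, pr_jG, (p.1.2 : pr W H p.1 = 1), one_mul]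
    ext1
    · apply Subtype.ext
      change off W H ((p.1 : unitary (BE B R)) * jG W H p.2) = p.1
      rw [off, h1, mul_inv_cancel_right]
    · exact h1
  map_mul' u v := by
    ext1
    · apply Subtype.ext
      change off W H (u * v) = off W H u * off W H v
      have h := commute_of_pr W H (pr_off W H v) (pr W H u)
      have h2 : (jG W H (pr W H u))⁻¹ * off W H v = off W H v * (jG W H (pr W H u))⁻¹ :=
        (h.inv_right).eq.symm
      calc off W H (u * v) = u * v * ((jG W H (pr W H v))⁻¹ * (jG W H (pr W H u))⁻¹) := by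
            rw [off, map_mul, map_mul, _root_.mul_inv_rev]
        _ = u * (off W H v * (jG W H (pr W H u))⁻¹) := by rw [off]; group
        _ = off W H u * off W H v := by rw [← h2, ← mul_assoc]; rfl
    · exact map_mul _ _ _
  continuous_toFun := by
    refine Continuous.prodMk (Continuous.subtype_mk ?_ _) (continuous_pr W H)
    change Continuous fun u => u * (jG W H (pr W H u))⁻¹
    exact continuous_id.mul ((continuous_jG W H).comp (continuous_pr W H)).inv
  continuous_invFun := by
    exact (continuous_subtype_val.comp continuous_fst).mul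
      ((continuous_jG W H).comp continuous_snd)

/-- The component off the factor is close to one if the coordinates off the factor are. -/
theorem off_near [IsTopologicalRing R] (O : Set (unitary (BE B R))) (hO : O ∈ 𝓝 (1 : unitary (BE B R))) :
    ∃ U ∈ 𝓝 (0 : ι → R), ∀ u : unitary (BE B R),
      (fun i => (1 - W.e) * eqF B R ((u : BE B R) - 1) i) ∈ U → off W H u ∈ O := by
  rw [nhds_subtype_eq_comap, mem_comap] at hO
  obtain ⟨O1, hO1, hO2⟩ := hO
  have h1 : 𝓝 ((1 : unitary (BE B R)) : BE B R) =
      comap (fun x => eqF B R x) (𝓝 (eqF B R (1 : BE B R))) := nhds_induced _ _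
  rw [h1, mem_comap] at hO1
  obtain ⟨V, hV, hVO⟩ := hO1
  have h2 : Tendsto (fun y : ι → R => eqF B R (1 : BE B R) + y) (𝓝 0)
      (𝓝 (eqF B R (1 : BE B R))) := by
    have h3 : Continuous fun y : ι → R => eqF B R (1 : BE B R) + y :=
      continuous_const.add continuous_id
    have h4 := h3.tendsto 0
    rwa [add_zero] at h4
  refine ⟨_, h2 hV, fun u hu => hO2 (hVO ?_)⟩
  rw [Set.mem_preimage]
  have h5 : eqF B R (off W H u : BE B R) = eqF B R (1 : BE B R) +
      fun i => (1 - W.e) * eqF B R ((u : BE B R) - 1) i := by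
    have h6 : (off W H u : BE B R) = 1 + (1 - W.e) • ((u : BE B R) - 1) := by
      rw [← off_sub_one W H]; abel
    rw [h6, map_add, map_smul]
    rfl
  rw [h5]
  exact hu

end top

end Vale.Agent.P011.H487
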