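import Mathlib

/-!
Unitary transvections over a quadratic extension `K / k` with nontrivial involution, in any
characteristic (2 included), no topology: if the nondegenerate hermitian form `b` on `V` has an
isotropic vector, then

* (NS1) the special unitary group is generated by the unitary transvections
  `x ↦ x + c b(x,z) z`, `b(z,z) = 0`, `c + star c = 0`;
* (NS2) every subgroup of the unitary group which is normalised by the transvections and contains
  a non-scalar element contains the special unitary group.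

This file: forms, quasi-reflections `R z c`, transvection group, Weyl elements, Eichler maps.
-/

namespace Vale.Agent.P011.H487

/-- A hermitian form, linear in the first argument. -/
structure HForm (K V : Type*) [Field K] [StarRing K] [AddCommGroup V] [Module K V] where
  /-- the values -/
  b : V → V → K
  add_left : ∀ x y z, b (x + y) z = b x z + b y z
  smul_left : ∀ (a : K) x y, b (a • x) y = a * b x y
  star_b : ∀ x y, star (b x y) = b y x

variable {K V : Type*} [Field K] [StarRing K] [AddCommGroup V] [Module K V]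

namespace HForm

variable (h : HForm K V)

theorem add_right (x y z : V) : h.b x (y + z) = h.b x y + h.b x z := by
  rw [← h.star_b, h.add_left, star_add, h.star_b, h.star_b]

theorem smul_right (a : K) (x y : V) : h.b x (a • y) = star a * h.b x y := by
  rw [← h.star_b, h.smul_left, star_mul', h.star_b]

theorem zero_left (y : V) : h.b 0 y = 0 := by
  have := h.smul_left 0 0 y
  simpa using this

theorem zero_right (y : V) : h.b y 0 = 0 := by
  rw [← h.star_b, h.zero_left, star_zero]

theorem neg_left (x y : V) : h.b (-x) y = - h.b x y := by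
  have := h.smul_left (-1) x y
  simpa using this

theorem neg_right (x y : V) : h.b x (-y) = - h.b x y := by
  rw [← h.star_b, h.neg_left, star_neg, h.star_b]

theorem sub_left (x y z : V) : h.b (x - y) z = h.b x z - h.b y z := by
  rw [sub_eq_add_neg, h.add_left, h.neg_left, sub_eq_add_neg]

theorem sub_right (x y z : V) : h.b x (y - z) = h.b x y - h.b x z := by
  rw [sub_eq_add_neg, h.add_right, h.neg_right, sub_eq_add_neg]

/-- symmetry of zeros -/
theorem eq_zero_symm {x y : V} (hxy : h.b x y = 0) : h.b y x = 0 := by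
  rw [← h.star_b, hxy, star_zero]

/-- The isometry group. -/
def U : Subgroup (V ≃ₗ[K] V) where
  carrier := {g | ∀ x y, h.b (g x) (g y) = h.b x y}
  mul_mem' := by
    intro g g' hg hg' x y
    rw [LinearEquiv.mul_apply, LinearEquiv.mul_apply, hg, hg']
  one_mem' := by intro x y; rfl
  inv_mem' := by
    intro g hg x y
    have h1 : ∀ x, g (g⁻¹ x) = x := fun x => by
      rw [← LinearEquiv.mul_apply, mul_inv_cancel]; rfl
    rw [← hg (g⁻¹ x) (g⁻¹ y), h1, h1]

theorem mem_U {g : V ≃ₗ[K] V} : g ∈ h.U ↔ ∀ x y, h.b (g x) (g y) = h.b x y := Iff.rfl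

/-- nondegenerate -/
def Nondeg : Prop := ∀ x, (∀ y, h.b y x = 0) → x = 0

omit [StarRing K] in
theorem apply_inv (g : V ≃ₗ[K] V) (x : V) : g (g⁻¹ x) = x := by
  rw [← LinearEquiv.mul_apply, mul_inv_cancel]; rfl

omit [StarRing K] in
theorem inv_apply (g : V ≃ₗ[K] V) (x : V) : g⁻¹ (g x) = x := by
  rw [← LinearEquiv.mul_apply, inv_mul_cancel]; rfl

/-- adjunction -/
theorem b_inv {g : V ≃ₗ[K] V} (hg : g ∈ h.U) (x y : V) : h.b (g⁻¹ x) y = h.b x (g y) := by
  have := hg (g⁻¹ x) y
  rw [apply_inv] at this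
  exact this.symm

theorem b_inv' {g : V ≃ₗ[K] V} (hg : g ∈ h.U) (x y : V) : h.b x (g⁻¹ y) = h.b (g x) y := by
  have := hg x (g⁻¹ y)
  rw [apply_inv] at this
  exact this.symm

/-- the linear map `y ↦ y + c b(y,z) z` -/
def Rl (z : V) (c : K) : V →ₗ[K] V where
  toFun y := y + (c * h.b y z) • z
  map_add' x y := by
    rw [h.add_left, mul_add, add_smul]; abel
  map_smul' a x := by
    simp only [h.smul_left, RingHom.id_apply, smul_add, smul_smul]
    congr 2; ring

theorem Rl_apply (z : V) (c : K) (y : V) : h.Rl z c y = y + (c * h.b y z) • z := rfl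

/-- the isometry condition -/
def Rc (z : V) (c : K) : Prop := c + star c + c * star c * h.b z z = 0

theorem Rc_star {z : V} {c : K} (hc : h.Rc z c) : h.Rc z (star c) := by
  unfold Rc at *
  rw [star_star, ← hc]; ring

theorem Rl_comp (z : V) (c c' : K) :
    h.Rl z c ∘ₗ h.Rl z c' = h.Rl z (c + c' + c * c' * h.b z z) := by
  ext y
  simp only [LinearMap.comp_apply, Rl_apply, h.add_left, h.smul_left]
  rw [add_assoc, ← add_smul]
  congr 2; ring

theorem Rl_zero (z : V) : h.Rl z 0 = LinearMap.id := by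
  ext y; simp [Rl_apply]

open Classical in
/-- quasi-reflections and transvections -/
noncomputable def R (z : V) (c : K) : V ≃ₗ[K] V :=
  if hc : h.Rc z c then
    LinearEquiv.ofLinearMap (h.Rl z c) (h.Rl z (star c))
      (by rw [Rl_comp]; unfold Rc at hc; rw [hc, Rl_zero])
      (by rw [Rl_comp]; have := h.Rc_star hc; unfold Rc at this; rw [star_star] at this
          rw [this, Rl_zero])
  else 1

theorem R_apply {z : V} {c : K} (hc : h.Rc z c) (y : V) :
    h.R z c y = y + (c * h.b y z) • z := by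
  unfold R
  rw [dif_pos hc]; rfl

theorem R_inv {z : V} {c : K} (hc : h.Rc z c) : (h.R z c)⁻¹ = h.R z (star c) := by
  rw [inv_eq_iff_mul_eq_one]
  ext y
  rw [LinearEquiv.mul_apply, h.R_apply hc, h.R_apply (h.Rc_star hc)]
  have := congrArg (fun f : V →ₗ[K] V => f y) (h.Rl_comp z c (star c))
  simp only [LinearMap.comp_apply, Rl_apply] at this
  rw [this]
  unfold Rc at hc
  rw [hc]; simp

theorem R_mem_U {z : V} {c : K} (hc : h.Rc z c) : h.R z c ∈ h.U := by
  intro x y
  rw [h.R_apply hc, h.R_apply hc, h.add_left, h.add_right, h.add_right, h.smul_left, h.smul_right,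
    h.smul_left, h.smul_right, star_mul', h.star_b]
  unfold Rc at hc
  linear_combination (h.b x z * h.b z y) * hc

theorem R_conj {z : V} {c : K} (hc : h.Rc z c) {g : V ≃ₗ[K] V} (hg : g ∈ h.U) :
    g * h.R z c * g⁻¹ = h.R (g z) c := by
  have hc' : h.Rc (g z) c := by
    unfold Rc; rw [hg]; exact hc
  ext y
  rw [LinearEquiv.mul_apply, LinearEquiv.mul_apply, h.R_apply hc, h.R_apply hc', map_add,
    apply_inv, map_smul, h.b_inv hg]

/-- isotropic vectors -/
theorem Rc_iso {z : V} {c : K} (hz : h.b z z = 0) (hc : c + star c = 0) : h.Rc z c := by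
  unfold Rc; rw [hz, hc]; ring

theorem R_mul {z : V} {c c' : K} (hz : h.b z z = 0) (hc : c + star c = 0)
    (hc' : c' + star c' = 0) : h.R z c * h.R z c' = h.R z (c + c') := by
  have h3 : (c + c') + star (c + c') = 0 := by
    rw [star_add]; linear_combination hc + hc'
  ext y
  rw [LinearEquiv.mul_apply, h.R_apply (h.Rc_iso hz hc), h.R_apply (h.Rc_iso hz hc'),
    h.R_apply (h.Rc_iso hz h3), h.add_left, h.smul_left, hz, mul_zero, add_zero, add_assoc,
    ← add_smul]
  congr 2; ring

theorem R_smul {z : V} {c a : K} (hz : h.b z z = 0) (hc : c + star c = 0) :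
    h.R (a • z) c = h.R z (a * star a * c) := by
  have h3 : a * star a * c + star (a * star a * c) = 0 := by
    rw [star_mul', star_mul', star_star]; linear_combination a * star a * hc
  have h4 : h.b (a • z) (a • z) = 0 := by rw [h.smul_left, h.smul_right, hz]; ring
  ext y
  rw [h.R_apply (h.Rc_iso h4 hc), h.R_apply (h.Rc_iso hz h3), h.smul_right, smul_smul]
  congr 2; ring

theorem R_zero (z : V) : h.R z 0 = 1 := by
  ext y
  rw [h.R_apply (by unfold Rc; simp)]
  simp

/-- The group generated by the transvections. -/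
noncomputable def T : Subgroup (V ≃ₗ[K] V) :=
  Subgroup.closure {g | ∃ z c, h.b z z = 0 ∧ c + star c = 0 ∧ g = h.R z c}

theorem R_mem_T {z : V} {c : K} (hz : h.b z z = 0) (hc : c + star c = 0) : h.R z c ∈ h.T :=
  Subgroup.subset_closure ⟨z, c, hz, hc, rfl⟩

theorem T_le_U : h.T ≤ h.U := by
  unfold T
  rw [Subgroup.closure_le]
  rintro _ ⟨z, c, hz, hc, rfl⟩
  exact h.R_mem_U (h.Rc_iso hz hc)

theorem T_conj {g : V ≃ₗ[K] V} (hg : g ∈ h.U) {t : V ≃ₗ[K] V} (ht : t ∈ h.T) :
    g * t * g⁻¹ ∈ h.T := by
  unfold T at ht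
  induction ht using Subgroup.closure_induction with
  | mem x hx =>
    obtain ⟨z, c, hz, hc, rfl⟩ := hx
    rw [h.R_conj (h.Rc_iso hz hc) hg]
    exact h.R_mem_T (by rw [hg]; exact hz) hc
  | one => simp [one_mem]
  | mul x y _ _ hx hy =>
    have : g * (x * y) * g⁻¹ = (g * x * g⁻¹) * (g * y * g⁻¹) := by group
    rw [this]; exact mul_mem hx hy
  | inv x _ hx =>
    have : g * x⁻¹ * g⁻¹ = (g * x * g⁻¹)⁻¹ := by group
    rw [this]; exact inv_mem hx

/-- Nontriviality of the involution. -/
def StarNT (K : Type*) [Field K] [StarRing K] : Prop := ∃ x : K, star x ≠ x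

theorem exists_theta (hK : StarNT K) : ∃ t : K, t ≠ 0 ∧ t + star t = 0 := by
  obtain ⟨x, hx⟩ := hK
  refine ⟨x - star x, sub_ne_zero.2 (Ne.symm hx), ?_⟩
  rw [star_sub, star_star]; ring

theorem exists_trace_one (hK : StarNT K) : ∃ u : K, u + star u = 1 := by
  have : ∃ x : K, x + star x ≠ 0 := by
    by_contra hne
    push Not at hne
    obtain ⟨x, hx⟩ := hK
    have h1 := hne 1
    have h2 := hne x
    rw [star_one] at h1
    apply hx
    linear_combination h2 - x * h1
  obtain ⟨x, hx⟩ := this
  refine ⟨x / (x + star x), ?_⟩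
  rw [star_div₀, star_add, star_star, add_comm (star x) x, ← add_div, div_self hx]

theorem exists_trace (hK : StarNT K) {q : K} (hq : star q = q) : ∃ s : K, s + star s = -q := by
  obtain ⟨u, hu⟩ := exists_trace_one hK
  refine ⟨-q * u, ?_⟩
  rw [star_mul', star_neg, hq]
  linear_combination (-q) * hu

theorem star_self (x : V) : star (h.b x x) = h.b x x := h.star_b x x

/-- Hyperbolic pairs. -/
structure Hyp (e f : V) : Prop where
  ee : h.b e e = 0
  ff : h.b f f = 0
  ef : h.b e f = 1

variable {h}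

theorem Hyp.fe {e f : V} (p : h.Hyp e f) : h.b f e = 1 := by
  rw [← h.star_b, p.ef, star_one]

theorem Hyp.ne {e f : V} (p : h.Hyp e f) : e ≠ 0 := by
  rintro rfl
  have := p.ef
  rw [h.zero_left] at this
  exact zero_ne_one this

theorem Hyp.swap {e f : V} (p : h.Hyp e f) : h.Hyp f e := ⟨p.ff, p.ee, p.fe⟩

theorem Hyp.map {e f : V} (p : h.Hyp e f) {g : V ≃ₗ[K] V} (hg : g ∈ h.U) : h.Hyp (g e) (g f) :=
  ⟨by rw [hg, p.ee], by rw [hg, p.ff], by rw [hg, p.ef]⟩

/-- Weyl element -/
theorem Hyp.weyl {e f : V} (p : h.Hyp e f) {c : K} (hc0 : c ≠ 0) (hc : c + star c = 0) :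
    ∃ g ∈ h.T, g e = -(c⁻¹) • f ∧ g f = c • e ∧ ∀ y, h.b y e = 0 → h.b y f = 0 → g y = y := by
  have hc1 : -c⁻¹ + star (-c⁻¹) = 0 := by
    rw [star_neg, star_inv₀]
    have : star c = -c := by linear_combination hc
    rw [this, inv_neg]; ring
  have r1 := h.Rc_iso p.ee hc
  have r2 := h.Rc_iso p.ff hc1
  refine ⟨h.R e c * h.R f (-c⁻¹) * h.R e c,
    mul_mem (mul_mem (h.R_mem_T p.ee hc) (h.R_mem_T p.ff hc1)) (h.R_mem_T p.ee hc), ?_, ?_, ?_⟩
  · simp only [LinearEquiv.mul_apply, h.R_apply r1, h.R_apply r2, h.add_left, h.smul_left, p.ee,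
      p.ef, p.fe, p.ff]
    simp only [mul_zero, zero_smul, add_zero, mul_one, zero_add, mul_neg, mul_inv_cancel₀ hc0]
    simp only [neg_smul, one_smul]; abel
  · simp only [LinearEquiv.mul_apply, h.R_apply r1, h.R_apply r2, h.add_left, h.smul_left, p.ee,
      p.ef, p.fe, p.ff]
    simp only [mul_zero, zero_smul, add_zero, mul_one, zero_add, neg_mul, inv_mul_cancel₀ hc0]
    simp only [neg_smul, one_smul, add_neg_cancel, mul_zero, zero_smul, add_zero]
    abel
  · intro y hy1 hy2
    simp only [LinearEquiv.mul_apply, h.R_apply r1, h.R_apply r2, hy1, hy2, mul_zero, zero_smul,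
      add_zero]

end HForm

end Vale.Agent.P011.H487
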