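import Vale.Agent.P011.H487.HermNS1

/-!
(NS1): generation of the special unitary group by transvections, and the final form of (NS2).
-/

namespace Vale.Agent.P011.H487

variable {K V : Type*} [Field K] [StarRing K] [AddCommGroup V] [Module K V]

namespace HForm

variable {h : HForm K V}

open Module

theorem gen_aux [FiniteDimensional K V] (hK : StarNT K) (hnd : h.Nondeg) (n : ℕ) :
    ∀ W : Submodule K V, finrank K W = n →
      (∀ y, ∃ w ∈ W, ∀ w' ∈ W, h.b (y - w) w' = 0) →
      ∀ g ∈ h.U, (∀ y, (∀ w ∈ W, h.b y w = 0) → g y = y) → g ∈ h.G0 := by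
  induction n using Nat.strong_induction_on with
  | _ n ih =>
  intro W hWn hW g hg hgW
  by_cases hbot : W = ⊥
  · have : g = 1 := by
      ext y
      rw [hgW y (by
        intro w hw
        rw [hbot, Submodule.mem_bot] at hw
        rw [hw, h.zero_right])]
      rfl
    rw [this]; exact one_mem _
  · -- an anisotropic vector
    obtain ⟨x, hxW, hx0⟩ : ∃ x ∈ W, h.b x x ≠ 0 := by
      by_contra hne
      push Not at hne
      have hz : ∀ x ∈ W, ∀ y ∈ W, h.b x y = 0 := by
        intro x hx y hy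
        by_contra hxy
        obtain ⟨u, hu⟩ := exists_trace_one hK
        have h1 := hne ((u / h.b x y) • x + y) (W.add_mem (W.smul_mem _ hx) hy)
        rw [h.add_left, h.add_right, h.add_right, h.smul_left, h.smul_left, h.smul_right,
          h.smul_right, hne x hx, hne y hy, ← h.star_b x y, ← star_mul',
          div_mul_cancel₀ _ hxy] at h1
        have : u + star u = 0 := by linear_combination h1
        rw [hu] at this
        exact one_ne_zero this
      obtain ⟨w, hw, hw0⟩ := Submodule.exists_mem_ne_zero_of_ne_bot hbot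
      apply hw0
      apply hnd
      intro y
      obtain ⟨w1, hw1, hw1'⟩ := hW y
      have := hw1' w hw
      rw [h.sub_left, hz w1 hw1 w hw, sub_zero] at this
      exact this
    -- g x in W
    have hgx : g x ∈ W := by
      obtain ⟨w, hw, hw'⟩ := hW (g x)
      have : g x - w = 0 := by
        apply hnd
        intro y
        obtain ⟨w1, hw1, hw1'⟩ := hW y
        have e1 : h.b w1 (g x - w) = 0 := h.eq_zero_symm (hw' w1 hw1)
        have e2 : h.b (y - w1) w = 0 := hw1' w hw
        have e3 : h.b (y - w1) (g x) = 0 := by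
          rw [← hgW (y - w1) hw1', hg]; exact hw1' x hxW
        have : y = w1 + (y - w1) := by abel
        rw [this, h.add_left, e1, h.sub_right, e2, e3]; ring
      rw [sub_eq_zero.1 this]; exact hw
    obtain ⟨τ, hτ, hτx, hτz⟩ := move (h := h) hK (x := g x) (y := x) (hg x x)
      (by rw [hg]; exact hx0)
    -- the smaller subspace
    obtain ⟨W', hW'⟩ : ∃ W' : Submodule K V, ∀ w, w ∈ W' ↔ w ∈ W ∧ h.b w x = 0 := by
      refine ⟨Submodule.mk (AddSubmonoid.mk (AddSubsemigroup.mk {w | w ∈ W ∧ h.b w x = 0} ?_) ?_) ?_,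
        fun w => Iff.rfl⟩
      · rintro a b ⟨ha, ha'⟩ ⟨hb, hb'⟩
        exact ⟨W.add_mem ha hb, by rw [h.add_left, ha', hb', add_zero]⟩
      · exact ⟨W.zero_mem, h.zero_left x⟩
      · rintro c a ⟨ha, ha'⟩
        exact ⟨W.smul_mem c ha, by rw [h.smul_left, ha', mul_zero]⟩
    have hlt : W' < W := by
      rw [SetLike.lt_iff_le_and_exists]
      refine ⟨fun w hw => ((hW' w).1 hw).1, x, hxW, fun hx => hx0 ((hW' x).1 hx).2⟩
    have hfr : finrank K W' < n := by
      rw [← hWn]; exact Submodule.finrank_lt_finrank_of_lt hlt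
    have hproj : ∀ w ∈ W, w - (h.b w x / h.b x x) • x ∈ W' := by
      intro w hw
      rw [hW']
      refine ⟨W.sub_mem hw (W.smul_mem _ hxW), ?_⟩
      rw [h.sub_left, h.smul_left, div_mul_cancel₀ _ hx0, sub_self]
    have hi : ∀ y, ∃ w ∈ W', ∀ w' ∈ W', h.b (y - w) w' = 0 := by
      intro y
      obtain ⟨w, hw, hw'⟩ := hW y
      refine ⟨_, hproj w hw, fun w' hw'' => ?_⟩
      rw [hW'] at hw''
      have : y - (w - (h.b w x / h.b x x) • x) = (y - w) + (h.b w x / h.b x x) • x := by abel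
      rw [this, h.add_left, hw' w' hw''.1, h.smul_left, h.eq_zero_symm hw''.2]; ring
    have hii : ∀ y, (∀ w ∈ W', h.b y w = 0) → (τ * g) y = y := by
      intro y hy
      obtain ⟨w, hw, hw'⟩ := hW y
      have h0 : w - (h.b w x / h.b x x) • x = 0 := by
        apply hnd
        intro z
        obtain ⟨wz, hwz, hwz'⟩ := hi z
        have e1 := hwz' _ (hproj w hw)
        rw [h.sub_left] at e1
        rw [sub_eq_zero.1 e1]
        apply h.eq_zero_symm
        have hwz2 := (hW' wz).1 hwz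
        have e2 := hw' wz hwz2.1
        rw [h.sub_left, hy wz hwz] at e2
        rw [h.sub_left, h.smul_left, h.eq_zero_symm hwz2.2]
        linear_combination -e2
      have e3 : y = (y - w) + (h.b w x / h.b x x) • x := by
        have : y - w + (h.b w x / h.b x x) • x = y - (w - (h.b w x / h.b x x) • x) := by abel
        rw [this, h0, sub_zero]
      have e4 : g (y - w) = y - w := hgW _ hw'
      have e5 : τ (y - w) = y - w := hτz _ (hw' _ hgx) (hw' _ hxW)
      rw [e3, LinearEquiv.mul_apply, map_add, map_add, map_smul, map_smul, e4, e5, hτx]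
    have := ih _ hfr W' rfl hi (τ * g) (mul_mem (G0_le_U hτ) hg) hii
    have h2 : g = τ⁻¹ * (τ * g) := by group
    rw [h2]
    exact mul_mem (inv_mem hτ) this

/-- the unitary group is generated by quasi-reflections and transvections -/
theorem U_le_G0 [FiniteDimensional K V] (hK : StarNT K) (hnd : h.Nondeg) : h.U ≤ h.G0 := by
  intro g hg
  refine gen_aux hK hnd _ ⊤ rfl (fun y => ⟨y, Submodule.mem_top, fun w' _ => ?_⟩) g hg
    (fun y hy => ?_)
  · rw [sub_self, h.zero_left]
  · have : y = 0 := by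
      apply hnd
      intro z
      exact h.eq_zero_symm (hy z Submodule.mem_top)
    rw [this, map_zero]

/-- every vector is in a hyperbolic plane -/
theorem exists_plane (hK : StarNT K) (hnd : h.Nondeg) {e f : V} (p : h.Hyp e f) {v : V}
    (hv : v ≠ 0) : ∃ e' f', h.Hyp e' f' ∧ ∃ ρ : K, v = e' + ρ • f' := by
  -- an isotropic vector not orthogonal to v
  have h1 : ∃ f', h.b f' f' = 0 ∧ h.b v f' ≠ 0 := by
    by_contra hne
    push Not at hne
    apply hv
    apply hnd
    intro x
    obtain ⟨y, hye, hyf, hx⟩ := p.decomp x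
    have e1 := hne e p.ee
    have e2 := hne f p.ff
    obtain ⟨s, hs⟩ := exists_trace hK (h.star_self y)
    have iso3 : h.b (y + (e + s • f)) (y + (e + s • f)) = 0 := by
      rw [h.add_left, h.add_left, h.smul_left, h.add_right, h.add_right, h.add_right, h.add_right,
        h.add_right, h.add_right, h.smul_right, h.smul_right, h.smul_right, p.ee, p.ff,
        p.ef, p.fe, hye, hyf, h.eq_zero_symm hye, h.eq_zero_symm hyf]
      linear_combination hs
    have e3 := hne _ iso3
    rw [h.add_right, h.add_right, h.smul_right, e1, e2] at e3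
    have e4 : h.b v y = 0 := by simpa using e3
    apply h.eq_zero_symm
    rw [hx, h.add_right, h.add_right, h.smul_right, h.smul_right, e1, e2, e4]; ring
  obtain ⟨f0, hf0, hvf0⟩ := h1
  have hs0 := star_ne_zero' hvf0
  obtain ⟨f', hf'⟩ : ∃ f', f' = (star (h.b v f0))⁻¹ • f0 := ⟨_, rfl⟩
  have hff : h.b f' f' = 0 := by rw [hf', h.smul_left, h.smul_right, hf0]; ring
  have hvf : h.b v f' = 1 := by
    rw [hf', h.smul_right, star_inv₀, star_star, inv_mul_cancel₀ hvf0]
  obtain ⟨s, hs⟩ := make_iso hK hff hvf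
  refine ⟨v + s • f', f', ⟨hs, hff, ?_⟩, -s, ?_⟩
  · rw [h.add_left, h.smul_left, hff, hvf]; ring
  · module

/-- the reduction: every isometry is a transvection product times a `D` -/
theorem U_red [FiniteDimensional K V] (hK : StarNT K) (hk : ∃ a : K, a ≠ 0 ∧ star a = a ∧ a ≠ 1)
    (hnd : h.Nondeg) {e f : V} (p : h.Hyp e f) {g : V ≃ₗ[K] V} (hg : g ∈ h.U) :
    ∃ t ∈ h.T, ∃ d ∈ h.U, ∃ α : K, α ≠ 0 ∧ h.IsD e f d α ∧ g = t * d := by
  have hg0 := U_le_G0 hK hnd hg
  unfold G0 at hg0
  induction hg0 using Subgroup.closure_induction with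
  | mem x hx =>
    obtain ⟨z, c, hc, rfl⟩ := hx
    by_cases hz0 : z = 0
    · have : h.R z c = 1 := by
        ext y
        rw [h.R_apply hc, hz0, smul_zero, add_zero]; rfl
      rw [this]
      exact ⟨1, one_mem _, 1, one_mem _, 1, one_ne_zero, IsD.one, by rw [one_mul]⟩
    · obtain ⟨e', f', p', ρ, hz⟩ := exists_plane hK hnd p hz0
      obtain ⟨τ, hτ, l, hl, hτe, hτf⟩ := trans_pair hK hk hnd p p'
      have hτU := h.T_le_U hτ
      have hτz : τ z = l • e + (ρ * (star l)⁻¹) • f := by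
        rw [hz, map_add, map_smul, hτe, hτf, smul_smul]
      have hc' : h.Rc (τ z) c := by unfold Rc; rw [hτU]; exact hc
      obtain ⟨t, ht, d, hd, α, hα, hD, he⟩ := plane_red hK hnd p (g := h.R (τ z) c)
        (h.R_mem_U hc') (by
          intro y h1 h2
          rw [h.R_apply hc', hτz, h.add_right, h.smul_right, h.smul_right, h1, h2]
          simp)
      refine ⟨τ⁻¹ * t * (d * τ * d⁻¹), mul_mem (mul_mem (inv_mem hτ) ht) (h.T_conj hd hτ), d, hd,
        α, hα, hD, ?_⟩
      rw [← h.R_conj hc hτU] at he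
      have : h.R z c = τ⁻¹ * (τ * h.R z c * τ⁻¹) * τ := by group
      rw [this, he]; group
  | one => exact ⟨1, one_mem _, 1, one_mem _, 1, one_ne_zero, IsD.one, by rw [one_mul]⟩
  | mul x y hx hy hx' hy' =>
    obtain ⟨t1, ht1, d1, hd1, a1, ha1, hD1, e1⟩ := hx' (by
      have := G0_le_U (h := h) (show x ∈ h.G0 from hx)
      exact this)
    obtain ⟨t2, ht2, d2, hd2, a2, ha2, hD2, e2⟩ := hy' (by
      have := G0_le_U (h := h) (show y ∈ h.G0 from hy)
      exact this)
    refine ⟨t1 * (d1 * t2 * d1⁻¹), mul_mem ht1 (h.T_conj hd1 ht2), d1 * d2, mul_mem hd1 hd2,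
      a1 * a2, mul_ne_zero ha1 ha2, hD1.mul hD2, ?_⟩
    rw [e1, e2]; group
  | inv x hx hx' =>
    obtain ⟨t1, ht1, d1, hd1, a1, ha1, hD1, e1⟩ := hx' (by
      have := G0_le_U (h := h) (show x ∈ h.G0 from hx)
      exact this)
    refine ⟨d1⁻¹ * t1⁻¹ * (d1⁻¹)⁻¹, h.T_conj (inv_mem hd1) (inv_mem ht1), d1⁻¹, inv_mem hd1,
      a1⁻¹, inv_ne_zero ha1, hD1.inv ha1, ?_⟩
    rw [e1]; group

theorem det_R [FiniteDimensional K V] {z : V} {c : K} (hc : h.Rc z c) :
    LinearMap.det (h.R z c : V →ₗ[K] V) = 1 + c * h.b z z := by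
  have : (h.R z c : V →ₗ[K] V) = LinearMap.transvection
      ({ toFun := fun y => c * h.b y z
         map_add' := fun x y => by rw [h.add_left, mul_add]
         map_smul' := fun a x => by
          simp only [h.smul_left, RingHom.id_apply, smul_eq_mul]; ring } : Dual K V) z := by
    ext y
    rw [LinearEquiv.coe_coe, h.R_apply hc]; rfl
  rw [this, LinearMap.transvection.det]; rfl

theorem det_T [FiniteDimensional K V] {g : V ≃ₗ[K] V} (hg : g ∈ h.T) :
    LinearEquiv.det g = 1 := by
  have hle : h.T ≤ (LinearEquiv.det : (V ≃ₗ[K] V) →* Kˣ).ker := by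
    unfold T
    rw [Subgroup.closure_le]
    rintro _ ⟨z, c, hz, hc, rfl⟩
    change LinearEquiv.det _ = 1
    ext
    rw [LinearEquiv.coe_det, h.det_R (h.Rc_iso hz hc), hz]; simp
  exact hle hg

theorem det_D [FiniteDimensional K V] {e f : V} (p : h.Hyp e f) {d : V ≃ₗ[K] V} {α : K}
    (hd : h.IsD e f d α) : LinearMap.det (d : V →ₗ[K] V) = α * (star α)⁻¹ := by
  have key : (d : V →ₗ[K] V) = LinearMap.transvection
      ({ toFun := fun y => ((star α)⁻¹ - 1) * h.b y e
         map_add' := fun x y => by rw [h.add_left, mul_add]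
         map_smul' := fun a x => by
          simp only [h.smul_left, RingHom.id_apply, smul_eq_mul]; ring } : Dual K V) f ∘ₗ
      LinearMap.transvection
      ({ toFun := fun y => (α - 1) * h.b y f
         map_add' := fun x y => by rw [h.add_left, mul_add]
         map_smul' := fun a x => by
          simp only [h.smul_left, RingHom.id_apply, smul_eq_mul]; ring } : Dual K V) e := by
    ext y
    rw [LinearEquiv.coe_coe, LinearMap.comp_apply, LinearMap.transvection.apply,
      LinearMap.transvection.apply]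
    simp only [LinearMap.coe_mk, AddHom.coe_mk, h.add_left, h.smul_left, p.ee]
    obtain ⟨y0, h0e, h0f, hy⟩ := p.decomp y
    have : d y = y0 + h.b y f • (α • e) + h.b y e • ((star α)⁻¹ • f) := by
      conv_lhs => rw [hy]
      simp only [map_add, map_smul, hd.ge, hd.gf, hd.gy y0 h0e h0f]
    rw [this]
    conv_rhs => arg 1; arg 1; rw [hy]
    module
  rw [key, LinearMap.det_comp, LinearMap.transvection.det, LinearMap.transvection.det]
  simp only [LinearMap.coe_mk, AddHom.coe_mk, p.ef, p.fe]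
  ring

/-- (NS1) -/
theorem SU_le_T [FiniteDimensional K V] (hK : StarNT K)
    (hk : ∃ a : K, a ≠ 0 ∧ star a = a ∧ a ≠ 1) (hnd : h.Nondeg)
    (hiso : ∃ z, z ≠ 0 ∧ h.b z z = 0) {g : V ≃ₗ[K] V} (hg : g ∈ h.U)
    (hdet : LinearEquiv.det g = 1) : g ∈ h.T := by
  obtain ⟨e, he0, he⟩ := hiso
  obtain ⟨f, p⟩ := exists_hyp hK hnd he0 he
  obtain ⟨t, ht, d, hd, α, hα, hD, rfl⟩ := U_red hK hk hnd p hg
  refine mul_mem ht ?_
  rw [map_mul, det_T ht, one_mul] at hdet
  have h1 : LinearMap.det (d : V →ₗ[K] V) = 1 := by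
    rw [← LinearEquiv.coe_det, hdet]; rfl
  rw [det_D p hD] at h1
  have hs := star_ne_zero' hα
  have h2 : star α = α := by
    field_simp at h1
    exact h1.symm
  obtain ⟨d', hd', h1', h2', h3'⟩ := p.tor hK hα h2
  have : d = d' := by
    apply p.ext
    · rw [hD.ge, h1']
    · rw [hD.gf, h2', h2]
    · intro y hy1 hy2
      rw [hD.gy y hy1 hy2, h3' y hy1 hy2]
  rw [this]; exact hd'

/-- (NS2) -/
theorem SU_le_of_normal [FiniteDimensional K V] (hK : StarNT K) (hnd : h.Nondeg)
    (hiso : ∃ z, z ≠ 0 ∧ h.b z z = 0) (hk : ∃ a : K, a ≠ 0 ∧ star a = a ∧ a ^ 4 ≠ 1)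
    {Γ : Subgroup (V ≃ₗ[K] V)} (hΓU : Γ ≤ h.U)
    (hΓ : ∀ t ∈ h.U, LinearEquiv.det t = 1 → ∀ g ∈ Γ, t * g * t⁻¹ ∈ Γ)
    (hns : ∃ g ∈ Γ, ∀ a : K, ∃ x, g x ≠ a • x) {g : V ≃ₗ[K] V} (hg : g ∈ h.U)
    (hdet : LinearEquiv.det g = 1) : g ∈ Γ := by
  have h1 : h.T ≤ Γ := T_le_of_normal hK hnd hiso hk hΓU
    (fun t ht g hg => hΓ t (h.T_le_U ht) (det_T ht) g hg) hns
  apply h1
  obtain ⟨a, ha0, ha, ha4⟩ := hk
  exact SU_le_T hK ⟨a, ha0, ha, by rintro rfl; simp at ha4⟩ hnd hiso hg hdet

end HForm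

end Vale.Agent.P011.H487
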