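import Vale.Agent.P011.H487.HermNS2

/-!
(NS1): generation of the special unitary group by transvections, and the final form of (NS2).
-/

namespace Vale.Agent.P011.H487

variable {K V : Type*} [Field K] [StarRing K] [AddCommGroup V] [Module K V]

namespace HForm

variable {h : HForm K V}

/-- decomposition along a hyperbolic pair -/
theorem Hyp.decomp {e f : V} (p : h.Hyp e f) (x : V) :
    ∃ y, h.b y e = 0 ∧ h.b y f = 0 ∧ x = y + h.b x f • e + h.b x e • f := by
  refine ⟨x - h.b x f • e - h.b x e • f, ?_, ?_, by abel⟩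
  · rw [h.sub_left, h.sub_left, h.smul_left, h.smul_left, p.ee, p.fe]; ring
  · rw [h.sub_left, h.sub_left, h.smul_left, h.smul_left, p.ef, p.ff]; ring

theorem Hyp.ext {e f : V} (p : h.Hyp e f) {g g' : V ≃ₗ[K] V} (he : g e = g' e) (hf : g f = g' f)
    (hy : ∀ y, h.b y e = 0 → h.b y f = 0 → g y = g' y) : g = g' := by
  ext x
  obtain ⟨y, hye, hyf, hx⟩ := p.decomp x
  rw [hx]
  simp only [map_add, map_smul, he, hf, hy y hye hyf]

/-- Eichler maps (linear) -/
def EXl (h : HForm K V) (e x : V) (s : K) : V →ₗ[K] V where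
  toFun y := y + h.b y e • (x + s • e) - h.b y x • e
  map_add' y y' := by
    simp only [h.add_left, add_smul]; abel
  map_smul' a y := by
    simp only [h.smul_left, RingHom.id_apply, smul_add, smul_sub, smul_smul]
    simp only [mul_assoc]

theorem EXl_apply (e x : V) (s : K) (y : V) :
    h.EXl e x s y = y + h.b y e • (x + s • e) - h.b y x • e := rfl

theorem EXl_comp {e x x' : V} {s s' : K} (he : h.b e e = 0) (hx : h.b x e = 0)
    (hx' : h.b x' e = 0) (y : V) :
    h.EXl e x s (h.EXl e x' s' y) = h.EXl e (x + x') (s + s' - h.b x' x) y := by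
  have hex : h.b e x = 0 := h.eq_zero_symm hx
  have hex' : h.b e x' = 0 := h.eq_zero_symm hx'
  simp only [EXl_apply, h.add_left, h.sub_left, h.smul_left, h.add_right, he, hx', hex]
  simp only [mul_zero, add_zero, sub_zero, smul_add, add_smul, sub_smul, smul_sub, mul_smul]
  module

theorem exists_EX {e x : V} {s : K} (he : h.b e e = 0) (hx : h.b x e = 0)
    (hs : s + star s = - h.b x x) : ∃ g ∈ h.U, ∀ y, g y = h.EXl e x s y := by
  have hex : h.b e x = 0 := h.eq_zero_symm hx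
  have hnx : h.b (-x) e = 0 := by rw [h.neg_left, hx, neg_zero]
  have hid : ∀ y, h.EXl e (0 : V) 0 y = y := by
    intro y
    rw [EXl_apply, h.zero_right]; simp
  have h1 : ∀ y, h.EXl e x s (h.EXl e (-x) (star s) y) = y := by
    intro y
    rw [EXl_comp he hx hnx, h.neg_left, add_neg_cancel]
    have : s + star s - -h.b x x = 0 := by rw [hs]; ring
    rw [this, hid]
  have h2 : ∀ y, h.EXl e (-x) (star s) (h.EXl e x s y) = y := by
    intro y
    rw [EXl_comp he hnx hx, h.neg_right, neg_add_cancel]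
    have : star s + s - -h.b x x = 0 := by rw [add_comm, hs]; ring
    rw [this, hid]
  refine ⟨LinearEquiv.ofLinearMap (h.EXl e x s) (h.EXl e (-x) (star s))
    (by ext y; exact h1 y) (by ext y; exact h2 y), ?_, fun y => rfl⟩
  intro y y'
  change h.b (h.EXl e x s y) (h.EXl e x s y') = _
  simp only [EXl_apply, h.add_left, h.sub_left, h.smul_left, h.add_right, h.sub_right,
    h.smul_right, he, hx, hex, mul_zero, add_zero, sub_zero, h.star_b]
  linear_combination (h.b y e * h.b e y') * hs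

theorem Hyp.eichler (hK : StarNT K) (hk : ∃ a : K, a ≠ 0 ∧ star a = a ∧ a ≠ 1)
    {e f : V} (p : h.Hyp e f) {x : V} {s : K} (hxe : h.b x e = 0) (hxf : h.b x f = 0)
    (hs : s + star s = - h.b x x) : ∃ g ∈ h.T, ∀ y, g y = h.EXl e x s y := by
  obtain ⟨a, ha0, ha, ha1⟩ := hk
  have ha1' : a - 1 ≠ 0 := sub_ne_zero.2 ha1
  obtain ⟨x', hx'⟩ : ∃ x', x' = (a - 1)⁻¹ • x := ⟨_, rfl⟩
  have hx'e : h.b x' e = 0 := by rw [hx', h.smul_left, hxe, mul_zero]
  have hx'f : h.b x' f = 0 := by rw [hx', h.smul_left, hxf, mul_zero]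
  have hex' : h.b e x' = 0 := h.eq_zero_symm hx'e
  obtain ⟨s', hs'⟩ := exists_trace hK (h.star_self x')
  obtain ⟨E, hEU, hE⟩ := exists_EX p.ee hx'e hs'
  have hnx'e : h.b (-x') e = 0 := by rw [h.neg_left, hx'e, neg_zero]
  have hs'n : star s' + star (star s') = - h.b (-x') (-x') := by
    rw [h.neg_left, h.neg_right, star_star, add_comm, hs', neg_neg]
  have hEinv : ∀ y, E⁻¹ y = h.EXl e (-x') (star s') y := by
    intro y
    have : E (h.EXl e (-x') (star s') y) = y := by
      rw [hE, EXl_comp p.ee hx'e hnx'e, h.neg_left, add_neg_cancel]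
      have : s' + star s' - -h.b x' x' = 0 := by rw [hs']; ring
      rw [this, EXl_apply, h.zero_right]; simp
    conv_lhs => rw [← this]
    rw [inv_apply]
  obtain ⟨d, hd, hde, hdf, hdy⟩ := p.tor hK ha0 ha
  have hdU := h.T_le_U hd
  have hm : d * (E * d⁻¹ * E⁻¹) ∈ h.T := mul_mem hd (h.T_conj hEU (inv_mem hd))
  have hax : h.b (a • x') e = 0 := by rw [h.smul_left, hx'e, mul_zero]
  have hconj : ∀ y, d (E (d⁻¹ y)) = h.EXl e (a • x') (a ^ 2 * s') y := by
    intro y
    rw [hE, EXl_apply, EXl_apply]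
    simp only [map_add, map_sub, map_smul, apply_inv, hde, hdy x' hx'e hx'f, h.b_inv hdU,
      h.smul_right, ha]
    module
  have hτ : ∀ y, (d * (E * d⁻¹ * E⁻¹)) y =
      h.EXl e x (a ^ 2 * s' + star s' + a * h.b x' x') y := by
    intro y
    simp only [LinearEquiv.mul_apply]
    rw [hconj, hEinv, EXl_comp p.ee hax hnx'e]
    have e1 : a • x' + -x' = x := by
      rw [hx']
      have : a • (a - 1)⁻¹ • x + -((a - 1)⁻¹ • x) = ((a - 1) * (a - 1)⁻¹) • x := by module
      rw [this, mul_inv_cancel₀ ha1', one_smul]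
    have e2 : a ^ 2 * s' + star s' - h.b (-x') (a • x') =
        a ^ 2 * s' + star s' + a * h.b x' x' := by
      rw [h.neg_left, h.smul_right, ha]; ring
    rw [e1, e2]
  obtain ⟨s1, hs1⟩ : ∃ s1, s1 = a ^ 2 * s' + star s' + a * h.b x' x' := ⟨_, rfl⟩
  rw [← hs1] at hτ
  have hs1' : s1 + star s1 = -h.b x x := by
    have hx'' : x = (a - 1) • x' := by
      rw [hx', smul_smul, mul_inv_cancel₀ ha1', one_smul]
    have hbx : h.b x x = (a - 1) ^ 2 * h.b x' x' := by
      rw [hx'', h.smul_left, h.smul_right, star_sub, star_one, ha]; ring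
    rw [hbx, hs1]
    simp only [star_add, star_mul', star_star, star_pow, ha, h.star_self]
    linear_combination (a ^ 2 + 1) * hs'
  have hc : (s - s1) + star (s - s1) = 0 := by
    rw [star_sub]; linear_combination hs - hs1'
  refine ⟨h.R e (s - s1) * (d * (E * d⁻¹ * E⁻¹)), mul_mem (h.R_mem_T p.ee hc) hm, ?_⟩
  intro y
  rw [LinearEquiv.mul_apply, hτ, h.R_apply (h.Rc_iso p.ee hc)]
  simp only [EXl_apply, h.add_left, h.sub_left, h.smul_left, p.ee, hxe, mul_zero, add_zero,
    sub_zero]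
  module

/-- `T` is transitive on hyperbolic planes -/
theorem trans_pair (hK : StarNT K) (hk : ∃ a : K, a ≠ 0 ∧ star a = a ∧ a ≠ 1) (hnd : h.Nondeg)
    {e f e' f' : V} (p : h.Hyp e f) (p' : h.Hyp e' f') :
    ∃ g ∈ h.T, ∃ l : K, l ≠ 0 ∧ g e' = l • e ∧ g f' = (star l)⁻¹ • f := by
  obtain ⟨g1, hg1, l, hl, h1⟩ := trans_iso hK hnd p'.ne p.ne p'.ee p.ee
  have q := p'.map (h.T_le_U hg1)
  obtain ⟨f1, hf1⟩ : ∃ f1, f1 = star l • g1 f' := ⟨_, rfl⟩
  have hsl : star l ≠ 0 := by
    intro h0; apply hl; rw [← star_star l, h0, star_zero]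
  have q1 : h.Hyp e f1 := by
    refine ⟨p.ee, ?_, ?_⟩
    · rw [hf1, h.smul_left, h.smul_right, q.ff]; ring
    · have := q.ef
      rw [h1, h.smul_left] at this
      rw [hf1, h.smul_right, star_star]
      exact this
  obtain ⟨x, hxe, hxf, hx⟩ := p.decomp f1
  rw [q1.fe, one_smul] at hx
  obtain ⟨s, hs⟩ : ∃ s, s = h.b f1 f := ⟨_, rfl⟩
  rw [← hs] at hx
  have hss : s + star s = -h.b x x := by
    have h3 := q1.ff
    rw [hx] at h3
    simp only [h.add_left, h.add_right, h.smul_left, h.smul_right, p.ee, p.ff, p.ef, p.fe, hxe,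
      hxf, h.eq_zero_symm hxe, h.eq_zero_symm hxf] at h3
    linear_combination h3
  obtain ⟨g2, hg2, h2⟩ := p.eichler hK hk hxe hxf hss
  have h2f : g2 f = f1 := by
    rw [h2, EXl_apply, p.fe, h.eq_zero_symm hxf, hx]
    module
  have h2e : g2 e = e := by
    rw [h2, EXl_apply, p.ee, h.eq_zero_symm hxe]
    module
  refine ⟨g2⁻¹ * g1, mul_mem (inv_mem hg2) hg1, l, hl, ?_, ?_⟩
  · rw [LinearEquiv.mul_apply, h1, map_smul]
    congr 1
    conv_lhs => rw [← h2e]
    rw [inv_apply]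
  · have : g1 f' = (star l)⁻¹ • f1 := by
      rw [hf1, smul_smul, inv_mul_cancel₀ hsl, one_smul]
    rw [LinearEquiv.mul_apply, this, map_smul, ← h2f, inv_apply]

/-- `g` acts on the hyperbolic pair by `(α, (star α)⁻¹)` and trivially on the complement -/
structure IsD (h : HForm K V) (e f : V) (g : V ≃ₗ[K] V) (α : K) : Prop where
  ge : g e = α • e
  gf : g f = (star α)⁻¹ • f
  gy : ∀ y, h.b y e = 0 → h.b y f = 0 → g y = y

theorem IsD.mul {e f : V} {g g' : V ≃ₗ[K] V} {α α' : K} (hg : h.IsD e f g α)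
    (hg' : h.IsD e f g' α') : h.IsD e f (g * g') (α * α') := by
  refine ⟨?_, ?_, ?_⟩
  · rw [LinearEquiv.mul_apply, hg'.ge, map_smul, hg.ge, smul_smul, mul_comm]
  · rw [LinearEquiv.mul_apply, hg'.gf, map_smul, hg.gf, smul_smul, star_mul', mul_inv, mul_comm]
  · intro y h1 h2
    rw [LinearEquiv.mul_apply, hg'.gy y h1 h2, hg.gy y h1 h2]

theorem IsD.inv {e f : V} {g : V ≃ₗ[K] V} {α : K} (hα : α ≠ 0) (hg : h.IsD e f g α) :
    h.IsD e f g⁻¹ α⁻¹ := by
  have hs : star α ≠ 0 := by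
    intro h0; apply hα; rw [← star_star α, h0, star_zero]
  refine ⟨?_, ?_, ?_⟩
  · rw [← inv_apply g (α⁻¹ • e), map_smul, hg.ge, smul_smul, inv_mul_cancel₀ hα, one_smul]
  · rw [← inv_apply g ((star α⁻¹)⁻¹ • f), map_smul, hg.gf, smul_smul, star_inv₀, inv_inv,
      mul_inv_cancel₀ hs, one_smul]
  · intro y h1 h2
    conv_lhs => rw [← hg.gy y h1 h2]
    rw [inv_apply]

theorem IsD.one {e f : V} : h.IsD e f 1 1 := by
  refine ⟨by rw [one_smul]; rfl, by rw [star_one, inv_one, one_smul]; rfl, fun y _ _ => rfl⟩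

/-- plane stability -/
theorem plane_stab (hnd : h.Nondeg) {e f : V} (p : h.Hyp e f) {g : V ≃ₗ[K] V} (hg : g ∈ h.U)
    (hfix : ∀ y, h.b y e = 0 → h.b y f = 0 → g y = y) {x : V}
    (hx : ∀ y, h.b y e = 0 → h.b y f = 0 → h.b x y = 0) :
    g x = h.b (g x) f • e + h.b (g x) e • f := by
  obtain ⟨y, hye, hyf, hy⟩ := p.decomp (g x)
  have : y = 0 := by
    apply hnd
    intro z
    obtain ⟨w, hwe, hwf, hw⟩ := p.decomp z
    have h1 : h.b y w = 0 := by
      have h2 : h.b (g x) w = 0 := by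
        rw [← hfix w hwe hwf, hg]; exact hx w hwe hwf
      rw [hy, h.add_left, h.add_left, h.smul_left, h.smul_left, h.eq_zero_symm hwe,
        h.eq_zero_symm hwf] at h2
      simpa using h2
    rw [hw, h.add_left, h.add_left, h.smul_left, h.smul_left, h.eq_zero_symm h1,
      h.eq_zero_symm hye, h.eq_zero_symm hyf]
    ring
  rw [this, zero_add] at hy
  exact hy

/-- isometries supported on the plane -/
theorem plane_red (hK : StarNT K) (hnd : h.Nondeg) {e f : V} (p : h.Hyp e f) {g : V ≃ₗ[K] V}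
    (hg : g ∈ h.U) (hfix : ∀ y, h.b y e = 0 → h.b y f = 0 → g y = y) :
    ∃ t ∈ h.T, ∃ d ∈ h.U, ∃ α : K, α ≠ 0 ∧ h.IsD e f d α ∧ g = t * d := by
  obtain ⟨t0, ht00, ht0⟩ := exists_theta hK
  -- step 1
  have step1 : ∃ t ∈ h.T, (∀ y, h.b y e = 0 → h.b y f = 0 → t y = y) ∧
      ∃ α : K, (t * g) e = α • e := by
    obtain ⟨α, hα⟩ : ∃ α, α = h.b (g e) f := ⟨_, rfl⟩
    obtain ⟨β, hβ⟩ : ∃ β, β = h.b (g e) e := ⟨_, rfl⟩
    have hge := plane_stab hnd p hg hfix (x := e) (fun y h1 _ => h.eq_zero_symm h1)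
    rw [← hα, ← hβ] at hge
    by_cases hβ0 : β = 0
    · refine ⟨1, one_mem _, fun y _ _ => rfl, α, ?_⟩
      rw [one_mul, hge, hβ0]; simp
    · have hab : α * star β + β * star α = 0 := by
        have h1 := hg e e
        rw [hge, p.ee] at h1
        simp only [h.add_left, h.add_right, h.smul_left, h.smul_right, p.ee, p.ff, p.ef,
          p.fe] at h1
        linear_combination h1
      have hsβ : star β ≠ 0 := by
        intro h0; apply hβ0; rw [← star_star β, h0, star_zero]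
      have hc : -(α / β) + star (-(α / β)) = 0 := by
        rw [star_neg, star_div₀]; field_simp; linear_combination -hab
      obtain ⟨w, hw, -, hwf, hwy⟩ := p.weyl ht00 ht0
      refine ⟨w * h.R e (-(α / β)), mul_mem hw (h.R_mem_T p.ee hc), ?_, β * t0, ?_⟩
      · intro y h1 h2
        rw [LinearEquiv.mul_apply, h.R_apply (h.Rc_iso p.ee hc), h1, mul_zero, zero_smul,
          add_zero, hwy y h1 h2]
      · rw [LinearEquiv.mul_apply, LinearEquiv.mul_apply, h.R_apply (h.Rc_iso p.ee hc), hge,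
          h.add_left, h.smul_left, h.smul_left, p.ee, p.fe]
        have : α • e + β • f + (-(α / β) * (α * 0 + β * 1)) • e = β • f := by
          have e1 : -(α / β) * (α * 0 + β * 1) = -α := by field_simp; ring
          rw [e1]; module
        rw [this, map_smul, hwf, smul_smul]
  obtain ⟨t1, ht1, ht1y, α, ht1e⟩ := step1
  obtain ⟨g1, hg1⟩ : ∃ g1, g1 = t1 * g := ⟨_, rfl⟩
  rw [← hg1] at ht1e
  have hg1U : g1 ∈ h.U := by rw [hg1]; exact mul_mem (h.T_le_U ht1) hg
  have hg1y : ∀ y, h.b y e = 0 → h.b y f = 0 → g1 y = y := by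
    intro y h1 h2
    rw [hg1, LinearEquiv.mul_apply, hfix y h1 h2, ht1y y h1 h2]
  have hg1f := plane_stab hnd p hg1U hg1y (x := f) (fun y _ h2 => h.eq_zero_symm h2)
  obtain ⟨γ, hγ⟩ : ∃ γ, γ = h.b (g1 f) f := ⟨_, rfl⟩
  obtain ⟨δ, hδ⟩ : ∃ δ, δ = h.b (g1 f) e := ⟨_, rfl⟩
  rw [← hγ, ← hδ] at hg1f
  have hαδ : α * star δ = 1 := by
    have h1 := hg1U e f
    rw [ht1e, hg1f, p.ef] at h1
    simp only [h.add_right, h.smul_left, h.smul_right, p.ee, p.ef] at h1
    linear_combination h1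
  have hγδ : γ * star δ + δ * star γ = 0 := by
    have h1 := hg1U f f
    rw [hg1f, p.ff] at h1
    simp only [h.add_left, h.add_right, h.smul_left, h.smul_right, p.ee, p.ff, p.ef, p.fe] at h1
    linear_combination h1
  have hα0 : α ≠ 0 := by rintro rfl; simp at hαδ
  have hsδ0 : star δ ≠ 0 := by intro h0; rw [h0] at hαδ; simp at hαδ
  have hδ0 : δ ≠ 0 := by rintro rfl; simp at hsδ0
  have hδα : δ = (star α)⁻¹ := by
    have h1 : star (α * star δ) = 1 := by rw [hαδ, star_one]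
    rw [star_mul', star_star] at h1
    exact eq_inv_of_mul_eq_one_right h1
  have hc : -(γ / δ) + star (-(γ / δ)) = 0 := by
    rw [star_neg, star_div₀]; field_simp; linear_combination -hγδ
  refine ⟨t1⁻¹ * (h.R e (-(γ / δ)))⁻¹, mul_mem (inv_mem ht1) (inv_mem (h.R_mem_T p.ee hc)),
    h.R e (-(γ / δ)) * g1, mul_mem (h.R_mem_U (h.Rc_iso p.ee hc)) hg1U, α, hα0, ?_, ?_⟩
  · refine ⟨?_, ?_, ?_⟩
    · rw [LinearEquiv.mul_apply, ht1e, map_smul, h.R_apply (h.Rc_iso p.ee hc), p.ee, mul_zero,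
        zero_smul, add_zero]
    · rw [LinearEquiv.mul_apply, hg1f, h.R_apply (h.Rc_iso p.ee hc), h.add_left, h.smul_left,
        h.smul_left, p.ee, p.fe, ← hδα]
      have e1 : -(γ / δ) * (γ * 0 + δ * 1) = -γ := by field_simp; ring
      rw [e1]; module
    · intro y h1 h2
      rw [LinearEquiv.mul_apply, hg1y y h1 h2, h.R_apply (h.Rc_iso p.ee hc), h1, mul_zero,
        zero_smul, add_zero]
  · rw [hg1]; group

/-- the group generated by all quasi-reflections -/
noncomputable def G0 (h : HForm K V) : Subgroup (V ≃ₗ[K] V) :=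
  Subgroup.closure {g | ∃ z c, h.Rc z c ∧ g = h.R z c}

theorem R_mem_G0 {z : V} {c : K} (hc : h.Rc z c) : h.R z c ∈ h.G0 :=
  Subgroup.subset_closure ⟨z, c, hc, rfl⟩

theorem G0_le_U : h.G0 ≤ h.U := by
  unfold G0
  rw [Subgroup.closure_le]
  rintro _ ⟨z, c, hc, rfl⟩
  exact h.R_mem_U hc

theorem star_ne_zero' {a : K} (ha : a ≠ 0) : star a ≠ 0 := by
  intro h0; apply ha; rw [← star_star a, h0, star_zero]

theorem exists_eta (hK : StarNT K) : ∃ η : K, η ≠ 1 ∧ η * star η = 1 := by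
  obtain ⟨x, hx⟩ := hK
  have hx0 : x ≠ 0 := by rintro rfl; simp at hx
  refine ⟨star x / x, ?_, ?_⟩
  · intro h0; rw [div_eq_one_iff_eq hx0] at h0; exact hx h0
  · rw [star_div₀, star_star]
    have := star_ne_zero' hx0
    field_simp

/-- move a vector onto another one of the same nonzero norm -/
theorem move0 {x y : V} (hq : h.b x x = h.b y y) (hxy : h.b x y ≠ h.b x x) :
    ∃ g ∈ h.G0, g x = y ∧ ∀ z, h.b z x = 0 → h.b z y = 0 → g z = z := by
  obtain ⟨m, hm⟩ : ∃ m, m = h.b x y - h.b x x := ⟨_, rfl⟩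
  have hm0 : m ≠ 0 := by rw [hm]; exact sub_ne_zero.2 hxy
  have hsm := star_ne_zero' hm0
  have hms : star m = h.b y x - h.b x x := by rw [hm, star_sub, h.star_b, h.star_b]
  have hc : h.Rc (y - x) m⁻¹ := by
    unfold Rc
    have h1 : h.b (y - x) (y - x) = -(m + star m) := by
      rw [h.sub_left, h.sub_right, h.sub_right, hms, hm, ← hq]; ring
    rw [h1, star_inv₀]
    field_simp; ring
  refine ⟨h.R (y - x) m⁻¹, R_mem_G0 hc, ?_, ?_⟩
  · rw [h.R_apply hc, h.sub_right, ← hm, inv_mul_cancel₀ hm0, one_smul]; abel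
  · intro z h1 h2
    rw [h.R_apply hc, h.sub_right, h1, h2]; simp

theorem move (hK : StarNT K) {x y : V} (hq : h.b x x = h.b y y) (hq0 : h.b x x ≠ 0) :
    ∃ g ∈ h.G0, g x = y ∧ ∀ z, h.b z x = 0 → h.b z y = 0 → g z = z := by
  by_cases hxy : h.b x y = h.b x x
  · obtain ⟨η, hη1, hη⟩ := exists_eta hK
    have hη0 : η ≠ 0 := by rintro rfl; simp at hη
    have hsη : star η ≠ 1 := by
      intro h0; apply hη1; rw [← star_star η, h0, star_one]
    have hηq : h.b (η • y) (η • y) = h.b y y := by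
      rw [h.smul_left, h.smul_right, ← mul_assoc, hη, one_mul]
    obtain ⟨g1, hg1, h1, h1z⟩ := move0 (h := h) (x := x) (y := η • y) (by rw [hηq, hq]) (by
      rw [h.smul_right, hxy]
      intro h0
      apply hsη
      exact mul_right_cancel₀ hq0 (by rw [h0, one_mul]))
    -- second: y -> η⁻¹ y
    have hqy : h.b y y ≠ 0 := by rw [← hq]; exact hq0
    have hc : h.Rc y ((η⁻¹ - 1) / h.b y y) := by
      unfold Rc
      rw [star_div₀, h.star_self, star_sub, star_one, star_inv₀]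
      have := star_ne_zero' hη0
      field_simp
      linear_combination - hη
    refine ⟨h.R y ((η⁻¹ - 1) / h.b y y) * g1, mul_mem (R_mem_G0 hc) hg1, ?_, ?_⟩
    · rw [LinearEquiv.mul_apply, h1, h.R_apply hc, h.smul_left]
      have : (η⁻¹ - 1) / h.b y y * (η * h.b y y) = 1 - η := by field_simp
      rw [this]; module
    · intro z h2 h3
      rw [LinearEquiv.mul_apply, h1z z h2 (by rw [h.smul_right, h3, mul_zero]), h.R_apply hc, h3,
        mul_zero, zero_smul, add_zero]
  · exact move0 hq hxy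

end HForm

end Vale.Agent.P011.H487
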