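import Vale.Agent.P011.H487.Herm

/-!
(NS2): a subgroup of isometries normalised by the transvections and containing a non-scalar
element contains all transvections.
-/

namespace Vale.Agent.P011.H487

variable {K V : Type*} [Field K] [StarRing K] [AddCommGroup V] [Module K V]

namespace HForm

variable {h : HForm K V}

/-- torus element -/
theorem Hyp.tor (hK : StarNT K) {e f : V} (p : h.Hyp e f) {a : K} (ha0 : a ≠ 0)
    (ha : star a = a) :
    ∃ g ∈ h.T, g e = a • e ∧ g f = a⁻¹ • f ∧ ∀ y, h.b y e = 0 → h.b y f = 0 → g y = y := by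
  obtain ⟨t, ht0, ht⟩ := exists_theta hK
  obtain ⟨g1, hg1, h1e, h1f, h1y⟩ := p.weyl ht0 ht
  have hat : a * t + star (a * t) = 0 := by
    rw [star_mul', ha]; linear_combination a * ht
  obtain ⟨g2, hg2, h2e, h2f, h2y⟩ := p.weyl (mul_ne_zero ha0 ht0) hat
  refine ⟨g2 * g1⁻¹, mul_mem hg2 (inv_mem hg1), ?_, ?_, ?_⟩
  · have : g1⁻¹ e = t⁻¹ • f := by
      rw [← inv_apply g1 (t⁻¹ • f), map_smul, h1f, smul_smul, inv_mul_cancel₀ ht0, one_smul]
    rw [LinearEquiv.mul_apply, this, map_smul, h2f, smul_smul]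
    congr 1; field_simp
  · have : g1⁻¹ f = (-t) • e := by
      rw [← inv_apply g1 ((-t) • e), map_smul, h1e, smul_smul]
      rw [show -t * -t⁻¹ = 1 by field_simp, one_smul]
    rw [LinearEquiv.mul_apply, this, map_smul, h2e, smul_smul]
    congr 1; field_simp
  · intro y hy1 hy2
    have : g1⁻¹ y = y := by
      conv_lhs => rw [← h1y y hy1 hy2]
      rw [inv_apply]
    rw [LinearEquiv.mul_apply, this, h2y y hy1 hy2]

theorem exists_b_one (hnd : h.Nondeg) {z : V} (hz : z ≠ 0) : ∃ x, h.b x z = 1 := by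
  by_contra hne
  push Not at hne
  apply hz
  apply hnd
  intro y
  by_contra hy
  apply hne ((h.b y z)⁻¹ • y)
  rw [h.smul_left, inv_mul_cancel₀ hy]

theorem exists_orth (hnd : h.Nondeg) {z w : V} (hz : z ≠ 0) (hw : ∀ a : K, w ≠ a • z) :
    ∃ y, h.b y z = 1 ∧ h.b y w = 0 := by
  by_contra hne
  push Not at hne
  have hw0 : w ≠ 0 := by
    rintro rfl; exact hw 0 (by rw [zero_smul])
  obtain ⟨x, hx⟩ := exists_b_one hnd hw0
  have key : ∀ y, h.b y w = 0 → h.b y z = 0 := by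
    intro y hy
    by_contra hyz
    refine hne ((h.b y z)⁻¹ • y) ?_ ?_
    · rw [h.smul_left, inv_mul_cancel₀ hyz]
    · rw [h.smul_left, hy, mul_zero]
  have h1 : z = star (h.b x z) • w := by
    rw [← sub_eq_zero]
    apply hnd
    intro y
    rw [h.sub_right, h.smul_right, star_star]
    have := key (y - h.b y w • x) (by rw [h.sub_left, h.smul_left, hx]; ring)
    rw [h.sub_left, h.smul_left] at this
    linear_combination this
  have h2 : star (h.b x z) ≠ 0 := by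
    intro h0
    apply hz
    rw [h1, h0, zero_smul]
  apply hw (star (h.b x z))⁻¹
  rw [eq_inv_smul_iff₀ h2]
  exact h1.symm

/-- making a vector isotropic -/
theorem make_iso (hK : StarNT K) {z y : V} (hz : h.b z z = 0) (hy : h.b y z = 1) :
    ∃ s : K, h.b (y + s • z) (y + s • z) = 0 := by
  obtain ⟨s, hs⟩ := exists_trace hK (h.star_self y)
  refine ⟨s, ?_⟩
  have h1 : h.b z y = 1 := by rw [← h.star_b, hy, star_one]
  rw [h.add_left, h.smul_left, h.add_right, h.add_right, h.smul_right, h.smul_right, hz, hy, h1]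
  linear_combination hs

theorem exists_hyp (hK : StarNT K) (hnd : h.Nondeg) {e : V} (he0 : e ≠ 0)
    (he : h.b e e = 0) : ∃ f, h.Hyp e f := by
  obtain ⟨x, hx⟩ := exists_b_one hnd he0
  obtain ⟨s, hs⟩ := make_iso hK he hx
  refine ⟨x + s • e, he, hs, ?_⟩
  rw [h.add_right, h.smul_right, he, ← h.star_b, hx, star_one]; ring

/-- given two independent vectors, the first isotropic and orthogonal to the second -/
theorem exists_iso_orth (hK : StarNT K) (hnd : h.Nondeg) {z w : V} (hz0 : z ≠ 0)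
    (hz : h.b z z = 0) (hzw : h.b z w = 0) (hw : ∀ a : K, w ≠ a • z) :
    ∃ y, h.b y y = 0 ∧ h.b y z = 1 ∧ h.b y w = 0 := by
  obtain ⟨y, hy1, hy2⟩ := exists_orth hnd hz0 hw
  obtain ⟨s, hs⟩ := make_iso hK hz hy1
  refine ⟨y + s • z, hs, ?_, ?_⟩
  · rw [h.add_left, h.smul_left, hz, hy1]; ring
  · rw [h.add_left, h.smul_left, hzw, hy2]; ring

/-- an isotropic vector seeing two given isotropic lines -/
theorem exists_iso_mid (hK : StarNT K) (hnd : h.Nondeg) {e y : V} (he0 : e ≠ 0) (hy0 : y ≠ 0)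
    (he : h.b e e = 0) (hey : h.b e y = 0) (hy : ∀ a : K, y ≠ a • e) :
    ∃ x, h.b x x = 0 ∧ h.b x e = 1 ∧ h.b x y = 1 := by
  obtain ⟨y1, h11, h12⟩ := exists_orth hnd he0 hy
  have hy' : ∀ a : K, e ≠ a • y := by
    rintro a rfl
    have ha : a ≠ 0 := by
      rintro rfl; exact he0 (zero_smul _ _)
    apply hy a⁻¹
    rw [smul_smul, inv_mul_cancel₀ ha, one_smul]
  obtain ⟨y2, h21, h22⟩ := exists_orth hnd hy0 hy'
  have h3 : h.b (y1 + y2) e = 1 := by rw [h.add_left, h11, h22, add_zero]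
  obtain ⟨s, hs⟩ := make_iso hK he h3
  refine ⟨y1 + y2 + s • e, hs, ?_, ?_⟩
  · rw [h.add_left, h.smul_left, he, h3]; ring
  · rw [h.add_left, h.smul_left, hey, h.add_left, h12, h21]; ring

/-- one step of transitivity -/
theorem trans_step (hK : StarNT K) {e y : V} (he : h.b e e = 0) (hy : h.b y y = 0)
    (hey : h.b e y ≠ 0) : ∃ g ∈ h.T, ∃ a : K, a ≠ 0 ∧ g e = a • y := by
  obtain ⟨t, ht0, ht⟩ := exists_theta hK
  have hs : star (h.b e y) ≠ 0 := by
    intro h0; apply hey; rw [← star_star (h.b e y), h0, star_zero]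
  have p : h.Hyp e ((star (h.b e y))⁻¹ • y) := by
    refine ⟨he, ?_, ?_⟩
    · rw [h.smul_left, h.smul_right, hy]; ring
    · rw [h.smul_right, star_inv₀, star_star, inv_mul_cancel₀ hey]
  obtain ⟨g, hg, h1, -, -⟩ := p.weyl ht0 ht
  refine ⟨g, hg, -(t⁻¹) * (star (h.b e y))⁻¹, ?_, ?_⟩
  · exact mul_ne_zero (neg_ne_zero.2 (inv_ne_zero ht0)) (inv_ne_zero hs)
  · rw [h1, smul_smul]

/-- `T` is transitive on the isotropic lines -/
theorem trans_iso (hK : StarNT K) (hnd : h.Nondeg) {e y : V} (he0 : e ≠ 0) (hy0 : y ≠ 0)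
    (he : h.b e e = 0) (hy : h.b y y = 0) : ∃ g ∈ h.T, ∃ a : K, a ≠ 0 ∧ g e = a • y := by
  by_cases hey : h.b e y = 0
  · by_cases hl : ∀ a : K, y ≠ a • e
    · obtain ⟨x, hx, hxe, hxy⟩ := exists_iso_mid hK hnd he0 hy0 he hey hl
      obtain ⟨g1, hg1, a1, ha1, h1⟩ := trans_step hK he hx (by
        rw [← h.star_b, hxe, star_one]; exact one_ne_zero)
      obtain ⟨g2, hg2, a2, ha2, h2⟩ := trans_step hK hx hy (by rw [hxy]; exact one_ne_zero)
      refine ⟨g2 * g1, mul_mem hg2 hg1, a1 * a2, mul_ne_zero ha1 ha2, ?_⟩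
      rw [LinearEquiv.mul_apply, h1, map_smul, h2, smul_smul]
    · push Not at hl
      obtain ⟨a, ha⟩ := hl
      have ha0 : a ≠ 0 := by
        rintro rfl; exact hy0 (by rw [ha, zero_smul])
      refine ⟨1, one_mem _, a⁻¹, inv_ne_zero ha0, ?_⟩
      rw [ha, smul_smul, inv_mul_cancel₀ ha0, one_smul]; rfl
  · exact trans_step hK he hy hey

/-- an isometry which fixes all isotropic lines is scalar -/
theorem exists_iso_moved (hK : StarNT K) (hnd : h.Nondeg) (hiso : ∃ z, z ≠ 0 ∧ h.b z z = 0)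
    {g : V ≃ₗ[K] V} (hg : g ∈ h.U) (hgs : ∀ a : K, ∃ x, g x ≠ a • x) :
    ∃ z, z ≠ 0 ∧ h.b z z = 0 ∧ ∀ a : K, g z ≠ a • z := by
  by_contra hne
  push Not at hne
  obtain ⟨e, he0, he⟩ := hiso
  obtain ⟨f, p⟩ := exists_hyp hK hnd he0 he
  obtain ⟨t, ht0, ht⟩ := exists_theta hK
  obtain ⟨α, hα⟩ := hne e he0 he
  obtain ⟨β, hβ⟩ := hne f p.swap.ne p.ff
  have iso2 : h.b (e + t • f) (e + t • f) = 0 := by
    rw [h.add_left, h.smul_left, h.add_right, h.add_right, h.smul_right, h.smul_right, p.ee, p.ff,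
      p.ef, p.fe]
    linear_combination ht
  have ne2 : e + t • f ≠ 0 := by
    intro h0
    have := congrArg (fun v => h.b v f) h0
    simp only [h.add_left, h.smul_left, p.ef, p.ff, h.zero_left, mul_zero, add_zero] at this
    exact one_ne_zero this
  obtain ⟨l, hl⟩ := hne _ ne2 iso2
  rw [map_add, map_smul, hα, hβ] at hl
  have e1 : α = l := by
    have := congrArg (fun v => h.b v f) hl
    simp only [h.add_left, h.smul_left, p.ef, p.ff, mul_zero, add_zero, mul_one] at this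
    exact this
  have e2 : β = l := by
    have := congrArg (fun v => h.b v e) hl
    simp only [h.add_left, h.smul_left, p.fe, p.ee, mul_zero, zero_add, mul_one] at this
    have : t * β = t * l := by rw [this]; ring
    exact mul_left_cancel₀ ht0 this
  rw [e2, ← e1] at hβ
  obtain ⟨x, hx⟩ := hgs α
  apply hx
  -- decompose x
  obtain ⟨y, hy⟩ : ∃ y, y = x - h.b x f • e - h.b x e • f := ⟨_, rfl⟩
  have hye : h.b y e = 0 := by
    rw [hy, h.sub_left, h.sub_left, h.smul_left, h.smul_left, p.ee, p.fe]; ring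
  have hyf : h.b y f = 0 := by
    rw [hy, h.sub_left, h.sub_left, h.smul_left, h.smul_left, p.ef, p.ff]; ring
  have hx' : x = y + h.b x f • e + h.b x e • f := by rw [hy]; abel
  have hgy : g y = α • y := by
    obtain ⟨s, hs⟩ := exists_trace hK (h.star_self y)
    have iso3 : h.b (y + (e + s • f)) (y + (e + s • f)) = 0 := by
      rw [h.add_left, h.add_left, h.smul_left, h.add_right, h.add_right, h.add_right, h.add_right,
        h.add_right, h.add_right, h.smul_right, h.smul_right, h.smul_right, p.ee, p.ff,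
        p.ef, p.fe, hye, hyf, h.eq_zero_symm hye, h.eq_zero_symm hyf]
      linear_combination hs
    have ne3 : y + (e + s • f) ≠ 0 := by
      intro h0
      have := congrArg (fun v => h.b v f) h0
      simp only [h.add_left, h.smul_left, p.ef, p.ff, h.zero_left, mul_zero, add_zero, hyf,
        zero_add] at this
      exact one_ne_zero this
    obtain ⟨m, hm⟩ := hne _ ne3 iso3
    rw [map_add, map_add, map_smul, hα, hβ] at hm
    have gy1 : h.b (g y) f = 0 := by
      have := hg y f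
      rw [hβ, h.smul_right, hyf] at this
      have hαs : star α ≠ 0 := by
        intro h0
        have hα0 : α = 0 := by rw [← star_star α, h0, star_zero]
        have h5 := hg e f
        rw [hα, hβ, h.smul_left, hα0, p.ef] at h5
        simp at h5
      exact (mul_eq_zero.1 this).resolve_left hαs
    have hma : m = α := by
      have := congrArg (fun v => h.b v f) hm
      simp only [h.add_left, h.smul_left, p.ef, p.ff, gy1, hyf, mul_zero, add_zero, zero_add,
        mul_one] at this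
      exact this.symm
    rw [hma, smul_add, smul_add, smul_comm s α f] at hm
    exact add_right_cancel hm
  rw [hx', map_add, map_add, map_smul, map_smul, hα, hβ, hgy, smul_add, smul_add,
    smul_comm α, smul_comm α]

/-- (NS2) for transvections. -/
theorem T_le_of_normal (hK : StarNT K) (hnd : h.Nondeg) (hiso : ∃ z, z ≠ 0 ∧ h.b z z = 0)
    (hk : ∃ a : K, a ≠ 0 ∧ star a = a ∧ a ^ 4 ≠ 1)
    {Γ : Subgroup (V ≃ₗ[K] V)} (hΓU : Γ ≤ h.U) (hΓ : ∀ t ∈ h.T, ∀ g ∈ Γ, t * g * t⁻¹ ∈ Γ)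
    (hns : ∃ g ∈ Γ, ∀ a : K, ∃ x, g x ≠ a • x) : h.T ≤ Γ := by
  obtain ⟨t0, ht00, ht0⟩ := exists_theta hK
  have comm : ∀ g ∈ Γ, ∀ z : V, h.b z z = 0 → ∀ c : K, c + star c = 0 →
      h.R (g z) c * h.R z (-c) ∈ Γ := by
    intro g hg z hz c hc
    have hc' : -c + star (-c) = 0 := by rw [star_neg]; linear_combination -hc
    have e1 : h.R (g z) c * h.R z (-c) = g * (h.R z c * g⁻¹ * (h.R z c)⁻¹) := by
      rw [← h.R_conj (h.Rc_iso hz hc) (hΓU hg), h.R_inv (h.Rc_iso hz hc)]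
      have : star c = -c := by linear_combination hc
      rw [this]; group
    rw [e1]
    exact mul_mem hg (hΓ _ (h.R_mem_T hz hc) _ (inv_mem hg))
  -- step B
  have stepB : ∃ g ∈ Γ, ∃ z, h.b z z = 0 ∧ h.b z (g z) ≠ 0 := by
    obtain ⟨g, hg, hgs⟩ := hns
    obtain ⟨z, hz0, hz, hzm⟩ := exists_iso_moved hK hnd hiso (hΓU hg) hgs
    by_cases hzg : h.b z (g z) = 0
    · obtain ⟨y, hy, hy1, hy2⟩ := exists_iso_orth hK hnd hz0 hz hzg hzm
      have ht0' : -t0 + star (-t0) = 0 := by rw [star_neg]; linear_combination -ht0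
      refine ⟨_, comm g hg z hz t0 ht0, y, hy, ?_⟩
      have hgz : h.b (g z) (g z) = 0 := by rw [hΓU hg, hz]
      have e2 : (h.R (g z) t0 * h.R z (-t0)) y = y - t0 • z := by
        rw [LinearEquiv.mul_apply, h.R_apply (h.Rc_iso hz ht0'), hy1,
          h.R_apply (h.Rc_iso hgz ht0), h.add_left, h.smul_left, hy2, hzg]
        simp [sub_eq_add_neg]
      rw [e2, h.sub_right, h.smul_right, hy, hy1]
      intro h0
      apply ht00
      have : star t0 = 0 := by linear_combination -h0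
      rw [← star_star t0, this, star_zero]
    · exact ⟨g, hg, z, hz, hzg⟩
  obtain ⟨g, hg, e, he, heg⟩ := stepB
  have hseg : star (h.b e (g e)) ≠ 0 := by
    intro h0; apply heg; rw [← star_star (h.b e (g e)), h0, star_zero]
  have hge : h.b (g e) (g e) = 0 := by rw [hΓU hg, he]
  obtain ⟨ν, hν⟩ : ∃ ν, ν = (star (h.b e (g e)))⁻¹ := ⟨_, rfl⟩
  have hν0 : ν ≠ 0 := by rw [hν]; exact inv_ne_zero hseg
  obtain ⟨f, hf⟩ : ∃ f, f = ν • g e := ⟨_, rfl⟩
  have p : h.Hyp e f := by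
    refine ⟨he, ?_, ?_⟩
    · rw [hf, h.smul_left, h.smul_right, hge]; ring
    · rw [hf, hν, h.smul_right, star_inv₀, star_star, inv_mul_cancel₀ heg]
  have hgef : g e = ν⁻¹ • f := by rw [hf, smul_smul, inv_mul_cancel₀ hν0, one_smul]
  obtain ⟨a, ha0, ha, ha4⟩ := hk
  obtain ⟨d, hd, hde, hdf, -⟩ := p.tor hK ha0 ha
  have hdU := h.T_le_U hd
  have hνs : star ν ≠ 0 := by
    intro h0; apply hν0; rw [← star_star ν, h0, star_zero]
  -- the family C
  obtain ⟨ρ, hρ⟩ : ∃ ρ, ρ = ν⁻¹ * star ν⁻¹ := ⟨_, rfl⟩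
  have hρs : star ρ = ρ := by rw [hρ, star_mul', star_star]; ring
  have hC : ∀ c : K, c + star c = 0 → h.R f (ρ * c) * h.R e (-c) ∈ Γ := by
    intro c hc
    have := comm g hg e he c hc
    rwa [hgef, h.R_smul p.ff hc, ← hρ] at this
  have hcm : ∀ (m : K), star m = m → ∀ c : K, c + star c = 0 → m * c + star (m * c) = 0 := by
    intro m hm c hc
    rw [star_mul', hm]; linear_combination m * hc
  have hneg : ∀ c : K, c + star c = 0 → -c + star (-c) = 0 := by
    intro c hc; rw [star_neg]; linear_combination -hc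
  have hainv : star (a⁻¹) = a⁻¹ := by rw [star_inv₀, ha]
  have hai2 : star (a⁻¹ ^ 2) = a⁻¹ ^ 2 := by rw [star_pow, hainv]
  have ha2 : star (a ^ 2) = a ^ 2 := by rw [star_pow, ha]
  have key : ∀ c : K, c + star c = 0 → h.R e ((a⁻¹ ^ 2 - a ^ 2) * c) ∈ Γ := by
    intro c hc
    have m1 := hΓ d hd _ (hC c hc)
    have m2 := hC (a⁻¹ ^ 2 * c) (hcm _ hai2 c hc)
    have hρc := hcm ρ hρs c hc
    have e1 : d * (h.R f (ρ * c) * h.R e (-c)) * d⁻¹ =
        h.R f (ρ * (a⁻¹ ^ 2 * c)) * h.R e (-(a ^ 2 * c)) := by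
      have : d * (h.R f (ρ * c) * h.R e (-c)) * d⁻¹ =
        (d * h.R f (ρ * c) * d⁻¹) * (d * h.R e (-c) * d⁻¹) := by group
      rw [this, h.R_conj (h.Rc_iso p.ff hρc) hdU, h.R_conj (h.Rc_iso p.ee (hneg c hc)) hdU,
        hde, hdf, h.R_smul p.ff hρc, h.R_smul p.ee (hneg c hc), hainv, ha]
      congr 2 <;> ring
    have e2 : (h.R f (ρ * (a⁻¹ ^ 2 * c)) * h.R e (-(a⁻¹ ^ 2 * c)))⁻¹ *
        (d * (h.R f (ρ * c) * h.R e (-c)) * d⁻¹) = h.R e ((a⁻¹ ^ 2 - a ^ 2) * c) := by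
      have h7 := hcm _ hai2 c hc
      have h8 := hcm _ ha2 c hc
      rw [e1, mul_inv_rev, h.R_inv (h.Rc_iso p.ee (hneg _ h7))]
      have : star (-(a⁻¹ ^ 2 * c)) = a⁻¹ ^ 2 * c := by rw [star_neg]; linear_combination -h7
      rw [this]
      have : h.R e (a⁻¹ ^ 2 * c) * (h.R f (ρ * (a⁻¹ ^ 2 * c)))⁻¹ *
        (h.R f (ρ * (a⁻¹ ^ 2 * c)) * h.R e (-(a ^ 2 * c))) =
        h.R e (a⁻¹ ^ 2 * c) * h.R e (-(a ^ 2 * c)) := by group
      rw [this, h.R_mul p.ee h7 (hneg _ h8)]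
      congr 1; ring
    rw [← e2]
    exact mul_mem (inv_mem m2) m1
  have hne : a⁻¹ ^ 2 - a ^ 2 ≠ 0 := by
    intro h0
    apply ha4
    have : a⁻¹ ^ 2 = a ^ 2 := sub_eq_zero.1 h0
    have h9 : a⁻¹ ^ 2 * a ^ 2 = 1 := by rw [← mul_pow, inv_mul_cancel₀ ha0, one_pow]
    rw [this] at h9
    rw [← h9]; ring
  have hsm : star ((a⁻¹ ^ 2 - a ^ 2)⁻¹) = (a⁻¹ ^ 2 - a ^ 2)⁻¹ := by
    rw [star_inv₀, star_sub, hai2, ha2]
  have key2 : ∀ c : K, c + star c = 0 → h.R e c ∈ Γ := by
    intro c hc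
    have := key _ (hcm _ hsm c hc)
    rwa [← mul_assoc, mul_inv_cancel₀ hne, one_mul] at this
  unfold T
  rw [Subgroup.closure_le]
  rintro _ ⟨z, c, hz, hc, rfl⟩
  by_cases hz0 : z = 0
  · rw [hz0]
    have : h.R (0 : V) c = 1 := by
      ext y
      rw [h.R_apply (h.Rc_iso (h.zero_left 0) hc), smul_zero, add_zero]; rfl
    rw [this]; exact one_mem _
  · obtain ⟨τ, hτ, l, hl, hτe⟩ := trans_iso hK hnd p.ne hz0 p.ee hz
    have hz' : z = τ (l⁻¹ • e) := by
      rw [map_smul, hτe, smul_smul, inv_mul_cancel₀ hl, one_smul]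
    have h10 : h.b (l⁻¹ • e) (l⁻¹ • e) = 0 := by rw [h.smul_left, h.smul_right, he]; ring
    rw [hz', ← h.R_conj (h.Rc_iso h10 hc) (h.T_le_U hτ), h.R_smul he hc]
    apply hΓ τ hτ
    apply key2
    exact hcm _ (by rw [star_mul', star_star]; ring) c hc

end HForm

end Vale.Agent.P011.H487
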