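import Mathlib

/-!
The split companion of the local lemma: a subgroup of `GL(V)`, `V` a vector space of dimension at
least two over a division ring `D` whose centre has an element `a ≠ 0`, `a ^ 4 ≠ 1`, which is
normalised by the transvections and is not central contains all transvections.
-/

namespace Vale.Agent.P011.H487.Lin

variable {D V : Type*} [DivisionRing D] [AddCommGroup V] [Module D V]

theorem apply_inv (g : V ≃ₗ[D] V) (x : V) : g (g⁻¹ x) = x := by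
  rw [← LinearEquiv.mul_apply, mul_inv_cancel]; rfl

theorem inv_apply (g : V ≃ₗ[D] V) (x : V) : g⁻¹ (g x) = x := by
  rw [← LinearEquiv.mul_apply, inv_mul_cancel]; rfl

open Classical in
/-- transvections -/
noncomputable def tau (φ : V →ₗ[D] D) (x : V) : V ≃ₗ[D] V :=
  if h : φ x = 0 then LinearEquiv.transvection h else 1

theorem tau_apply {φ : V →ₗ[D] D} {x : V} (h : φ x = 0) (y : V) :
    tau φ x y = y + φ y • x := by
  unfold tau
  rw [dif_pos h, LinearEquiv.transvection.apply]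

/-- right multiplication of a functional -/
def rm (φ : V →ₗ[D] D) (c : D) : V →ₗ[D] D := LinearMap.toSpanSingleton D D c ∘ₗ φ

theorem rm_apply (φ : V →ₗ[D] D) (c : D) (y : V) : rm φ c y = φ y * c := by
  simp [rm]

theorem tau_mul {φ : V →ₗ[D] D} {x x' : V} (h : φ x = 0) (h' : φ x' = 0) :
    tau φ x * tau φ x' = tau φ (x + x') := by
  ext y
  rw [LinearEquiv.mul_apply, tau_apply h, tau_apply h', tau_apply (by rw [map_add, h, h', add_zero]),
    map_add, map_smul, h', smul_zero, add_zero, smul_add]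
  abel

theorem tau_zero (φ : V →ₗ[D] D) : tau φ (0 : V) = 1 := by
  ext y
  rw [tau_apply (map_zero φ), smul_zero, add_zero]; rfl

theorem tau_zero' (x : V) : tau (0 : V →ₗ[D] D) x = 1 := by
  ext y
  rw [tau_apply (LinearMap.zero_apply x), LinearMap.zero_apply, zero_smul, add_zero]; rfl

theorem tau_inv {φ : V →ₗ[D] D} {x : V} (h : φ x = 0) : (tau φ x)⁻¹ = tau φ (-x) := by
  rw [inv_eq_iff_mul_eq_one, tau_mul h (by rw [map_neg, h, neg_zero]), add_neg_cancel, tau_zero]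

/-- precomposition with the inverse -/
def pc (φ : V →ₗ[D] D) (g : V ≃ₗ[D] V) : V →ₗ[D] D := φ ∘ₗ ((g⁻¹ : V ≃ₗ[D] V) : V →ₗ[D] V)

theorem pc_apply (φ : V →ₗ[D] D) (g : V ≃ₗ[D] V) (y : V) : pc φ g y = φ (g⁻¹ y) := rfl

theorem tau_conj {φ : V →ₗ[D] D} {x : V} (h : φ x = 0) (g : V ≃ₗ[D] V) :
    g * tau φ x * g⁻¹ = tau (pc φ g) (g x) := by
  ext y
  rw [LinearEquiv.mul_apply, LinearEquiv.mul_apply, tau_apply h, tau_apply (by
    rw [pc_apply, inv_apply, h]), map_add, apply_inv, map_smul, pc_apply]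

/-- The group generated by the transvections. -/
noncomputable def E (D V : Type*) [DivisionRing D] [AddCommGroup V] [Module D V] :
    Subgroup (V ≃ₗ[D] V) :=
  Subgroup.closure {g | ∃ (φ : V →ₗ[D] D) (x : V), φ x = 0 ∧ g = tau φ x}

theorem tau_mem {φ : V →ₗ[D] D} {x : V} (h : φ x = 0) : tau φ x ∈ E D V :=
  Subgroup.subset_closure ⟨φ, x, h, rfl⟩

theorem exists_dual {x w : V} (hw : ∀ c : D, w ≠ c • x) :
    ∃ φ : V →ₗ[D] D, φ x = 0 ∧ φ w = 1 := by
  have h1 : w ∉ Submodule.span D {x} := by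
    rw [Submodule.mem_span_singleton]
    rintro ⟨c, hc⟩
    exact hw c hc.symm
  obtain ⟨φ, hφ, hφ'⟩ := Submodule.exists_le_ker_of_notMem h1
  refine ⟨rm φ (φ w)⁻¹, ?_, ?_⟩
  · rw [rm_apply, LinearMap.mem_ker.1 (hφ' (Submodule.mem_span_singleton_self x)), zero_mul]
  · rw [rm_apply, mul_inv_cancel₀ hφ]

theorem exists_dual0 {w : V} (hw : w ≠ 0) : ∃ φ : V →ₗ[D] D, φ w = 1 := by
  obtain ⟨φ, -, h⟩ := exists_dual (D := D) (x := 0) (w := w) (fun c => by rwa [smul_zero])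
  exact ⟨φ, h⟩

/-- dual pairs -/
structure Dp (e f : V) (es fs : V →ₗ[D] D) : Prop where
  ee : es e = 1
  ef : es f = 0
  fe : fs e = 0
  ff : fs f = 1

theorem Dp.weyl {e f : V} {es fs : V →ₗ[D] D} (p : Dp e f es fs) {c : D} (hc : c ≠ 0) :
    ∃ g ∈ E D V, g e = -(c⁻¹) • f ∧ g f = c • e ∧ ∀ y, es y = 0 → fs y = 0 → g y = y := by
  have h1 : fs (c • e) = 0 := by rw [map_smul, p.fe, smul_zero]
  have h2 : es (-(c⁻¹) • f) = 0 := by rw [map_smul, p.ef, smul_zero]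
  have s1 : tau fs (c • e) e = e := by rw [tau_apply h1, p.fe, zero_smul, add_zero]
  have s2 : tau fs (c • e) f = f + c • e := by rw [tau_apply h1, p.ff, one_smul]
  have s3 : tau es (-(c⁻¹) • f) e = e - c⁻¹ • f := by
    rw [tau_apply h2, p.ee, one_smul, neg_smul, sub_eq_add_neg]
  have s4 : tau es (-(c⁻¹) • f) f = f := by rw [tau_apply h2, p.ef, zero_smul, add_zero]
  refine ⟨tau fs (c • e) * tau es (-(c⁻¹) • f) * tau fs (c • e),
    mul_mem (mul_mem (tau_mem h1) (tau_mem h2)) (tau_mem h1), ?_, ?_, ?_⟩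
  · rw [LinearEquiv.mul_apply, LinearEquiv.mul_apply, s1, s3, map_sub, s1, map_smul, s2, smul_add,
      smul_smul, inv_mul_cancel₀ hc, one_smul, neg_smul]
    abel
  · rw [LinearEquiv.mul_apply, LinearEquiv.mul_apply, s2, map_add, s4, map_smul, s3, smul_sub,
      smul_smul, mul_inv_cancel₀ hc, one_smul, add_sub_cancel, map_smul, s1]
  · intro y hy1 hy2
    simp only [LinearEquiv.mul_apply, tau_apply h1, tau_apply h2, hy1, hy2, zero_smul, add_zero]

theorem Dp.tor {e f : V} {es fs : V →ₗ[D] D} (p : Dp e f es fs) {a : D} (ha0 : a ≠ 0) :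
    ∃ g ∈ E D V, g e = a • e ∧ g f = a⁻¹ • f ∧ ∀ y, es y = 0 → fs y = 0 → g y = y := by
  obtain ⟨g1, hg1, h1e, h1f, h1y⟩ := p.weyl (one_ne_zero (α := D))
  obtain ⟨g2, hg2, h2e, h2f, h2y⟩ := p.weyl ha0
  rw [inv_one, neg_smul, one_smul] at h1e
  rw [one_smul] at h1f
  have e1 : g1⁻¹ e = f := by rw [← h1f, inv_apply]
  have e2 : g1⁻¹ f = -e := by
    rw [← inv_apply g1 (-e), map_neg, h1e, neg_neg]
  refine ⟨g2 * g1⁻¹, mul_mem hg2 (inv_mem hg1), ?_, ?_, ?_⟩
  · rw [LinearEquiv.mul_apply, e1, h2f]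
  · rw [LinearEquiv.mul_apply, e2, map_neg, h2e, neg_smul, neg_neg]
  · intro y hy1 hy2
    have : g1⁻¹ y = y := by
      conv_lhs => rw [← h1y y hy1 hy2]
      rw [inv_apply]
    rw [LinearEquiv.mul_apply, this, h2y y hy1 hy2]

/-- transitivity of `E` on nonzero vectors, one step -/
theorem trans_step {x x' : V} (h : ∀ c : D, x' ≠ c • x) (hx' : ∀ c : D, x ≠ c • x') :
    ∃ g ∈ E D V, g x = x' := by
  obtain ⟨φ1, h1, h1'⟩ := exists_dual h
  obtain ⟨φ2, h2, h2'⟩ := exists_dual hx'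
  have h3 : (φ1 + φ2) (x' - x) = 0 := by
    rw [LinearMap.add_apply, map_sub, map_sub, h1, h1', h2, h2']; abel
  refine ⟨tau (φ1 + φ2) (x' - x), tau_mem h3, ?_⟩
  rw [tau_apply h3, LinearMap.add_apply, h1, h2', zero_add, one_smul]; abel

theorem indep_symm {x x' : V} (hx : x ≠ 0) (h : ∀ c : D, x' ≠ c • x) : ∀ c : D, x ≠ c • x' := by
  rintro c hc
  have hc0 : c ≠ 0 := by
    rintro rfl; exact hx (by rw [hc, zero_smul])
  apply h c⁻¹
  rw [hc, smul_smul, inv_mul_cancel₀ hc0, one_smul]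

theorem trans_E {x0 w0 : V} (hx0 : x0 ≠ 0) (hw0 : ∀ c : D, w0 ≠ c • x0) {x x' : V} (hx : x ≠ 0)
    (hx' : x' ≠ 0) : ∃ g ∈ E D V, g x = x' := by
  by_cases h : ∀ c : D, x' ≠ c • x
  · exact trans_step h (indep_symm hx h)
  · push Not at h
    obtain ⟨c, hc⟩ := h
    have hc0 : c ≠ 0 := by
      rintro rfl; exact hx' (by rw [hc, zero_smul])
    obtain ⟨z, hz⟩ : ∃ z : V, ∀ c : D, z ≠ c • x := by
      by_contra hne
      push Not at hne
      obtain ⟨c1, h1⟩ := hne x0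
      obtain ⟨c2, h2⟩ := hne w0
      have hc1 : c1 ≠ 0 := by
        rintro rfl; exact hx0 (by rw [h1, zero_smul])
      apply hw0 (c2 * c1⁻¹)
      rw [h2, h1, smul_smul, mul_assoc, inv_mul_cancel₀ hc1, mul_one]
    have hz0 : z ≠ 0 := by
      rintro rfl; exact hz 0 (by rw [zero_smul])
    have hz' : ∀ c : D, z ≠ c • x' := by
      intro d hd
      apply hz (d * c)
      rw [hd, hc, smul_smul]
    obtain ⟨g1, hg1, h1⟩ := trans_step hz (indep_symm hx hz)
    obtain ⟨g2, hg2, h2⟩ := trans_step (indep_symm hx' hz') hz'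
    exact ⟨g2 * g1, mul_mem hg2 hg1, by rw [LinearEquiv.mul_apply, h1, h2]⟩

/-- transitivity on functionals with a fixed vector in the kernel -/
theorem trans_dual {x : V} {φ φ' : V →ₗ[D] D} (hφ : φ x = 0) (hφ' : φ' x = 0)
    (hne : φ ≠ 0) (hind : ∀ c : D, φ' ≠ rm φ c) :
    ∃ g ∈ E D V, g x = x ∧ ∀ y, φ (g⁻¹ y) = φ' y := by
  -- a vector v with φ v = φ' v = 1
  obtain ⟨v, hv, hv'⟩ : ∃ v, φ v = 1 ∧ φ' v = 1 := by
    obtain ⟨u, hu⟩ : ∃ u, φ u = 1 := by
      by_contra hcon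
      push Not at hcon
      apply hne
      ext y
      rw [LinearMap.zero_apply]
      by_contra hy
      apply hcon ((φ y)⁻¹ • y)
      rw [map_smul, smul_eq_mul, inv_mul_cancel₀ hy]
    obtain ⟨w, hw, hw'⟩ : ∃ w, φ w = 0 ∧ φ' w ≠ 0 := by
      by_contra hcon
      push Not at hcon
      apply hind (φ' u)
      ext y
      rw [rm_apply]
      have := hcon (y - φ y • u) (by rw [map_sub, map_smul, hu, smul_eq_mul, mul_one, sub_self])
      rw [map_sub, map_smul, smul_eq_mul] at this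
      exact sub_eq_zero.1 this
    refine ⟨u + ((1 - φ' u) * (φ' w)⁻¹) • w, ?_, ?_⟩
    · rw [map_add, map_smul, hw, smul_zero, hu, add_zero]
    · rw [map_add, map_smul, smul_eq_mul, mul_assoc, inv_mul_cancel₀ hw', mul_one]; abel
  have h1 : (φ - φ') v = 0 := by rw [LinearMap.sub_apply, hv, hv', sub_self]
  refine ⟨tau (φ - φ') v, tau_mem h1, ?_, ?_⟩
  · rw [tau_apply h1, LinearMap.sub_apply, hφ, hφ', sub_zero, zero_smul, add_zero]
  · intro y
    have h2 : (φ - φ') (-v) = 0 := by rw [map_neg, h1, neg_zero]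
    rw [tau_inv h1, tau_apply h2, map_add, map_smul, map_neg, hv, LinearMap.sub_apply,
      smul_eq_mul, mul_neg, mul_one]
    abel

/-- a functional killing `x` and seeing two vectors outside the line of `x` -/
theorem exists_dual2 {x w u : V} (hw : ∀ c : D, w ≠ c • x) (hu : ∀ c : D, u ≠ c • x) :
    ∃ φ : V →ₗ[D] D, φ x = 0 ∧ φ w ≠ 0 ∧ φ u ≠ 0 := by
  obtain ⟨φ1, h1, h1'⟩ := exists_dual hw
  obtain ⟨φ2, h2, h2'⟩ := exists_dual hu
  by_cases ha : φ1 u = 0
  · by_cases hb : φ2 w = 0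
    · refine ⟨φ1 + φ2, ?_, ?_, ?_⟩
      · rw [LinearMap.add_apply, h1, h2, add_zero]
      · rw [LinearMap.add_apply, h1', hb, add_zero]; exact one_ne_zero
      · rw [LinearMap.add_apply, h2', ha, zero_add]; exact one_ne_zero
    · exact ⟨φ2, h2, hb, by rw [h2']; exact one_ne_zero⟩
  · exact ⟨φ1, h1, by rw [h1']; exact one_ne_zero, ha⟩

/-- **(S2)** -/
theorem E_le_of_normal {a : D} (ha0 : a ≠ 0) (hac : ∀ x : D, a * x = x * a) (ha4 : a ^ 4 ≠ 1)
    {Γ : Subgroup (V ≃ₗ[D] V)} (hΓ : ∀ t ∈ E D V, ∀ g ∈ Γ, t * g * t⁻¹ ∈ Γ)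
    (hns : ∃ g ∈ Γ, ∃ x : V, ∀ c : D, g x ≠ c • x) : E D V ≤ Γ := by
  obtain ⟨g, hg, x, hx⟩ := hns
  have hx0 : x ≠ 0 := by
    rintro rfl; exact hx 0 (by rw [map_zero, smul_zero])
  have hu : ∀ c : D, g⁻¹ x ≠ c • x := by
    intro c hc
    have h1 := congrArg g hc
    rw [apply_inv, map_smul] at h1
    exact indep_symm hx0 hx c h1
  obtain ⟨φ, hφx, hφw, hφu⟩ := exists_dual2 hx hu
  obtain ⟨w, hw⟩ : ∃ w, w = g x := ⟨_, rfl⟩
  rw [← hw] at hφw
  obtain ⟨ψ, hψ⟩ : ∃ ψ, ψ = pc φ g := ⟨_, rfl⟩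
  have hψx : ψ x ≠ 0 := by rw [hψ, pc_apply]; exact hφu
  have hψw : ψ w = 0 := by rw [hψ, pc_apply, hw, inv_apply, hφx]
  have hφtx : ∀ t : D, φ (t • x) = 0 := fun t => by rw [map_smul, hφx, smul_zero]
  have hψtw : ∀ t : D, ψ (t • w) = 0 := fun t => by rw [map_smul, hψw, smul_zero]
  have hC : ∀ t : D, tau ψ (t • w) * tau φ (-(t • x)) ∈ Γ := by
    intro t
    have e1 : tau ψ (t • w) * tau φ (-(t • x)) =
        g * (tau φ (t • x) * g⁻¹ * (tau φ (t • x))⁻¹) := by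
      rw [hψ, hw, ← map_smul, ← tau_conj (hφtx t), ← tau_inv (hφtx t)]; group
    rw [e1]
    exact mul_mem hg (hΓ _ (tau_mem (hφtx t)) _ (inv_mem hg))
  have p : Dp x w (rm ψ (ψ x)⁻¹) (rm φ (φ w)⁻¹) := by
    refine ⟨?_, ?_, ?_, ?_⟩
    · rw [rm_apply, mul_inv_cancel₀ hψx]
    · rw [rm_apply, hψw, zero_mul]
    · rw [rm_apply, hφx, zero_mul]
    · rw [rm_apply, mul_inv_cancel₀ hφw]
  obtain ⟨d, hd, hde, hdf, hdy⟩ := p.tor ha0
  have hac' : ∀ x : D, a⁻¹ * x = x * a⁻¹ := by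
    intro x
    rw [eq_mul_inv_iff_mul_eq₀ ha0, mul_assoc, ← hac, inv_mul_cancel_left₀ ha0]
  -- action of d on the functionals
  have dec : ∀ z : V, ∃ z0, ψ z0 = 0 ∧ φ z0 = 0 ∧
      z = z0 + (ψ z * (ψ x)⁻¹) • x + (φ z * (φ w)⁻¹) • w := by
    intro z
    refine ⟨z - (ψ z * (ψ x)⁻¹) • x - (φ z * (φ w)⁻¹) • w, ?_, ?_, by abel⟩
    · rw [map_sub, map_sub, map_smul, map_smul, hψw, smul_zero, smul_eq_mul, mul_assoc,
        inv_mul_cancel₀ hψx, mul_one, sub_self, sub_zero]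
    · rw [map_sub, map_sub, map_smul, map_smul, hφx, smul_zero, smul_eq_mul, mul_assoc,
        inv_mul_cancel₀ hφw, mul_one, sub_zero, sub_self]
  have hdz : ∀ z : V, ψ (d z) = a * ψ z ∧ φ (d z) = a⁻¹ * φ z := by
    intro z
    obtain ⟨z0, h1, h2, h3⟩ := dec z
    have h4 : d z = z0 + (ψ z * (ψ x)⁻¹) • (a • x) + (φ z * (φ w)⁻¹) • (a⁻¹ • w) := by
      conv_lhs => rw [h3]
      rw [map_add, map_add, map_smul, map_smul, hde, hdf,
        hdy z0 (by rw [rm_apply, h1, zero_mul]) (by rw [rm_apply, h2, zero_mul])]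
    constructor
    · rw [h4, map_add, map_add, map_smul, map_smul, map_smul, map_smul, h1, hψw]
      simp only [smul_eq_mul, mul_zero, add_zero, zero_add]
      rw [hac (ψ x), ← mul_assoc, mul_assoc (ψ z), inv_mul_cancel₀ hψx, mul_one, hac]
    · rw [h4, map_add, map_add, map_smul, map_smul, map_smul, map_smul, h2, hφx]
      simp only [smul_eq_mul, mul_zero, add_zero, zero_add]
      rw [hac' (φ w), ← mul_assoc, mul_assoc (φ z), inv_mul_cancel₀ hφw, mul_one, hac']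
  have hdi : ∀ z : V, ψ (d⁻¹ z) = a⁻¹ * ψ z ∧ φ (d⁻¹ z) = a * φ z := by
    intro z
    have := hdz (d⁻¹ z)
    rw [apply_inv] at this
    constructor
    · rw [this.1, inv_mul_cancel_left₀ ha0]
    · rw [this.2, mul_inv_cancel_left₀ ha0]
  have key : ∀ t : D, tau φ (((a⁻¹ ^ 2 - a ^ 2) * t) • x) ∈ Γ := by
    intro t
    have m1 := hΓ d hd _ (hC t)
    have m2 := hC (a⁻¹ ^ 2 * t)
    have e1 : d * (tau ψ (t • w) * tau φ (-(t • x))) * d⁻¹ =
        tau ψ ((a⁻¹ ^ 2 * t) • w) * tau φ (-((a ^ 2 * t) • x)) := by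
      have : d * (tau ψ (t • w) * tau φ (-(t • x))) * d⁻¹ =
        (d * tau ψ (t • w) * d⁻¹) * (d * tau φ (-(t • x)) * d⁻¹) := by group
      have hn : φ (-(t • x)) = 0 := by rw [map_neg, hφtx, neg_zero]
      rw [this]
      congr 1
      · ext y
        rw [LinearEquiv.mul_apply, LinearEquiv.mul_apply, tau_apply (hψtw t),
          tau_apply (hψtw _), map_add, apply_inv, map_smul, map_smul, hdf, (hdi y).1]
        simp only [smul_smul]
        congr 2
        rw [pow_two]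
        simp only [hac', mul_assoc]
      · have hn' : φ (-((a ^ 2 * t) • x)) = 0 := by rw [map_neg, hφtx, neg_zero]
        ext y
        rw [LinearEquiv.mul_apply, LinearEquiv.mul_apply, tau_apply hn,
          tau_apply hn', map_add, apply_inv, map_smul, map_neg, map_smul, hde, (hdi y).2]
        simp only [smul_smul, smul_neg]
        congr 3
        rw [pow_two]
        simp only [hac, mul_assoc]
    have e2 : (tau ψ ((a⁻¹ ^ 2 * t) • w) * tau φ (-((a⁻¹ ^ 2 * t) • x)))⁻¹ *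
        (d * (tau ψ (t • w) * tau φ (-(t • x))) * d⁻¹) =
        tau φ (((a⁻¹ ^ 2 - a ^ 2) * t) • x) := by
      have hn : φ (-((a ^ 2 * t) • x)) = 0 := by rw [map_neg, hφtx, neg_zero]
      rw [e1, mul_inv_rev, ← tau_inv (hφtx _), inv_inv]
      have : tau φ ((a⁻¹ ^ 2 * t) • x) * (tau ψ ((a⁻¹ ^ 2 * t) • w))⁻¹ *
        (tau ψ ((a⁻¹ ^ 2 * t) • w) * tau φ (-((a ^ 2 * t) • x))) =
        tau φ ((a⁻¹ ^ 2 * t) • x) * tau φ (-((a ^ 2 * t) • x)) := by group
      rw [this, tau_mul (hφtx _) hn]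
      congr 1
      rw [sub_mul, sub_smul]; abel
    rw [← e2]
    exact mul_mem (inv_mem m2) m1
  have hne : a⁻¹ ^ 2 - a ^ 2 ≠ 0 := by
    intro h0
    apply ha4
    have : a⁻¹ ^ 2 = a ^ 2 := sub_eq_zero.1 h0
    have h9 : a⁻¹ ^ 2 * a ^ 2 = 1 := by
      rw [pow_two, pow_two, mul_assoc, inv_mul_cancel_left₀ ha0, inv_mul_cancel₀ ha0]
    rw [this] at h9
    rw [← h9, ← pow_add]
  have key2 : ∀ t : D, tau φ (t • x) ∈ Γ := by
    intro t
    have := key ((a⁻¹ ^ 2 - a ^ 2)⁻¹ * t)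
    rwa [mul_inv_cancel_left₀ hne] at this
  have hφ0 : φ ≠ 0 := by
    rintro rfl; exact hφw (LinearMap.zero_apply _)
  -- all functionals, same vector
  have key3 : ∀ φ' : V →ₗ[D] D, φ' x = 0 → tau φ' x ∈ Γ := by
    intro φ' hφ'
    by_cases hind : ∀ c : D, φ' ≠ rm φ c
    · obtain ⟨h, hh, hhx, hhy⟩ := trans_dual hφx hφ' hφ0 hind
      have h1 := key2 1
      rw [one_smul] at h1
      have h2 := hΓ h hh _ h1
      rw [tau_conj hφx, hhx] at h2
      have : pc φ h = φ' := by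
        ext y; exact hhy y
      rwa [this] at h2
    · push Not at hind
      obtain ⟨c, rfl⟩ := hind
      have : tau (rm φ c) x = tau φ (c • x) := by
        ext y
        rw [tau_apply hφ', tau_apply (hφtx c), rm_apply, smul_smul]
      rw [this]; exact key2 c
  unfold E
  rw [Subgroup.closure_le]
  rintro _ ⟨φ', x', hφ', rfl⟩
  by_cases hx' : x' = 0
  · rw [hx', tau_zero]; exact one_mem _
  · obtain ⟨h, hh, hhx⟩ := trans_E hx0 hx hx0 hx'
    have h1 : pc φ' h⁻¹ x = 0 := by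
      rw [pc_apply, inv_inv, hhx, hφ']
    have h2 := hΓ h hh _ (key3 _ h1)
    rw [tau_conj h1, hhx] at h2
    have : pc (pc φ' h⁻¹) h = φ' := by
      ext y
      rw [pc_apply, pc_apply, inv_inv, apply_inv]
    rwa [this] at h2

/-- elements which fix all lines are central homotheties -/
theorem exists_moved {x0 w0 : V} (hx0 : x0 ≠ 0) (hw0 : ∀ c : D, w0 ≠ c • x0) {g : V ≃ₗ[D] V}
    (hg : ∀ c : D, (∀ x : D, c * x = x * c) → ∃ y, g y ≠ c • y) :
    ∃ x : V, ∀ c : D, g x ≠ c • x := by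
  by_contra hne
  push Not at hne
  obtain ⟨α, hα⟩ := hne x0
  have key : ∀ y z : V, y ≠ 0 → (∀ c : D, z ≠ c • y) → ∀ β γ : D, g y = β • y → g z = γ • z →
      β = γ := by
    intro y z hy hyz β γ hβ hγ
    obtain ⟨l, hl⟩ := hne (y + z)
    rw [map_add, hβ, hγ, smul_add] at hl
    have h1 : (β - l) • y = (l - γ) • z := by
      rw [sub_smul, sub_smul, sub_eq_sub_iff_add_eq_add, hl, add_comm]
    have h2 : l - γ = 0 := by
      by_contra h0
      apply hyz ((l - γ)⁻¹ * (β - l))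
      rw [mul_smul, h1, smul_smul, inv_mul_cancel₀ h0, one_smul]
    rw [h2, zero_smul] at h1
    have h3 : β - l = 0 := (smul_eq_zero.1 h1).resolve_right hy
    rw [sub_eq_zero.1 h3, sub_eq_zero.1 h2]
  have hw0' : w0 ≠ 0 := by
    rintro rfl; exact hw0 0 (by rw [zero_smul])
  obtain ⟨β, hβ⟩ := hne w0
  have hαβ : α = β := key x0 w0 hx0 hw0 α β hα hβ
  have hall : ∀ y : V, g y = α • y := by
    intro y
    obtain ⟨γ, hγ⟩ := hne y
    by_cases hy : ∀ c : D, y ≠ c • x0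
    · rw [hγ, ← key x0 y hx0 hy α γ hα hγ]
    · push Not at hy
      obtain ⟨c, hc⟩ := hy
      by_cases hc0 : c = 0
      · rw [hc, hc0, zero_smul, map_zero, smul_zero]
      · have hyw : ∀ d : D, y ≠ d • w0 := by
          intro d hd
          apply indep_symm hx0 hw0 (c⁻¹ * d)
          rw [mul_smul, ← hd, hc, smul_smul, inv_mul_cancel₀ hc0, one_smul]
        rw [hγ, ← key w0 y hw0' hyw β γ hβ hγ, hαβ]
  obtain ⟨y, hy⟩ := hg α (by
    intro c
    have h1 := hall (c • x0)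
    rw [map_smul, hα, smul_smul, smul_smul] at h1
    have h2 : (c * α - α * c) • x0 = 0 := by rw [sub_smul, h1, sub_self]
    exact (sub_eq_zero.1 ((smul_eq_zero.1 h2).resolve_right hx0)).symm)
  exact hy (hall y)

end Vale.Agent.P011.H487.Lin
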