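import Vale.Agent.P011.H487.Crit

/-!
The reduced trace, norm and adjoint of polynomial maps; the local conditions are open.
-/

open NumberField IsDedekindDomain Module MvPolynomial

set_option linter.unusedSectionVars false

namespace Vale.Agent.P011.H487

open Vale.Agent.P011.H775 Vale.Agent.P011.H948
open Vale.Agent.P011.Arith (Z0)
open Vale.Agent.P011.Even (Ab)

section pmC

variable {k K D : Type} [Field k] [Field K] [CharZero K] [Ring D] [Algebra k K] [Algebra k D]
  [Algebra K D] [IsScalarTower k K D] (C : Cub K D) {m : ℕ}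

theorem S_formula (x : D) : C.S x = (2 : K)⁻¹ * (C.T x * C.T x - C.T (x * x)) := by
  have h := C.T_cr x x
  rw [C.cr_self, map_smul, smul_eq_mul] at h
  have h2 : C.S x = C.T (C.adj x) := rfl
  rw [h2, ← h]
  field_simp

theorem N_formula (x : D) : C.N x = (3 : K)⁻¹ * C.T (x * C.adj x) := by
  rw [C.mul_adj, map_smul, C.T_one, smul_eq_mul]
  field_simp

variable {F : (Fin m → k) → D} {C}

theorem Pm.T (hF : Pm F) : Pm fun x => C.T (F x) := hF.lin (C.T.restrictScalars k)

theorem Pm.S (hF : Pm F) : Pm fun x => C.S (F x) := by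
  have h1 := (Pm.const (k := k) (m := m) ((2 : K)⁻¹)).mul
    (((Pm.T (C := C) hF).mul (Pm.T (C := C) hF)).sub (Pm.T (C := C) (hF.mul hF)))
  have e : (fun x => C.S (F x)) = fun x => (2 : K)⁻¹ * (C.T (F x) * C.T (F x) - C.T (F x * F x)) :=
    funext fun x => S_formula C (F x)
  rw [e]
  exact h1

theorem Pm.adj (hF : Pm F) : Pm fun x => C.adj (F x) := by
  have h1 := ((hF.mul hF).sub ((Pm.T (C := C) hF).smulA hF)).add
    ((Pm.S (C := C) hF).smulA (Pm.const (1 : D)))
  have e : (fun x => C.adj (F x)) = fun x => F x * F x - C.T (F x) • F x + C.S (F x) • (1 : D) :=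
    funext fun x => C.adj_eq (F x)
  rw [e]
  exact h1

theorem Pm.N (hF : Pm F) : Pm fun x => C.N (F x) := by
  have h1 := (Pm.const (k := k) (m := m) ((3 : K)⁻¹)).mul
    (Pm.T (C := C) (hF.mul (Pm.adj (C := C) hF)))
  have e : (fun x => C.N (F x)) = fun x => (3 : K)⁻¹ * C.T (F x * C.adj (F x)) :=
    funext fun x => N_formula C (F x)
  rw [e]
  exact h1

end pmC

section opn

variable {k K D : Type} [Field k] [NumberField k] [Field K] [NumberField K] [Algebra k K] {m : ℕ}

/-- Strict inequalities are open. -/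
theorem Pm.open_lt {P Q : (Fin m → k) → K} (hP : Pm P) (hQ : Pm Q) {V : HeightOneSpectrum (𝓞 K)}
    {v : HeightOneSpectrum (𝓞 k)} (hV : Ab V v) {g : Z0} (hg : g ≠ 0) {a : Fin m → k}
    (h : V.valuation K (P a) < g * V.valuation K (Q a)) :
    ∃ γ : Z0, γ ≠ 0 ∧ ∀ x : Fin m → k, (∀ j, v.valuation k (x j - a j) < γ) →
      V.valuation K (Q x) = V.valuation K (Q a) ∧
      V.valuation K (P x) < g * V.valuation K (Q x) := by
  have hQ0 : V.valuation K (Q a) ≠ 0 := by
    intro h0
    rw [h0, mul_zero] at h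
    exact absurd h (not_lt.mpr zero_le)
  obtain ⟨γ, hγ, h1⟩ := hP.cont_val hV a (g * V.valuation K (Q a)) (mul_ne_zero hg hQ0)
  obtain ⟨γ', hγ', h2⟩ := hQ.cont_val hV a (V.valuation K (Q a)) hQ0
  refine ⟨min γ γ', (lt_min (zero_lt_iff.mpr hγ) (zero_lt_iff.mpr hγ')).ne', fun x hx => ?_⟩
  have h3 := h1 x fun j => (hx j).trans_le (min_le_left _ _)
  have h4 := h2 x fun j => (hx j).trans_le (min_le_right _ _)
  have h5 : V.valuation K (Q x) = V.valuation K (Q a) := by
    have e : Q x = Q a + (Q x - Q a) := by ring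
    rw [e]
    exact (V.valuation K).map_add_eq_of_lt_left h4
  refine ⟨h5, ?_⟩
  have e : P x = P a + (P x - P a) := by ring
  rw [h5, e]
  exact (V.valuation K).map_add_lt h h3

end opn

section locd

variable {k K D : Type} [Field k] [NumberField k] [Field K] [NumberField K] [DivisionRing D]
  [Algebra k K] [Algebra k D] [Algebra K D] [IsScalarTower k K D] (C : Cub K D) {m : ℕ}

theorem locD_scaled {y p : D} {q : K} (hq : q ≠ 0) (hy : y = q⁻¹ • p) (c : Fin 3 → K) :
    C.N (c 0 • (1 : D) + c 1 • y + c 2 • (y * y)) =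
      C.N ((c 0 * q ^ 2) • (1 : D) + (c 1 * q) • p + c 2 • (p * p)) / q ^ 6 := by
  have e : (c 0 * q ^ 2) • (1 : D) + (c 1 * q) • p + c 2 • (p * p) =
      q ^ 2 • (c 0 • (1 : D) + c 1 • y + c 2 • (y * y)) := by
    have hp : p = q • y := by rw [hy, smul_smul, mul_inv_cancel₀ hq, one_smul]
    rw [hp]
    simp only [smul_add, smul_mul_smul_comm, smul_smul]
    congr 1
    · congr 1
      · congr 1
        ring
      · congr 1
        ring
    · congr 1
      ring
  rw [e, C.N_smul]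
  field_simp

theorem locD_iff {y p : D} {q : K} (hq : q ≠ 0) (hy : y = q⁻¹ • p) {V : HeightOneSpectrum (𝓞 K)}
    {b : K} : LocD C y V b ↔ ∃ c : Fin 3 → K,
      V.valuation K (b * q ^ 6 - C.N ((c 0 * q ^ 2) • (1 : D) + (c 1 * q) • p + c 2 • (p * p))) <
        V.valuation K (9 : K) *
          V.valuation K (C.N ((c 0 * q ^ 2) • (1 : D) + (c 1 * q) • p + c 2 • (p * p))) := by
  rw [LocD]
  refine exists_congr fun c => ?_
  rw [locD_scaled C hq hy]
  set n := C.N ((c 0 * q ^ 2) • (1 : D) + (c 1 * q) • p + c 2 • (p * p)) with hn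
  by_cases hn0 : n = 0
  · rw [hn0]
    simp only [zero_div, div_zero, zero_sub, map_zero, mul_zero, Valuation.map_neg, map_one]
    have h9 : V.valuation K (9 : K) ≤ 1 := val_nat_le V 9
    constructor
    · intro h
      exact absurd h (not_lt.mpr h9)
    · intro h
      exact absurd h (not_lt.mpr zero_le)
  · have hnv : V.valuation K n ≠ 0 := (V.valuation K).ne_zero_iff.mpr hn0
    have e : b / (n / q ^ 6) - 1 = (b * q ^ 6 - n) / n := by
      field_simp
    rw [e, map_div₀, div_lt_iff₀ (zero_lt_iff.mpr hnv)]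

/-- The local condition is open. -/
theorem locD_open {p : (Fin m → k) → D} {q : (Fin m → k) → K} (hp : Pm p) (hq : Pm q)
    {V : HeightOneSpectrum (𝓞 K)} {v : HeightOneSpectrum (𝓞 k)} (hV : Ab V v) {a : Fin m → k}
    (hqa : q a ≠ 0) {b : K} (h : LocD C ((q a)⁻¹ • p a) V b) :
    ∃ γ : Z0, γ ≠ 0 ∧ ∀ x : Fin m → k, (∀ j, v.valuation k (x j - a j) < γ) →
      LocD C ((q x)⁻¹ • p x) V b := by
  rw [locD_iff C hqa rfl] at h
  obtain ⟨c, hc⟩ := h
  have h9 : V.valuation K (9 : K) ≠ 0 := (V.valuation K).ne_zero_iff.mpr (by norm_num)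
  have hQ : Pm fun x => C.N ((c 0 * q x ^ 2) • (1 : D) + (c 1 * q x) • p x +
      c 2 • (p x * p x)) := by
    refine Pm.N ?_
    exact ((((Pm.const (c 0)).mul (hq.pow 2)).smulA (Pm.const (1 : D))).add
      (((Pm.const (c 1)).mul hq).smulA hp)).add ((Pm.const (c 2)).smulA (hp.mul hp))
  have hP : Pm fun x => b * q x ^ 6 - C.N ((c 0 * q x ^ 2) • (1 : D) + (c 1 * q x) • p x +
      c 2 • (p x * p x)) := ((Pm.const b).mul (hq.pow 6)).sub hQ
  obtain ⟨γ, hγ, h1⟩ := hP.open_lt hQ hV h9 hc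
  have h2 : V.valuation K (0 : K) < 1 * V.valuation K (q a) := by
    rw [map_zero, one_mul]
    exact zero_lt_iff.mpr ((V.valuation K).ne_zero_iff.mpr hqa)
  obtain ⟨γ', hγ', h3⟩ := (Pm.const (k := k) (m := m) (0 : K)).open_lt hq hV one_ne_zero h2
  refine ⟨min γ γ', (lt_min (zero_lt_iff.mpr hγ) (zero_lt_iff.mpr hγ')).ne', fun x hx => ?_⟩
  have h4 := (h3 x fun j => (hx j).trans_le (min_le_right _ _)).2
  have hqx : q x ≠ 0 := by
    intro h0
    rw [map_zero, one_mul, h0, map_zero] at h4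
    exact lt_irrefl _ h4
  rw [locD_iff C hqx rfl]
  exact ⟨c, (h1 x fun j => (hx j).trans_le (min_le_left _ _)).2⟩

end locd

end Vale.Agent.P011.H487
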