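import Vale.Agent.P011.H487.Unb
import Vale.Agent.P011.Pow.CentT

/-!
The local data of the sieve at the places of the exceptional set.
-/

open NumberField IsDedekindDomain Module MvPolynomial

set_option linter.unusedSectionVars false

namespace Vale.Agent.P011.H487

open Vale.Agent.P011.H775 Vale.Agent.P011.H948
open Vale.Agent.P011.Arith Vale.Agent.P011.Even

section near

variable {k : Type} [Field k] [NumberField k] {m : ℕ}

/-- Something holds near the point `a` at `v`. -/
def Nea (v : HeightOneSpectrum (𝓞 k)) (a : Fin m → k) (P : (Fin m → k) → Prop) : Prop :=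
  ∃ γ : Z0, γ ≠ 0 ∧ ∀ x : Fin m → k, (∀ j, v.valuation k (x j - a j) < γ) → P x

theorem Nea.and {v : HeightOneSpectrum (𝓞 k)} {a : Fin m → k} {P Q : (Fin m → k) → Prop}
    (hP : Nea v a P) (hQ : Nea v a Q) : Nea v a fun x => P x ∧ Q x := by
  obtain ⟨γ, hγ, h1⟩ := hP
  obtain ⟨γ', hγ', h2⟩ := hQ
  exact ⟨min γ γ', (lt_min (zero_lt_iff.mpr hγ) (zero_lt_iff.mpr hγ')).ne', fun x hx =>
    ⟨h1 x fun j => (hx j).trans_le (min_le_left _ _),
      h2 x fun j => (hx j).trans_le (min_le_right _ _)⟩⟩

theorem Nea.mono {v : HeightOneSpectrum (𝓞 k)} {a : Fin m → k} {P Q : (Fin m → k) → Prop}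
    (hP : Nea v a P) (h : ∀ x, P x → Q x) : Nea v a Q := by
  obtain ⟨γ, hγ, h1⟩ := hP
  exact ⟨γ, hγ, fun x hx => h x (h1 x hx)⟩

theorem Nea.of {v : HeightOneSpectrum (𝓞 k)} {a : Fin m → k} {P : (Fin m → k) → Prop}
    (h : ∀ x, P x) : Nea v a P := ⟨1, one_ne_zero, fun x _ => h x⟩

theorem Nea.all {ι : Type} {S : Set ι} (hS : S.Finite) {v : HeightOneSpectrum (𝓞 k)}
    {a : Fin m → k} {P : ι → (Fin m → k) → Prop} (h : ∀ i ∈ S, Nea v a (P i)) :
    Nea v a fun x => ∀ i ∈ S, P i x := by
  induction S, hS using Set.Finite.induction_on with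
  | empty => exact Nea.of fun x i hi => absurd hi (Set.notMem_empty i)
  | @insert i S _ _ ih =>
    refine ((h i (Set.mem_insert _ _)).and (ih fun j hj => h j (Set.mem_insert_of_mem _ hj))).mono ?_
    rintro x ⟨h1, h2⟩ j hj
    rcases hj with rfl | hj
    · exact h1
    · exact h2 j hj

end near

section data

variable {k K D : Type} [Field k] [NumberField k] [Field K] [NumberField K] [StarRing K]
  [DivisionRing D] [StarRing D] [Algebra k K] [Algebra k D] [Algebra K D] [IsScalarTower k K D]
  {d : kˣ} {s : K} {N : ℕ}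

theorem zf_star_pm (hS : Setting k K D d s) {e : D} (he : e * star e = 1) :
    Pm (k := k) fun x => star (zf (k := k) s e x) := by
  have e1 : (fun x => star (zf (k := k) s e x)) = zf (-s) e⁻¹ := funext fun x => star_zf hS he x
  rw [e1]
  exact zf_pm _ _

theorem zf_comm_star (hS : Setting k K D d s) {e : D} (he : e * star e = 1)
    (x : Fin (3 + 3) → k) : Commute (zf s e x) (star (zf s e x)) := by
  rw [star_zf hS he]
  exact zf_commute ((zf_commute ((Commute.refl e).inv_right₀).symm x).symm) x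

theorem ph_pm (hS : Setting k K D d s) (C : Cub K D) {e : D} (he : e * star e = 1) (h : D) :
    Pm (k := k) fun x => ph C h (zf (k := k) s e x) := by
  have hz : Pm (k := k) (zf s e) := zf_pm s e
  have hzs := zf_star_pm hS he
  unfold ph nu
  exact Pm.T ((Pm.const h).mul ((hz.pow 3).mul ((Pm.adj hzs).pow 3)))

theorem nu_pm (hS : Setting k K D d s) (C : Cub K D) {e : D} (he : e * star e = 1) :
    Pm (k := k) fun x => nu C (zf (k := k) s e x) := by
  have hz : Pm (k := k) (zf s e) := zf_pm s e
  have hzs := zf_star_pm hS he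
  unfold nu
  exact (hz.pow 3).mul ((Pm.adj hzs).pow 3)

theorem de_pm (hS : Setting k K D d s) (C : Cub K D) {e : D} (he : e * star e = 1) :
    Pm (k := k) fun x => de C (zf (k := k) s e x) := by
  have hz : Pm (k := k) (zf s e) := zf_pm s e
  have hzs := zf_star_pm hS he
  unfold de
  exact (Pm.N hz).mul ((Pm.N hzs).pow 2)

theorem de_star_pm (hS : Setting k K D d s) (C : Cub K D) {e : D} (he : e * star e = 1) :
    Pm (k := k) fun x => de C (star (zf (k := k) s e x)) := by
  have hz : Pm (k := k) (zf s e) := zf_pm s e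
  have hzs := zf_star_pm hS he
  unfold de
  simp only [star_star]
  exact (Pm.N hzs).mul ((Pm.N hz).pow 2)

theorem ph_star_pm (hS : Setting k K D d s) (C : Cub K D) {e : D} (he : e * star e = 1) (h : D) :
    Pm (k := k) fun x => ph C h (star (zf (k := k) s e x)) := by
  have hz : Pm (k := k) (zf s e) := zf_pm s e
  have hzs := zf_star_pm hS he
  unfold ph nu
  simp only [star_star]
  exact Pm.T ((Pm.const h).mul ((hzs.pow 3).mul ((Pm.adj hz).pow 3)))

theorem exists_starA (hS : Setting k K D d s) : ∃ σ : K ≃ₐ[k] K, ∀ x, σ x = star x := by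
  refine ⟨{ (starRingAut : K ≃+* K) with commutes' := fun c => ?_ }, fun x => rfl⟩
  exact (hS.fix _).mpr ⟨c, rfl⟩

theorem tz_one (C : Cub K D) : tz C (1 : D) = 1 := by
  rw [tz, de, nu, star_one, C.N_one, C.adj_one]
  simp

/-- Near one. -/
theorem nea_one (hS : Setting k K D d s) (hdeg : finrank K D = 3 ^ 2) (C : Cub K D)
    (B : Basis (Fin N) k D) {e : D} (he : e * star e = 1) {a : Fin (3 + 3) → k}
    (ha : zf s e a = 1) (v : HeightOneSpectrum (𝓞 k)) {ε : ℝ} (hε : 0 < ε) :
    Nea v a fun x => Even.nm B (.inl v) (tz C (zf s e x) - 1) < ε := by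
  have hfin := hS.fin
  have hcen := hS.cen
  have hC : SCub C := sCub_of C hdeg hS.star_smul
  obtain ⟨V, hV⟩ := exists_above (E := K) v
  obtain ⟨i, hi, hv⟩ := val_above (E := K) hV
  have hF : Pm (k := k) fun x => de C (star (zf (k := k) s e x)) •
      (nu C (zf (k := k) s e x) - de C (zf (k := k) s e x) • (1 : D)) :=
    (de_star_pm hS C he).smulA ((nu_pm hS C he).sub ((de_pm hS C he).smulA (Pm.const (1 : D))))
  have hm : Pm (k := k) fun x => de C (zf (k := k) s e x) * de C (star (zf (k := k) s e x)) :=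
    (de_pm hS C he).mul (de_star_pm hS C he)
  have hFa : de C (star (zf (k := k) s e a)) •
      (nu C (zf (k := k) s e a) - de C (zf (k := k) s e a) • (1 : D)) = 0 := by
    simp only [ha, star_one, de, nu, C.N_one, C.adj_one, one_pow, mul_one, one_smul, sub_self]
  have hma : de C (zf (k := k) s e a) * de C (star (zf (k := k) s e a)) = 1 := by
    simp only [ha, star_one, de, C.N_one, one_pow, mul_one]
  obtain ⟨γ, hγ, h1⟩ := hF.cont_nm B v a ε hε
  obtain ⟨γ', hγ', h2⟩ := hm.cont_val hV a 1 one_ne_zero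
  refine Nea.mono (Nea.and (P := fun x => Even.nm B (.inl v) (de C (star (zf (k := k) s e x)) •
      (nu C (zf (k := k) s e x) - de C (zf (k := k) s e x) • (1 : D))) < ε)
    (Q := fun x => V.valuation K (de C (zf (k := k) s e x) * de C (star (zf (k := k) s e x)) - 1) < 1)
    ⟨γ, hγ, fun x hx => ?_⟩ ⟨γ', hγ', fun x hx => ?_⟩) ?_
  · have := h1 x hx
    rwa [hFa, sub_zero] at this
  · have := h2 x hx
    rwa [hma] at this
  · rintro x ⟨h3, h4⟩
    have h5 : V.valuation K (de C (zf (k := k) s e x) * de C (star (zf (k := k) s e x))) = 1 := by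
      have e1 : de C (zf (k := k) s e x) * de C (star (zf (k := k) s e x)) =
          1 + (de C (zf (k := k) s e x) * de C (star (zf (k := k) s e x)) - 1) := by ring
      rw [e1, (V.valuation K).map_add_eq_of_lt_left (by rwa [map_one]), map_one]
    obtain ⟨m, hmk⟩ := (hS.fix (de C (zf (k := k) s e x) *
      de C (star (zf (k := k) s e x)))).mp (by
        rw [star_mul', star_de C hC, star_de C hC, star_star, mul_comm])
    have hm1 : v.valuation k m = 1 := by
      rw [← hmk, hv] at h5
      exact (pow_eq_one_iff_of_nonneg zero_le hi).mp h5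
    have hm0 : m ≠ 0 := by
      rintro rfl
      rw [map_zero] at hm1
      exact zero_ne_one hm1
    have hde : de C (zf (k := k) s e x) ≠ 0 := by
      intro h0
      rw [h0, zero_mul, map_zero] at h5
      exact zero_ne_one h5
    have hpl : plAbv (.inl v : Pl k) m⁻¹ ≤ 1 := by
      rw [H182.plAbv_le_one, map_inv₀, hm1, inv_one]
    have e2 : tz C (zf s e x) - 1 = m⁻¹ • (de C (star (zf (k := k) s e x)) •
        (nu C (zf (k := k) s e x) - de C (zf (k := k) s e x) • (1 : D))) := by
      rw [← algebraMap_smul K m⁻¹, map_inv₀, hmk, tz, smul_smul, smul_sub, smul_smul]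
      have hds : de C (star (zf (k := k) s e x)) ≠ 0 := by
        intro h0
        rw [h0, mul_zero, map_zero] at h5
        exact zero_ne_one h5
      congr 1
      · congr 1
        field_simp
      · rw [show (de C (zf s e x) * de C (star (zf s e x)))⁻¹ * de C (star (zf s e x)) *
          de C (zf s e x) = 1 by field_simp, one_smul]
    rw [e2]
    change H182.na B (plAbv (.inl v : Pl k)) _ < ε
    rw [H182.na_smul]
    refine (mul_le_of_le_one_left (H182.na_nonneg _ _ _) hpl).trans_lt ?_
    exact h3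

/-- Near one the translate stays good. -/
theorem nea_good (hS : Setting k K D d s) (C : Cub K D) {e x : D} (he : e * star e = 1)
    {a : Fin (3 + 3) → k} (ha : zf s e a = 1) {v : HeightOneSpectrum (𝓞 k)}
    {V : HeightOneSpectrum (𝓞 K)} (hV : Ab V v) {b : K} (h : LocD C x V b) :
    Nea v a fun y => LocD C (x * tz C (zf s e y)) V b := by
  have hp : Pm (k := k) fun y => x * nu C (zf (k := k) s e y) := (Pm.const x).mul (nu_pm hS C he)
  have hq := de_pm hS C he
  have hqa : de C (zf (k := k) s e a) = 1 := by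
    simp only [ha, de, star_one, C.N_one, one_pow, mul_one]
  have h1 : LocD C ((de C (zf (k := k) s e a))⁻¹ • (x * nu C (zf (k := k) s e a))) V b := by
    have e1 : (de C (zf (k := k) s e a))⁻¹ • (x * nu C (zf (k := k) s e a)) = x := by
      rw [hqa]
      simp only [ha, nu, star_one, C.adj_one, one_pow, mul_one, inv_one, one_smul]
    rw [e1]
    exact h
  obtain ⟨γ, hγ, h2⟩ := locD_open C hp hq hV (by rw [hqa]; exact one_ne_zero) h1
  refine ⟨γ, hγ, fun y hy => ?_⟩
  have h3 := h2 y hy
  rwa [← mul_smul_comm] at h3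

/-- Near a point with a large trace. -/
theorem nea_large (hS : Setting k K D d s) (hdeg : finrank K D = 3 ^ 2) (C : Cub K D) {e x : D}
    (hx : x * star x = 1) (hxN : C.N x = 1) (he : e * star e = 1) {a : Fin (3 + 3) → k}
    (ha0 : zf s e a ≠ 0) {v : HeightOneSpectrum (𝓞 k)} {V₀ : HeightOneSpectrum (𝓞 K)}
    (hV₀ : Ab V₀ v) (hT : 1 < V₀.valuation K (C.T (x * tz C (zf s e a)))) :
    Nea v a fun y => zf s e y ≠ 0 → ∀ V : HeightOneSpectrum (𝓞 K), Ab V v →
      1 < V.valuation K (C.T (x * tz C (zf s e y))) ∨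
        1 < V.valuation K (C.S (x * tz C (zf s e y))) := by
  have hfin := hS.fin
  have hcen := hS.cen
  have hC : SCub C := sCub_of C hdeg hS.star_smul
  obtain ⟨σ, hσ⟩ := exists_starA hS
  have h1 : V₀.valuation K (de C (zf (k := k) s e a)) <
      1 * V₀.valuation K (ph C x (zf (k := k) s e a)) := by
    rw [T_tz, map_div₀, lt_div_iff₀ (zero_lt_iff.mpr ((V₀.valuation K).ne_zero_iff.mpr
      (de_ne_zero C ha0))), one_mul] at hT
    rw [one_mul]
    exact hT
  obtain ⟨γ, hγ, h2⟩ := (de_pm hS C he).open_lt (ph_pm hS C he x) hV₀ one_ne_zero h1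
  refine ⟨γ, hγ, fun y hy hy0 V hV => ?_⟩
  have h3 := (h2 y hy).2
  rw [one_mul] at h3
  have h4 : 1 < V₀.valuation K (C.T (x * tz C (zf s e y))) := by
    rw [T_tz, map_div₀, lt_div_iff₀ (zero_lt_iff.mpr ((V₀.valuation K).ne_zero_iff.mpr
      (de_ne_zero C hy0))), one_mul]
    exact h3
  have hc := zf_comm_star hS he y
  have hyN : C.N (x * tz C (zf s e y)) = 1 := by rw [C.N_mul, hxN, tz_norm C hy0, one_mul]
  have hyU : x * tz C (zf s e y) * star (x * tz C (zf s e y)) = 1 := by
    rw [star_mul, mul_assoc, ← mul_assoc (tz C (zf s e y)), tz_unitary C hC hy0 hc, one_mul, hx]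
  rcases conj_transitive hS.rank hS.ns hS.sq (by rw [hσ, hS.star_s]) hV₀ hV with h5 | h5
  · rw [h5]
    exact Or.inl h4
  · right
    rw [S_of_unitary C hC hyU hyN, ← hσ, h5]
    exact h4

end data

end Vale.Agent.P011.H487
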