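import Vale.Agent.P011.H487.LocD
import Vale.Agent.P011.H182.Nma
import Vale.Agent.P011.Pow.Av

/-!
Polynomial maps from `k ^ m` to a `k`-module, their continuity and integrality.
-/

open NumberField IsDedekindDomain Module MvPolynomial

set_option linter.unusedSectionVars false

namespace Vale.Agent.P011.H487

open Vale.Agent.P011.Arith Vale.Agent.P011.Even Vale.Agent.P011.Two Vale.Agent.P011.One
  Vale.Agent.P011.H182 Vale.Agent.P011.H321.Avoid

section pm

variable {k : Type} [Field k] {m : ℕ} {W W' W'' : Type} [AddCommGroup W] [Module k W]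
  [AddCommGroup W'] [Module k W'] [AddCommGroup W''] [Module k W'']

/-- The polynomial maps. -/
def Pm (F : (Fin m → k) → W) : Prop :=
  F ∈ AddSubmonoid.closure {F : (Fin m → k) → W | ∃ (p : MvPolynomial (Fin m) k) (w : W),
    F = fun x => eval x p • w}

theorem Pm.gen (p : MvPolynomial (Fin m) k) (w : W) : Pm fun x => eval x p • w :=
  AddSubmonoid.subset_closure ⟨p, w, rfl⟩

theorem Pm.const (w : W) : Pm (fun _ : Fin m → k => w) := by
  have := Pm.gen (m := m) (1 : MvPolynomial (Fin m) k) w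
  simpa using this

theorem Pm.coord (i : Fin m) (w : W) : Pm (fun x : Fin m → k => x i • w) := by
  have := Pm.gen (m := m) (X i : MvPolynomial (Fin m) k) w
  simpa using this

theorem Pm.add {F G : (Fin m → k) → W} (hF : Pm F) (hG : Pm G) : Pm fun x => F x + G x :=
  AddSubmonoid.add_mem _ hF hG

/-- Induction. -/
theorem Pm.ind {P : ((Fin m → k) → W) → Prop} (h1 : ∀ p w, P fun x => eval x p • w)
    (h2 : ∀ F G, Pm F → Pm G → P F → P G → P fun x => F x + G x) {F : (Fin m → k) → W}
    (hF : Pm F) : P F := by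
  induction hF using AddSubmonoid.closure_induction with
  | mem F hF =>
    obtain ⟨p, w, rfl⟩ := hF
    exact h1 p w
  | zero =>
    have := h1 0 0
    simp only [smul_zero] at this
    exact this
  | add F G hF hG h3 h4 => exact h2 F G hF hG h3 h4

theorem Pm.lin (L : W →ₗ[k] W') {F : (Fin m → k) → W} (hF : Pm F) : Pm fun x => L (F x) := by
  refine Pm.ind (P := fun F => Pm fun x => L (F x)) (fun p w => ?_) (fun F G _ _ h3 h4 => ?_) hF
  · have := Pm.gen p (L w)
    simpa using this
  · have := h3.add h4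
    simpa using this

theorem Pm.neg {F : (Fin m → k) → W} (hF : Pm F) : Pm fun x => -F x := by
  have := hF.lin (-LinearMap.id)
  simpa using this

theorem Pm.sub {F G : (Fin m → k) → W} (hF : Pm F) (hG : Pm G) : Pm fun x => F x - G x := by
  have := hF.add hG.neg
  simpa [sub_eq_add_neg] using this

theorem Pm.bil (β : W →ₗ[k] W' →ₗ[k] W'') {F : (Fin m → k) → W} (hF : Pm F)
    {G : (Fin m → k) → W'} (hG : Pm G) : Pm fun x => β (F x) (G x) := by
  refine Pm.ind (P := fun F => Pm fun x => β (F x) (G x)) (fun p w => ?_)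
    (fun F F' _ _ h3 h4 => ?_) hF
  · refine Pm.ind (P := fun G => Pm fun x => β (eval x p • w) (G x)) (fun q w' => ?_)
      (fun G G' _ _ h3 h4 => ?_) hG
    · have := Pm.gen (q * p) (β w w')
      simpa [mul_smul] using this
    · have := h3.add h4
      simpa using this
  · have := h3.add h4
    simpa using this

theorem Pm.mul {A : Type} [Ring A] [Algebra k A] {F G : (Fin m → k) → A} (hF : Pm F) (hG : Pm G) :
    Pm fun x => F x * G x := hF.bil (LinearMap.mul k A) hG

theorem Pm.pow {A : Type} [Ring A] [Algebra k A] {F : (Fin m → k) → A} (hF : Pm F) (n : ℕ) :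
    Pm fun x => F x ^ n := by
  induction n with
  | zero => simpa using Pm.const (m := m) (k := k) (1 : A)
  | succ n ih =>
    have := ih.mul hF
    simpa [pow_succ] using this

theorem Pm.smulA {A B : Type} [CommRing A] [Ring B] [Algebra k A] [Algebra k B] [Algebra A B]
    [IsScalarTower k A B] {F : (Fin m → k) → A} {G : (Fin m → k) → B} (hF : Pm F) (hG : Pm G) :
    Pm fun x => F x • G x :=
  hF.bil (Algebra.lsmul k k B : A →ₐ[k] Module.End k B).toLinearMap hG

theorem Pm.sum {ι : Type} (s : Finset ι) {F : ι → (Fin m → k) → W} (hF : ∀ i ∈ s, Pm (F i)) :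
    Pm fun x => ∑ i ∈ s, F i x := by
  classical
  induction s using Finset.induction_on with
  | empty => simpa using Pm.const (m := m) (k := k) (0 : W)
  | insert i s hi ih =>
    have := (hF i (Finset.mem_insert_self _ _)).add
      (ih fun j hj => hF j (Finset.mem_insert_of_mem hj))
    simpa [Finset.sum_insert hi] using this

/-- A polynomial map with values in `k` is a polynomial. -/
theorem Pm.exists_poly {F : (Fin m → k) → k} (hF : Pm F) :
    ∃ P : MvPolynomial (Fin m) k, ∀ x, F x = eval x P := by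
  refine Pm.ind (P := fun F : (Fin m → k) → k => ∃ P : MvPolynomial (Fin m) k, ∀ x, F x = eval x P)
    (fun p w => ⟨p * C w, fun x => by simp⟩) (fun F G _ _ h3 h4 => ?_) hF
  obtain ⟨P, hP⟩ := h3
  obtain ⟨Q, hQ⟩ := h4
  exact ⟨P + Q, fun x => by simp only [map_add, hP, hQ]⟩

end pm

section nf

variable {k K D : Type} [Field k] [NumberField k] [Field K] [NumberField K] [Algebra k K]
  {m N : ℕ}

/-- Continuity of a polynomial map with values in `D`. -/
theorem Pm.cont_nm [DivisionRing D] [Algebra k D] (B : Basis (Fin N) k D)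
    {F : (Fin m → k) → D} (hF : Pm F) (v : HeightOneSpectrum (𝓞 k)) (a : Fin m → k) :
    ∀ ε : ℝ, 0 < ε → ∃ γ : Z0, γ ≠ 0 ∧ ∀ x : Fin m → k, (∀ j, v.valuation k (x j - a j) < γ) →
      Even.nm B (.inl v) (F x - F a) < ε := by
  refine Pm.ind (P := fun F : (Fin m → k) → D => ∀ ε : ℝ, 0 < ε → ∃ γ : Z0, γ ≠ 0 ∧
    ∀ x : Fin m → k, (∀ j, v.valuation k (x j - a j) < γ) →
      Even.nm B (.inl v) (F x - F a) < ε) (fun p w ε hε => ?_) (fun F G _ _ h3 h4 ε hε => ?_) hF
  · have h0 : 0 ≤ na B (plAbv (.inl v : Pl k)) w := na_nonneg _ _ _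
    obtain ⟨γ, hγ, h1⟩ := Pow.exists_gamma v (ε := ε / (na B (plAbv (.inl v : Pl k)) w + 1))
      (by positivity)
    obtain ⟨δ, hδ, h2⟩ := eval_close (v.valuation k) p a γ hγ
    refine ⟨δ, hδ, fun x hx => ?_⟩
    have h3 := h1 _ (h2 x hx)
    change na B (plAbv (.inl v : Pl k)) (eval x p • w - eval a p • w) < ε
    rw [← sub_smul, na_smul]
    rw [lt_div_iff₀ (by positivity)] at h3
    refine lt_of_le_of_lt ?_ h3
    exact mul_le_mul_of_nonneg_left (by linarith) (AbsoluteValue.nonneg _ _)
  · obtain ⟨γ, hγ, h1⟩ := h3 (ε / 2) (by positivity)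
    obtain ⟨γ', hγ', h2⟩ := h4 (ε / 2) (by positivity)
    refine ⟨min γ γ', (lt_min (zero_lt_iff.mpr hγ) (zero_lt_iff.mpr hγ')).ne', fun x hx => ?_⟩
    have e : F x + G x - (F a + G a) = (F x - F a) + (G x - G a) := by abel
    change na B (plAbv (.inl v : Pl k)) _ < ε
    rw [e]
    have h5 := h1 x fun j => (hx j).trans_le (min_le_left _ _)
    have h6 := h2 x fun j => (hx j).trans_le (min_le_right _ _)
    refine (na_add_le _ _ _ _).trans_lt ?_
    change na B (plAbv (.inl v : Pl k)) _ < _ at h5 h6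
    linarith

/-- Continuity of a polynomial map with values in `K`. -/
theorem Pm.cont_val {F : (Fin m → k) → K} (hF : Pm F) {V : HeightOneSpectrum (𝓞 K)}
    {v : HeightOneSpectrum (𝓞 k)} (hV : Ab V v) (a : Fin m → k) :
    ∀ ε : Z0, ε ≠ 0 → ∃ γ : Z0, γ ≠ 0 ∧ ∀ x : Fin m → k, (∀ j, v.valuation k (x j - a j) < γ) →
      V.valuation K (F x - F a) < ε := by
  obtain ⟨e, he, hv⟩ := val_above (E := K) hV
  refine Pm.ind (P := fun F : (Fin m → k) → K => ∀ ε : Z0, ε ≠ 0 → ∃ γ : Z0, γ ≠ 0 ∧
    ∀ x : Fin m → k, (∀ j, v.valuation k (x j - a j) < γ) →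
      V.valuation K (F x - F a) < ε) (fun p w ε hε => ?_) (fun F G _ _ h3 h4 ε hε => ?_) hF
  · by_cases hw : w = 0
    · subst hw
      exact ⟨1, one_ne_zero, fun x _ => by simpa using zero_lt_iff.mpr hε⟩
    have hw0 : V.valuation K w ≠ 0 := (V.valuation K).ne_zero_iff.mpr hw
    obtain ⟨δ, hδ, h2⟩ := eval_close (v.valuation k) p a (min 1 (ε / V.valuation K w))
      (lt_min zero_lt_one (zero_lt_iff.mpr (div_ne_zero hε hw0))).ne'
    refine ⟨δ, hδ, fun x hx => ?_⟩
    have h3 := h2 x hx
    rw [← sub_smul, Algebra.smul_def, map_mul, hv]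
    have h4 : v.valuation k (eval x p - eval a p) ^ e ≤ v.valuation k (eval x p - eval a p) := by
      conv_rhs => rw [← pow_one (v.valuation k (eval x p - eval a p))]
      exact pow_le_pow_right_of_le_one' (h3.le.trans (min_le_left _ _)) (Nat.one_le_iff_ne_zero.mpr he)
    calc v.valuation k (eval x p - eval a p) ^ e * V.valuation K w
        ≤ v.valuation k (eval x p - eval a p) * V.valuation K w := mul_le_mul_left h4 _
      _ < ε := by
        rw [← lt_div_iff₀ (zero_lt_iff.mpr hw0)]
        exact h3.trans_le (min_le_right _ _)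
  · obtain ⟨γ, hγ, h1⟩ := h3 ε hε
    obtain ⟨γ', hγ', h2⟩ := h4 ε hε
    refine ⟨min γ γ', (lt_min (zero_lt_iff.mpr hγ) (zero_lt_iff.mpr hγ')).ne', fun x hx => ?_⟩
    have e : F x + G x - (F a + G a) = (F x - F a) + (G x - G a) := by abel
    rw [e]
    exact (V.valuation K).map_add_lt (h1 x fun j => (hx j).trans_le (min_le_left _ _))
      (h2 x fun j => (hx j).trans_le (min_le_right _ _))

/-- An element of `K` is integral above almost all places. -/
theorem finite_nonint (w : K) : {v : HeightOneSpectrum (𝓞 k) | ∃ V : HeightOneSpectrum (𝓞 K),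
    Ab V v ∧ 1 < V.valuation K w}.Finite := by
  have h1 : {V : HeightOneSpectrum (𝓞 K) | 1 < V.valuation K w}.Finite := by
    by_cases hw : w = 0
    · subst hw
      simp
    · refine (hos_finite (R := 𝓞 K) hw).subset fun V hV => ?_
      exact (ne_of_gt hV)
  choose bl hbl using fun V : HeightOneSpectrum (𝓞 K) => exists_below (F := k) V
  refine (h1.image bl).subset ?_
  rintro v ⟨V, hV, h2⟩
  exact ⟨V, h2, (below_unique hV (hbl V)).symm⟩

/-- Integrality of a polynomial map with values in `K`. -/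
theorem Pm.int {F : (Fin m → k) → K} (hF : Pm F) : {v : HeightOneSpectrum (𝓞 k) |
    ∃ V : HeightOneSpectrum (𝓞 K), Ab V v ∧ ∃ x : Fin m → k, (∀ j, v.valuation k (x j) ≤ 1) ∧
      1 < V.valuation K (F x)}.Finite := by
  refine Pm.ind (P := fun F : (Fin m → k) → K => {v : HeightOneSpectrum (𝓞 k) |
    ∃ V : HeightOneSpectrum (𝓞 K), Ab V v ∧ ∃ x : Fin m → k, (∀ j, v.valuation k (x j) ≤ 1) ∧
      1 < V.valuation K (F x)}.Finite) (fun p w => ?_) (fun F G _ _ h3 h4 => ?_) hF
  · refine ((bad_finite (R := 𝓞 k) p).union (finite_nonint (k := k) w)).subset ?_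
    rintro v ⟨V, hV, x, hx, h1⟩
    by_contra hcon
    rw [Set.mem_union, not_or] at hcon
    obtain ⟨h2, h3⟩ := hcon
    simp only [Set.mem_ofPred_eq, not_exists, not_and, not_lt] at h2 h3
    refine absurd h1 (not_lt.mpr ?_)
    obtain ⟨e, he, hv⟩ := val_above (E := K) hV
    simp only [Algebra.smul_def, map_mul, hv]
    exact mul_le_one' (pow_le_one' (eval_int _ p h2 x hx) _) (h3 V hV)
  · refine (h3.union h4).subset ?_
    rintro v ⟨V, hV, x, hx, h1⟩
    by_contra hcon
    rw [Set.mem_union, not_or] at hcon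
    obtain ⟨h2, h3⟩ := hcon
    simp only [Set.mem_ofPred_eq, not_exists, not_and, not_lt] at h2 h3
    exact absurd h1 (not_lt.mpr ((V.valuation K).map_add_le (h2 V hV x hx) (h3 V hV x hx)))

end nf

end Vale.Agent.P011.H487
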