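import Vale.Agent.P011.H487.LocPt
import Vale.Agent.P011.H872.FinD

/-!
**The sieve**: every special unitary element becomes good for `b` after multiplication with an
element, close to one at the places of `Tdiv`, of a torus which is large at the bad places.
-/

open NumberField IsDedekindDomain Module MvPolynomial

set_option linter.unusedSectionVars false

namespace Vale.Agent.P011.H487

open Vale.Agent.P011.H775 Vale.Agent.P011.H948
open Vale.Agent.P011.Arith Vale.Agent.P011.Even Vale.Agent.P011.Two Vale.Agent.P011.One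

variable {k K D : Type} [Field k] [NumberField k] [Field K] [NumberField K] [StarRing K]
  [DivisionRing D] [StarRing D] [Algebra k K] [Algebra k D] [Algebra K D] [IsScalarTower k K D]
  {d : kˣ} {s : K} {N : ℕ}

theorem s1a_of (C : Cub K D) : S1a C := fun _ V _ hy h3 hT hSS hNN hb hc =>
  H373.locD_notcube' C hy V h3 hT hSS hNN.le hc hb

theorem s1b_of (C : Cub K D) : S1b C := fun _ V _ hy hN h hb => H373.locD_large C hy V hN h hb

/-- An element of `K` is a unit above almost all places. -/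
theorem finite_nonunit (k : Type) [Field k] [NumberField k] [Algebra k K] {w : K} (hw : w ≠ 0) :
    {v : HeightOneSpectrum (𝓞 k) | ∃ V : HeightOneSpectrum (𝓞 K),
      Ab V v ∧ V.valuation K w ≠ 1}.Finite := by
  have h1 : {V : HeightOneSpectrum (𝓞 K) | V.valuation K w ≠ 1}.Finite :=
    H321.Avoid.hos_finite (R := 𝓞 K) hw
  choose bl hbl using fun V : HeightOneSpectrum (𝓞 K) => exists_below (F := k) V
  refine (h1.image bl).subset ?_
  rintro v ⟨V, hV, h2⟩
  exact ⟨V, h2, (below_unique hV (hbl V)).symm⟩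

theorem finite_below (k : Type) [Field k] [NumberField k] [Algebra k K]
    {S : Set (HeightOneSpectrum (𝓞 K))} (hS : S.Finite) :
    {v : HeightOneSpectrum (𝓞 k) | ∃ V : HeightOneSpectrum (𝓞 K), Ab V v ∧ V ∈ S}.Finite := by
  choose bl hbl using fun V : HeightOneSpectrum (𝓞 K) => exists_below (F := k) V
  refine (hS.image bl).subset ?_
  rintro v ⟨V, hV, h2⟩
  exact ⟨V, h2, (below_unique hV (hbl V)).symm⟩

/-- **The sieve.** -/
theorem sieve (hS : Setting k K D d s) (hdeg : finrank K D = 3 ^ 2) (C : Cub K D)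
    (B : Basis (Fin N) k D) (hL : Large C) {x e : D} (hx : x * star x = 1) (hxN : C.N x = 1)
    (hxc : ∀ c : K, x ≠ c • (1 : D)) (he : e * star e = 1) (hec : ∀ c : K, e ≠ c • (1 : D))
    {b : K} (hb : b ≠ 0) (hbad : ∀ V : HeightOneSpectrum (𝓞 K), ¬ LocD C x V b → Un C V e ∧
      ∀ v, Ab V v → (Sum.inl v : Pl k) ∉ Tdiv k K D) {ε : ℝ} (hε : 0 < ε) :
    ∃ t : D, t * star t = 1 ∧ C.N t = 1 ∧ Commute e t ∧
      (∀ p ∈ Tdiv k K D, Even.nm B p (t - 1) < ε) ∧ (∀ c : K, x * t ≠ c • (1 : D)) ∧
      ∀ V, LocD C (x * t) V b := by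
  classical
  have hfin := hS.fin
  have hcen := hS.cen
  have hC : SCub C := sCub_of C hdeg hS.star_smul
  have hs0 : s ≠ 0 := Pow.s_ne_zero hS
  have hTf : (Tdiv k K D).Finite := Pow.tdiv_finite (n := 3) (by norm_num) hdeg
  have hT0 : C.T x ≠ 0 := T_ne_zero C hC hx hxN hxc
  have hec' : e ∉ Set.range (algebraMap K D) := by
    rintro ⟨c, rfl⟩
    exact hec c (Algebra.algebraMap_eq_smul_one c)
  have hst : ∀ c : k, star (algebraMap k K c) = algebraMap k K c := fun c =>
    (hS.fix _).mpr ⟨c, rfl⟩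
  obtain ⟨P, hP, ⟨i₀, hi₀⟩, hcop⟩ := exists_poly hS hdeg C hx hxN hxc he hec'
  obtain ⟨x₀, hx₀⟩ : ∃ x₀ : Fin (3 + 3) → k, eval x₀ (P i₀) ≠ 0 := by
    by_contra hcon
    push Not at hcon
    exact hi₀ (MvPolynomial.funext fun y => by rw [hcon y, map_zero])
  -- the exceptional sets
  have hz : Pm (k := k) (zf s e) := zf_pm s e
  have hF1 := (Pm.N (C := C) hz).int
  have hF2 := (Pm.N (C := C) (zf_star_pm hS he)).int
  have hF3 := (ph_pm hS C he x).int
  have hF4 := (ph_star_pm hS C he (star x)).int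
  have hU3 := finite_nonunit (K := K) k (w := 3) three_ne_zero
  have hU2 := finite_nonunit (K := K) k (w := 2) two_ne_zero
  have hUs := finite_nonunit (K := K) k hs0
  have hUb := finite_nonunit (K := K) k hb
  have hS3 : {v : HeightOneSpectrum (𝓞 k) | (Sum.inl v : Pl k) ∈ Tdiv k K D}.Finite :=
    hTf.preimage Sum.inl_injective.injOn
  have hS4 := finite_below k (H872.fin_locD C hxc hb)
  have hS5 : {v : HeightOneSpectrum (𝓞 k) | ∃ j, 1 < v.valuation k (x₀ j)}.Finite := by
    have : {v : HeightOneSpectrum (𝓞 k) | ∃ j, 1 < v.valuation k (x₀ j)} =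
        ⋃ j, {v | 1 < v.valuation k (x₀ j)} := by
      ext v
      simp
    rw [this]
    refine Set.finite_iUnion fun j => ?_
    by_cases hj : x₀ j = 0
    · simp [hj]
    · exact (H321.Avoid.hos_finite (R := 𝓞 k) hj).subset fun v hv => ne_of_gt hv
  have hS6 : {v : HeightOneSpectrum (𝓞 k) | v.valuation k (eval x₀ (P i₀)) ≠ 1}.Finite :=
    H321.Avoid.hos_finite (R := 𝓞 k) hx₀
  have hall := ((((((((((hF1.union hF2).union hF3).union hF4).union hU3).union hU2).union hUs).union
    hUb).union hS3).union hS4).union hS5).union hS6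
  set T : Finset (HeightOneSpectrum (𝓞 k)) := hall.toFinset with hT
  -- the local data
  have hone : ∃ a : Fin (3 + 3) → k, zf s e a = 1 := zf_surj hS (In.one e)
  obtain ⟨a₁, ha₁⟩ := hone
  have hloc : ∀ v : HeightOneSpectrum (𝓞 k), ∃ a : Fin (3 + 3) → k, Nea v a fun y =>
      ((Sum.inl v : Pl k) ∈ Tdiv k K D → Even.nm B (.inl v) (tz C (zf s e y) - 1) < ε) ∧
      (zf s e y ≠ 0 → (∀ c : K, x * tz C (zf s e y) ≠ c • (1 : D)) →
        ∀ V : HeightOneSpectrum (𝓞 K), Ab V v → LocD C (x * tz C (zf s e y)) V b) := by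
    intro v
    by_cases hv : ∃ V : HeightOneSpectrum (𝓞 K), Ab V v ∧ ¬ LocD C x V b
    · obtain ⟨V₀, hV₀, hbV⟩ := hv
      obtain ⟨hun, hnd⟩ := hbad V₀ hbV
      obtain ⟨z, hz0, hzIn, hzT⟩ := exists_pt C hC hL (x := x) hT0 he hun
      obtain ⟨a, ha⟩ := zf_surj hS hzIn
      rw [← ha] at hz0 hzT
      refine ⟨a, (nea_large hS hdeg C hx hxN he hz0 hV₀ hzT).mono fun y hy => ⟨fun h =>
        absurd h (hnd v hV₀), fun hy0 hyc V hV => ?_⟩⟩
      refine H373.locD_large C hyc V ?_ (hy hy0 V hV) hb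
      rw [C.N_mul, hxN, tz_norm C hy0, one_mul]
    · push Not at hv
      refine ⟨a₁, Nea.mono (Nea.and (nea_one hS hdeg C B he ha₁ v hε)
        (Nea.all (above_finite v) fun V hV => nea_good hS C he ha₁ hV (hv V hV))) ?_⟩
      rintro y ⟨h1, h2⟩
      exact ⟨fun _ => h1, fun _ _ V hV => h2 V hV⟩
  choose a ha using hloc
  choose γ hγ hnea using ha
  -- the point
  obtain ⟨y, hy1, hy2, hy3, hy4⟩ := H321.Avoid.avoid_nf (3 + 3) P hcop (P i₀) hi₀ T a γ
    (fun v _ => hγ v) (by
      intro v hv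
      rw [hT, Set.Finite.mem_toFinset] at hv
      simp only [Set.mem_union, not_or, Set.mem_ofPred_eq, not_exists, not_lt, not_not] at hv
      exact ⟨x₀, hv.1.2, i₀, hv.2.ge⟩)
  obtain ⟨hg1, hg2⟩ := hP y
  have hgne : gg C x (zf s e y) ≠ 0 := by
    intro h0
    have hc := zf_comm_star hS he y
    have h1 : gg C (star x) (star (zf s e y)) = 0 := by
      rw [← star_gg C hC x hc, h0, star_zero]
    rw [h0] at hg1
    rw [h1] at hg2
    have e0 : algebraMap k K (eval y (P 0)) = 0 := by
      have : (2 : K) * algebraMap k K (eval y (P 0)) = 0 := by linear_combination -hg1 - hg2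
      rcases mul_eq_zero.mp this with h | h
      · exact absurd h two_ne_zero
      · exact h
    have e1 : algebraMap k K (eval y (P 1)) = 0 := by
      rw [e0, zero_add] at hg1
      rcases mul_eq_zero.mp hg1.symm with h | h
      · exact absurd h hs0
      · exact h
    rw [map_eq_zero] at e0 e1
    apply hy4
    fin_cases i₀
    · exact e0
    · exact e1
  have hz0 : zf s e y ≠ 0 := by
    intro h0
    apply hgne
    rw [h0, gg_zero]
  have hyc : ∀ c : K, x * tz C (zf s e y) ≠ c • (1 : D) := fun c hc =>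
    hgne (gg_eq_zero C hz0 hxN hc)
  have hcs := zf_comm_star hS he y
  refine ⟨tz C (zf s e y), tz_unitary C hC hz0 hcs, tz_norm C hz0, ?_, ?_, hyc, ?_⟩
  · refine tz_comm C (zf_commute (Commute.refl e) y) ?_
    rw [star_zf hS he]
    exact zf_commute (Commute.refl e).inv_right₀ y
  · rintro p hp
    obtain ⟨v, rfl, -⟩ := id hp
    have hvT : v ∈ T := by
      rw [hT, Set.Finite.mem_toFinset]
      exact Or.inl (Or.inl (Or.inl (Or.inr hp)))
    exact (hnea v y (hy1 v hvT)).1 hp
  · intro V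
    obtain ⟨v, hV⟩ := exists_below (F := k) V
    by_cases hvT : v ∈ T
    · exact (hnea v y (hy1 v hvT)).2 hz0 hyc V hV
    · have hy2' := hy2 v hvT
      obtain ⟨i, hi⟩ := hy3 v hvT
      rw [hT, Set.Finite.mem_toFinset] at hvT
      simp only [Set.mem_union, not_or, Set.mem_ofPred_eq, not_exists, not_and, not_lt,
        not_not] at hvT
      obtain ⟨⟨⟨⟨⟨⟨⟨⟨⟨⟨⟨h1, h2⟩, h3⟩, h4⟩, h5⟩, h6⟩, h7⟩, h8⟩, -⟩, -⟩, -⟩, -⟩ := hvT
      refine crit C hC (s1a_of C) (s1b_of C) V hx hxN hz0 hcs hyc (h5 V hV) (h8 V hV)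
        (h1 V hV y hy2') (h2 V hV y hy2') (h3 V hV y hy2') (h4 V hV y hy2') ?_
      by_contra hcon
      rw [not_or, not_le, not_le] at hcon
      obtain ⟨hc1, hc2⟩ := hcon
      rw [hg1] at hc1
      rw [hg2] at hc2
      obtain ⟨m, hm, hv⟩ := val_above (E := K) hV
      have e0 : V.valuation K (algebraMap k K (eval y (P 0))) < 1 := by
        have e2 : (2 : K) * algebraMap k K (eval y (P 0)) =
            (algebraMap k K (eval y (P 0)) + s * algebraMap k K (eval y (P 1))) +
            (algebraMap k K (eval y (P 0)) - s * algebraMap k K (eval y (P 1))) := by ring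
        have e3 := (V.valuation K).map_add_lt hc1 hc2
        rw [← e2, map_mul, h6 V hV, one_mul] at e3
        exact e3
      have e1 : V.valuation K (algebraMap k K (eval y (P 1))) < 1 := by
        have e2 : (2 : K) * (s * algebraMap k K (eval y (P 1))) =
            (algebraMap k K (eval y (P 0)) + s * algebraMap k K (eval y (P 1))) -
            (algebraMap k K (eval y (P 0)) - s * algebraMap k K (eval y (P 1))) := by ring
        have e3 := (V.valuation K).map_sub_lt hc1 hc2
        rw [← e2, map_mul, map_mul, h6 V hV, h7 V hV, one_mul, one_mul] at e3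
        exact e3
      rw [hv] at e0 e1
      have key : ∀ i : Fin 2, v.valuation k (eval y (P i)) ^ m < 1 := by
        intro i
        fin_cases i
        · exact e0
        · exact e1
      exact absurd (key i) (not_lt.mpr (one_le_pow₀ hi))

end Vale.Agent.P011.H487
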