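import Mathlib

/-!
# Split elements: definitions

Leading minors and strict Newton conditions, over any normed field.
-/

open Matrix

namespace Vale.Agent.P011.H487.Spl

/-- The strict Newton condition: all slopes are different. -/
def NW (n : ℕ) (c : ℕ → ℝ) : Prop :=
  0 < c 0 ∧ ∀ i, 0 < i → i < n → c (i - 1) * c (i + 1) < c i ^ 2

variable {F : Type*} [Field F] {n : ℕ}

/-- The matrix with the first `i` rows of `A` and the other rows of the identity; its determinant is
the leading minor of size `i`. -/
def LM (A : Matrix (Fin n) (Fin n) F) (i : ℕ) : Matrix (Fin n) (Fin n) F :=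
  fun j => if (j : ℕ) < i then A j else (1 : Matrix (Fin n) (Fin n) F) j

/-- All leading minors are different from zero. -/
def Lead (A : Matrix (Fin n) (Fin n) F) : Prop := ∀ i ≤ n, (LM A i).det ≠ 0

end Vale.Agent.P011.H487.Spl
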