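import Vale.Agent.P011.H487.HermMat
import Vale.Agent.P011.H487.SplDef

/-!
# Hyperbolic frames in general position with respect to finitely many operators
-/

open Module

namespace Vale.Agent.P011.H487

namespace HForm

section one

variable {K V : Type*} [Field K] [StarRing K] [AddCommGroup V] [Module K V] {h : HForm K V}

/-- a line of isotropic vectors through `x` in the direction of `y` -/
theorem exists_iso_line (hK : StarNT K) {x y : V} (hx : h.b x x = 0) (hy : h.b y y = 0) :
    ∃ θ : K, θ ≠ 0 ∧ ∀ t : K, star t = t →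
      h.b (x + (t * θ) • y) (x + (t * θ) • y) = 0 := by
  by_cases hxy : h.b x y = 0
  · refine ⟨1, one_ne_zero, fun t _ => ?_⟩
    rw [h.add_left, h.add_right, h.add_right, h.smul_left, h.smul_left, h.smul_right,
      h.smul_right, hx, hy, hxy, h.eq_zero_symm hxy]
    ring
  · obtain ⟨η, hη0, hη⟩ := exists_theta hK
    refine ⟨η * h.b x y, mul_ne_zero hη0 hxy, fun t ht => ?_⟩
    rw [h.add_left, h.add_right, h.add_right, h.smul_left, h.smul_left, h.smul_right,
      h.smul_right, hx, hy, ← h.star_b x y, star_mul', star_mul', ht]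
    linear_combination t * (h.b x y * star (h.b x y)) * hη

/-- Isotropic vectors avoid finitely many subspaces. -/
theorem avoid (hK : StarNT K) (hinf : {t : K | star t = t}.Infinite)
    (hspan : ∀ H : Submodule K V, H ≠ ⊤ → ∃ y, h.b y y = 0 ∧ y ∉ H)
    (Hs : Finset (Submodule K V)) (hHs : ∀ H ∈ Hs, H ≠ ⊤) :
    ∃ x, h.b x x = 0 ∧ ∀ H ∈ Hs, x ∉ H := by
  classical
  induction Hs using Finset.induction_on with
  | empty => exact ⟨0, h.zero_left 0, fun H hH => absurd hH (Finset.notMem_empty H)⟩
  | insert H0 Hs _ ih =>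
    obtain ⟨x, hx, hxH⟩ := ih fun H hH => hHs H (Finset.mem_insert_of_mem hH)
    by_cases hx0 : x ∉ H0
    · refine ⟨x, hx, fun H hH => ?_⟩
      rcases Finset.mem_insert.mp hH with rfl | hH
      · exact hx0
      · exact hxH H hH
    push Not at hx0
    obtain ⟨y, hy, hyH⟩ := hspan H0 (hHs H0 (Finset.mem_insert_self _ _))
    obtain ⟨θ, hθ, hline⟩ := exists_iso_line (h := h) hK hx hy
    have key : ∀ H : Submodule K V, (x ∉ H ∨ y ∉ H) →
        {t : K | x + (t * θ) • y ∈ H}.Subsingleton := by
      intro H hH t1 h1 t2 h2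
      by_contra hne
      have h3 : ((t1 - t2) * θ) • y ∈ H := by
        have := H.sub_mem h1 h2
        rwa [add_sub_add_left_eq_sub, ← sub_smul, ← sub_mul] at this
      have h4 : y ∈ H := (H.smul_mem_iff (mul_ne_zero (sub_ne_zero.mpr hne) hθ)).mp h3
      have h5 : x ∈ H := by
        have := H.sub_mem h1 (H.smul_mem (t1 * θ) h4)
        rwa [add_sub_cancel_right] at this
      rcases hH with h6 | h6
      · exact h6 h5
      · exact h6 h4
    have hfin : (⋃ H ∈ insert H0 Hs, {t : K | x + (t * θ) • y ∈ H}).Finite := by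
      refine Set.Finite.biUnion (Finset.finite_toSet _) fun H hH => ?_
      refine (key H ?_).finite
      rcases Finset.mem_insert.mp hH with rfl | hH
      · exact Or.inr hyH
      · exact Or.inl (hxH H hH)
    obtain ⟨t, ht, htn⟩ := hinf.exists_notMem_finite hfin
    refine ⟨x + (t * θ) • y, hline t ht, fun H hH hmem => htn ?_⟩
    exact Set.mem_biUnion (show H ∈ ((insert H0 Hs : Finset _) : Set _) from hH) hmem

/-- Isotropic vectors span. -/
theorem span_iso (hK : StarNT K) {e f : V} (p : h.Hyp e f) (H : Submodule K V) (hH : H ≠ ⊤) :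
    ∃ y, h.b y y = 0 ∧ y ∉ H := by
  by_contra hcon
  push Not at hcon
  apply hH
  rw [eq_top_iff]
  intro v _
  obtain ⟨w, hwe, hwf, hv⟩ := p.decomp v
  have he := hcon e p.ee
  have hf := hcon f p.ff
  have hw : w ∈ H := by
    obtain ⟨s, hs⟩ := exists_trace hK (h.star_self w)
    have h1 : w + s • e + f ∈ H := by
      apply hcon
      simp only [h.add_left, h.add_right, h.smul_left, h.smul_right, p.ee, p.ff, p.ef, p.fe, hwe,
        hwf, h.eq_zero_symm hwe, h.eq_zero_symm hwf]
      linear_combination hs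
    have h2 : w + s • e + f - (s • e + f) ∈ H := H.sub_mem h1 (H.add_mem (H.smul_mem _ he) hf)
    rwa [add_assoc, add_sub_cancel_right] at h2
  rw [hv]
  exact H.add_mem (H.add_mem hw (H.smul_mem _ he)) (H.smul_mem _ hf)

end one

end HForm

end Vale.Agent.P011.H487
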