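import Vale.Agent.P011.H487.SplFr

/-!
# Hyperbolic frames in general position with respect to finitely many operators, existence
-/

open Module

namespace Vale.Agent.P011.H487

namespace HForm

section two

variable {K V : Type} [Field K] [StarRing K] [AddCommGroup V] [Module K V]

/-- A family with antidiagonal Gram matrix. -/
structure Gr {n : ℕ} (h : HForm K V) (v : Fin n → V) (g : Fin n → K) : Prop where
  ne : ∀ i, g i ≠ 0
  rev : ∀ i, g (Fin.rev i) = g i
  gram : ∀ i j, h.b (v i) (v j) = if j = Fin.rev i then g i else 0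

/-- The leading minor of size `i` of the operator is not zero. -/
def LG {n : ℕ} (h : HForm K V) (v : Fin n → V) (T : V →ₗ[K] V) (i : ℕ) : Prop :=
  ∀ c : Fin n → K, (∀ j : Fin n, i ≤ (j : ℕ) → c j = 0) →
    (∀ j : Fin n, (j : ℕ) < i → h.b (T (∑ l, c l • v l)) (v (Fin.rev j)) = 0) → c = 0

variable {h : HForm K V}

theorem sum_left {ι : Type} (s : Finset ι) (c : ι → K) (v : ι → V) (y : V) :
    h.b (∑ l ∈ s, c l • v l) y = ∑ l ∈ s, c l * h.b (v l) y := by
  classical
  induction s using Finset.induction_on with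
  | empty => rw [Finset.sum_empty, Finset.sum_empty, h.zero_left]
  | insert a s ha ih => rw [Finset.sum_insert ha, Finset.sum_insert ha, h.add_left, h.smul_left, ih]

theorem Gr.coord {n : ℕ} {v : Fin n → V} {g : Fin n → K} (hv : h.Gr v g) (c : Fin n → K)
    (j : Fin n) : h.b (∑ l, c l • v l) (v (Fin.rev j)) = c j * g j := by
  rw [sum_left, Finset.sum_eq_single j]
  · rw [hv.gram, if_pos rfl]
  · intro l _ hl
    rw [hv.gram, if_neg, mul_zero]
    intro h1
    exact hl (Fin.rev_injective h1).symm
  · intro h1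
    exact absurd (Finset.mem_univ j) h1

theorem Gr.linearIndependent {n : ℕ} {v : Fin n → V} {g : Fin n → K} (hv : h.Gr v g) :
    LinearIndependent K v := by
  rw [Fintype.linearIndependent_iff]
  intro c hc i
  have h1 := hv.coord c i
  rw [hc, h.zero_left] at h1
  exact (mul_eq_zero.mp h1.symm).resolve_right (hv.ne i)

/-- the orthogonal complement of a pair -/
def pp (h : HForm K V) (e f : V) : Submodule K V where
  carrier := {x | h.b x e = 0 ∧ h.b x f = 0}
  add_mem' := by
    rintro a b ⟨h1, h2⟩ ⟨h3, h4⟩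
    exact ⟨by rw [h.add_left, h1, h3, add_zero], by rw [h.add_left, h2, h4, add_zero]⟩
  zero_mem' := ⟨h.zero_left e, h.zero_left f⟩
  smul_mem' := by
    rintro a b ⟨h1, h2⟩
    exact ⟨by rw [h.smul_left, h1, mul_zero], by rw [h.smul_left, h2, mul_zero]⟩

theorem mem_pp {e f x : V} : x ∈ h.pp e f ↔ h.b x e = 0 ∧ h.b x f = 0 := Iff.rfl

/-- the restriction of the form to a subspace -/
def res (h : HForm K V) (W : Submodule K V) : HForm K W where
  b x y := h.b x y
  add_left _ _ _ := h.add_left _ _ _
  smul_left _ _ _ := h.smul_left _ _ _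
  star_b _ _ := h.star_b _ _

theorem res_b {W : Submodule K V} (x y : W) : (h.res W).b x y = h.b x y := rfl

theorem res_nondeg (hnd : h.Nondeg) {e f : V} (p : h.Hyp e f) : (h.res (h.pp e f)).Nondeg := by
  intro x hx
  apply Subtype.ext
  apply hnd
  intro y
  obtain ⟨w, hwe, hwf, hy⟩ := p.decomp y
  rw [hy, h.add_left, h.add_left, h.smul_left, h.smul_left, h.eq_zero_symm x.2.1,
    h.eq_zero_symm x.2.2]
  have h1 := hx ⟨w, hwe, hwf⟩
  rw [res_b] at h1
  rw [h1]
  ring

theorem finrank_pp [FiniteDimensional K V] {e f : V} (p : h.Hyp e f) :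
    finrank K (h.pp e f) + 2 = finrank K V := by
  let L : V →ₗ[K] K × K :=
    { toFun := fun x => (h.b x e, h.b x f)
      map_add' := fun x y => by rw [h.add_left, h.add_left]; rfl
      map_smul' := fun a x => by rw [h.smul_left, h.smul_left]; rfl }
  have h1 : LinearMap.ker L = h.pp e f := by
    ext x
    rw [LinearMap.mem_ker, mem_pp]
    exact Prod.ext_iff
  have h2 : LinearMap.range L = ⊤ := by
    rw [LinearMap.range_eq_top]
    rintro ⟨a, b⟩
    refine ⟨b • e + a • f, ?_⟩
    change (h.b (b • e + a • f) e, h.b (b • e + a • f) f) = (a, b)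
    rw [h.add_left, h.add_left, h.smul_left, h.smul_left, h.smul_left, h.smul_left, p.ee, p.ef,
      p.fe, p.ff]
    simp
  have h3 := LinearMap.finrank_range_add_finrank_ker L
  rw [h1, h2, finrank_top, finrank_prod, finrank_self] at h3
  omega

/-- the Schur complement of an operator -/
noncomputable def sch (h : HForm K V) {e f : V} (p : h.Hyp e f) (T : V →ₗ[K] V) :
    h.pp e f →ₗ[K] h.pp e f where
  toFun w :=
    ⟨T w - (h.b (T w) f / h.b (T e) f) • T e -
        (h.b (T w - (h.b (T w) f / h.b (T e) f) • T e) f) • e -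
      (h.b (T w - (h.b (T w) f / h.b (T e) f) • T e) e) • f, by
      rw [mem_pp]
      constructor
      · simp only [h.sub_left, h.smul_left, p.ee, p.fe]
        ring
      · simp only [h.sub_left, h.smul_left, p.ef, p.ff]
        ring⟩
  map_add' w w' := by
    apply Subtype.ext
    simp only [Submodule.coe_add, map_add, h.add_left, h.sub_left, h.smul_left]
    simp only [sub_smul, add_smul, add_div, add_mul]
    abel
  map_smul' a w := by
    apply Subtype.ext
    simp only [Submodule.coe_smul, map_smul, h.sub_left, h.smul_left,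
      RingHom.id_apply, smul_sub, smul_smul]
    simp only [mul_sub, mul_div_assoc, mul_assoc]

theorem sch_coe {e f : V} (p : h.Hyp e f) {T : V →ₗ[K] V} (hT : h.b (T e) f ≠ 0) (w : h.pp e f) :
    (h.sch p T w : V) = T w - (h.b (T w) f / h.b (T e) f) • T e -
      (h.b (T w - (h.b (T w) f / h.b (T e) f) • T e) e) • f := by
  have h1 : h.b (T w - (h.b (T w) f / h.b (T e) f) • T e) f = 0 := by
    rw [h.sub_left, h.smul_left, div_mul_cancel₀ _ hT, sub_self]
  change T w - (h.b (T w) f / h.b (T e) f) • T e -
        (h.b (T w - (h.b (T w) f / h.b (T e) f) • T e) f) • e -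
      (h.b (T w - (h.b (T w) f / h.b (T e) f) • T e) e) • f = _
  rw [h1, zero_smul, sub_zero]

theorem sch_b {e f : V} (p : h.Hyp e f) {T : V →ₗ[K] V} (hT : h.b (T e) f ≠ 0) (w : h.pp e f)
    (w' : h.pp e f) : h.b (h.sch p T w : V) w' =
      h.b (T (w - (h.b (T w) f / h.b (T e) f) • e)) w' := by
  rw [sch_coe p hT, h.sub_left, h.smul_left, h.eq_zero_symm w'.2.2, mul_zero, sub_zero, map_sub,
    map_smul]

/-- The Schur complement is injective. -/
theorem sch_inj {e f : V} (p : h.Hyp e f) {T S : V →ₗ[K] V} (hS : ∀ x, S (T x) = x)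
    (hT : h.b (T e) f ≠ 0) (hSf : h.b (S f) e ≠ 0) : Function.Injective (h.sch p T) := by
  rw [injective_iff_map_eq_zero]
  intro w hw
  have h1 := sch_coe p hT w
  rw [hw, Submodule.coe_zero] at h1
  set q := h.b (T w) f / h.b (T e) f with hq
  set r := h.b (T w - q • T e) e with hr
  have h2 : T ((w : V) - q • e) = r • f := by
    rw [map_sub, map_smul]
    exact (sub_eq_zero.mp h1.symm)
  have h3 : (w : V) - q • e = r • S f := by
    rw [← hS ((w : V) - q • e), h2, map_smul]
  have h4 : r = 0 := by
    have h5 := congrArg (fun x => h.b x e) h3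
    simp only [h.sub_left, h.smul_left, w.2.1, p.ee] at h5
    rw [mul_zero, sub_zero] at h5
    exact (mul_eq_zero.mp h5.symm).resolve_right hSf
  rw [h4, zero_smul, sub_eq_zero] at h3
  have h5 := congrArg (fun x => h.b x f) h3
  simp only [h.smul_left, w.2.2, p.ef] at h5
  rw [mul_one] at h5
  apply Subtype.ext
  rw [h3, ← h5, zero_smul, Submodule.coe_zero]

end two

end HForm

end Vale.Agent.P011.H487
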