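import Vale.Agent.P011.H487.SplFr2

/-!
# Hyperbolic frames in general position with respect to finitely many operators, induction
-/

open Module

namespace Vale.Agent.P011.H487

namespace HForm

section three

variable {K : Type} [Field K] [StarRing K]

/-- the family `(e, w, f)` -/
def cs {V : Type} {n : ℕ} (e : V) (w : Fin n → V) (f : V) : Fin (n + 2) → V :=
  Fin.cons e (Fin.snoc w f)

theorem cs_zero {V : Type} {n : ℕ} (e : V) (w : Fin n → V) (f : V) : cs e w f 0 = e := rfl

theorem cs_last {V : Type} {n : ℕ} (e : V) (w : Fin n → V) (f : V) :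
    cs e w f (Fin.last n).succ = f := by
  rw [cs, Fin.cons_succ, Fin.snoc_last]

theorem cs_mid {V : Type} {n : ℕ} (e : V) (w : Fin n → V) (f : V) (i : Fin n) :
    cs e w f i.castSucc.succ = w i := by
  rw [cs, Fin.cons_succ, Fin.snoc_castSucc]

theorem fin_cases {n : ℕ} {P : Fin (n + 2) → Prop} (h0 : P 0) (hl : P (Fin.last n).succ)
    (hm : ∀ i : Fin n, P i.castSucc.succ) (i : Fin (n + 2)) : P i := by
  refine Fin.cases h0 (fun j => ?_) i
  exact Fin.lastCases hl hm j

theorem rev_zero' {n : ℕ} : Fin.rev (0 : Fin (n + 2)) = (Fin.last n).succ := by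
  rw [Fin.rev_zero, Fin.succ_last]

theorem rev_last' {n : ℕ} : Fin.rev (Fin.last n).succ = (0 : Fin (n + 2)) := by
  rw [Fin.succ_last, Fin.rev_last]

theorem rev_mid' {n : ℕ} (i : Fin n) :
    Fin.rev (i.castSucc.succ : Fin (n + 2)) = (Fin.rev i).castSucc.succ := by
  rw [Fin.rev_succ, Fin.rev_castSucc, Fin.castSucc_succ]

theorem mid_inj {n : ℕ} {i j : Fin n} : i.castSucc.succ = j.castSucc.succ ↔ i = j := by
  rw [Fin.succ_inj, Fin.castSucc_inj]

theorem mid_ne_zero {n : ℕ} (i : Fin n) : (i.castSucc.succ : Fin (n + 2)) ≠ 0 := Fin.succ_ne_zero _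

theorem mid_ne_last {n : ℕ} (i : Fin n) : (i.castSucc.succ : Fin (n + 2)) ≠ (Fin.last n).succ := by
  intro h
  rw [Fin.succ_inj] at h
  exact (Fin.castSucc_lt_last i).ne h

theorem last_ne_zero {n : ℕ} : ((Fin.last n).succ : Fin (n + 2)) ≠ 0 := Fin.succ_ne_zero _

theorem sum_cs {V : Type} [AddCommGroup V] [Module K V] {n : ℕ} (c : Fin (n + 2) → K) (e : V)
    (w : Fin n → V) (f : V) : ∑ l, c l • cs e w f l =
      c 0 • e + (∑ l, c (Fin.succ (Fin.castSucc l)) • w l) + c (Fin.last n).succ • f := by
  rw [Fin.sum_univ_succ, Fin.sum_univ_castSucc, cs_zero, cs_last]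
  have h1 : ∀ l : Fin n, c (Fin.succ (Fin.castSucc l)) • cs e w f (Fin.succ (Fin.castSucc l)) =
      c (Fin.succ (Fin.castSucc l)) • w l := fun l => by rw [cs_mid]
  rw [Finset.sum_congr rfl fun l _ => h1 l]
  abel

variable {V : Type} [AddCommGroup V] [Module K V] {h : HForm K V}

/-- the Gram matrix of the enlarged family -/
theorem Gr.cs {n : ℕ} {e f : V} (p : h.Hyp e f) {w : Fin n → h.pp e f} {g : Fin n → K}
    (hw : (h.res (h.pp e f)).Gr w g) :
    h.Gr (HForm.cs e (fun i => (w i : V)) f) (HForm.cs 1 g 1) := by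
  refine ⟨fun i => ?_, fun i => ?_, fun i j => ?_⟩
  · induction i using fin_cases with
    | h0 => rw [cs_zero]; exact one_ne_zero
    | hl => rw [cs_last]; exact one_ne_zero
    | hm i => rw [cs_mid]; exact hw.ne i
  · induction i using fin_cases with
    | h0 => rw [rev_zero', cs_zero, cs_last]
    | hl => rw [rev_last', cs_zero, cs_last]
    | hm i => rw [rev_mid', cs_mid, cs_mid, hw.rev]
  · induction i using fin_cases with
    | h0 =>
      rw [rev_zero', cs_zero, cs_zero]
      induction j using fin_cases with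
      | h0 => rw [cs_zero, p.ee, if_neg last_ne_zero.symm]
      | hl => rw [cs_last, p.ef, if_pos rfl]
      | hm j => rw [cs_mid, if_neg (mid_ne_last j), h.eq_zero_symm (w j).2.1]
    | hl =>
      rw [rev_last', cs_last, cs_last]
      induction j using fin_cases with
      | h0 => rw [cs_zero, p.fe, if_pos rfl]
      | hl => rw [cs_last, p.ff, if_neg last_ne_zero]
      | hm j => rw [cs_mid, if_neg (mid_ne_zero j), h.eq_zero_symm (w j).2.2]
    | hm i =>
      rw [rev_mid', cs_mid, cs_mid]
      induction j using fin_cases with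
      | h0 => rw [cs_zero, if_neg (mid_ne_zero _).symm]; exact (w i).2.1
      | hl => rw [cs_last, if_neg (mid_ne_last _).symm]; exact (w i).2.2
      | hm j =>
        rw [cs_mid]
        have h1 := hw.gram i j
        rw [res_b] at h1
        rw [h1]
        by_cases hj : j = Fin.rev i
        · rw [if_pos hj, if_pos (by rw [hj])]
        · rw [if_neg hj, if_neg (fun h2 => hj (mid_inj.mp h2))]

/-- the leading minors of the enlarged family -/
theorem LG.cs {n : ℕ} {e f : V} (p : h.Hyp e f) {w : Fin n → h.pp e f} {g : Fin n → K}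
    (hw : (h.res (h.pp e f)).Gr w g) {T : V →ₗ[K] V} (hT : h.b (T e) f ≠ 0)
    (hTi : Function.Injective T) (hnd : ∀ x : V, (∀ j, h.b x
      (HForm.cs e (fun i => (w i : V)) f j) = 0) → x = 0)
    (hL : ∀ i ≤ n, (h.res (h.pp e f)).LG w (h.sch p T) i) {i : ℕ} (hi : i ≤ n + 2) :
    h.LG (HForm.cs e (fun i => (w i : V)) f) T i := by
  intro c hc1 hc2
  have hG := Gr.cs p hw
  rcases Nat.eq_zero_or_pos i with rfl | hi0
  · funext j
    exact hc1 j (Nat.zero_le _)
  rcases Nat.lt_or_ge (n + 1) i with hi2 | hi2
  · -- all coordinates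
    have h1 : T (∑ l, c l • HForm.cs e (fun i => (w i : V)) f l) = 0 := by
      apply hnd
      intro j
      have h2 := hc2 (Fin.rev j) (by have := (Fin.rev j).2; omega)
      rwa [Fin.rev_rev] at h2
    have h2 := hTi (h1.trans (map_zero T).symm)
    have h3 := Fintype.linearIndependent_iff.mp hG.linearIndependent c h2
    funext j
    exact h3 j
  · -- the last coordinate vanishes
    have hlast : c (Fin.last n).succ = 0 := hc1 _ (by
      rw [Fin.val_succ, Fin.val_last]
      exact hi2)
    set y : h.pp e f := ∑ l, c (Fin.succ (Fin.castSucc l)) • w l with hy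
    have hyc : (y : V) = ∑ l, c (Fin.succ (Fin.castSucc l)) • (w l : V) := by
      rw [hy, Submodule.coe_sum]
      rfl
    have hx : ∑ l, c l • HForm.cs e (fun i => (w i : V)) f l = c 0 • e + y := by
      rw [sum_cs, hlast, zero_smul, add_zero, hyc]
    rw [hx] at hc2
    have h0 : c 0 = -(h.b (T y) f / h.b (T e) f) := by
      have h1 := hc2 0 hi0
      rw [rev_zero', cs_last, map_add, map_smul, h.add_left, h.smul_left] at h1
      field_simp
      linear_combination h1
    have hmid : (fun l => c (Fin.succ (Fin.castSucc l))) = 0 := by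
      apply hL (i - 1) (by omega)
      · intro j hj
        apply hc1
        rw [Fin.val_succ, Fin.val_castSucc]
        omega
      · intro j hj
        have h1 := hc2 j.castSucc.succ (by rw [Fin.val_succ, Fin.val_castSucc]; omega)
        rw [rev_mid', cs_mid] at h1
        rw [res_b, sch_b p hT, ← hy, ← h1]
        congr 2
        rw [h0, neg_smul, neg_add_eq_sub]
    have hy0 : y = 0 := by
      rw [hy]
      refine Finset.sum_eq_zero fun l _ => ?_
      have := congrFun hmid l
      rw [show c (Fin.succ (Fin.castSucc l)) = 0 from this, zero_smul]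
    have h00 : c 0 = 0 := by
      rw [h0, hy0, Submodule.coe_zero, map_zero, h.zero_left, zero_div, neg_zero]
    funext j
    induction j using fin_cases with
    | h0 => exact h00
    | hl => exact hlast
    | hm j => exact congrFun hmid j

end three

end HForm

end Vale.Agent.P011.H487
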