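import Vale.Agent.P011.H487.SplFr3

/-!
# Hyperbolic frames in general position with respect to finitely many operators, existence
-/

open Module

namespace Vale.Agent.P011.H487

namespace HForm

variable {K : Type} [Field K] [StarRing K]

/-- the subspace of vectors orthogonal to `y` -/
def orth {V : Type} [AddCommGroup V] [Module K V] (h : HForm K V) (y : V) : Submodule K V where
  carrier := {x | h.b x y = 0}
  add_mem' := by
    intro a b h1 h2
    change h.b (a + b) y = 0
    rw [h.add_left, show h.b a y = 0 from h1, show h.b b y = 0 from h2, add_zero]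
  zero_mem' := h.zero_left y
  smul_mem' := by
    intro a b h1
    change h.b (a • b) y = 0
    rw [h.smul_left, show h.b b y = 0 from h1, mul_zero]

theorem orth_ne_top {V : Type} [AddCommGroup V] [Module K V] {h : HForm K V} (hnd : h.Nondeg)
    {y : V} (hy : y ≠ 0) : h.orth y ≠ ⊤ := by
  intro h1
  apply hy
  apply hnd
  intro x
  have : x ∈ h.orth y := by rw [h1]; trivial
  exact this

/-- **Existence of frames.** -/
theorem exists_frame (hK : StarNT K) (hinf : {t : K | star t = t}.Infinite)
    (hiso : ∀ (V : Type) [AddCommGroup V] [Module K V] [FiniteDimensional K V] (h : HForm K V),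
      h.Nondeg → 3 ≤ finrank K V → ∃ z : V, z ≠ 0 ∧ h.b z z = 0) (m : ℕ) :
    ∀ (n : ℕ), n = 2 * m + 1 → ∀ (V : Type) [AddCommGroup V] [Module K V] [FiniteDimensional K V]
      (h : HForm K V), h.Nondeg → finrank K V = n → ∀ Ts : Set (V →ₗ[K] V), Ts.Finite →
      (∀ T ∈ Ts, Function.Injective T) →
      ∃ (v : Fin n → V) (g : Fin n → K), h.Gr v g ∧ (∀ i : Fin n, (i : ℕ) ≠ m → g i = 1) ∧
        ∀ T ∈ Ts, ∀ i ≤ n, h.LG v T i := by
  classical
  induction m with
  | zero =>
    intro n hn V _ _ _ h hnd hdim Ts _ hTi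
    have hn1 : n = 1 := hn
    subst hn1
    have h1 : ∃ z : V, z ≠ 0 := by
      have : Nontrivial V := Module.nontrivial_of_finrank_pos (R := K) (by rw [hdim]; norm_num)
      exact exists_ne 0
    obtain ⟨z, hz⟩ := h1
    have hspan : ∀ x : V, ∃ a : K, x = a • z := fun x => by
      obtain ⟨a, ha⟩ := (finrank_eq_one_iff_of_nonzero' z hz).mp hdim x
      exact ⟨a, ha.symm⟩
    have hzz : h.b z z ≠ 0 := by
      intro h0
      apply hz
      apply hnd
      intro y
      obtain ⟨a, rfl⟩ := hspan y
      rw [h.smul_left, h0, mul_zero]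
    have hr : ∀ i : Fin 1, Fin.rev i = i := fun i => Subsingleton.elim _ _
    refine ⟨fun _ => z, fun _ => h.b z z, ⟨fun _ => hzz, fun _ => rfl, fun i j => ?_⟩,
      fun i hi => absurd (by have := i.2; omega) hi, fun T hT i hi => ?_⟩
    · rw [if_pos (Subsingleton.elim _ _)]
    · intro c hc1 hc2
      rcases Nat.eq_zero_or_pos i with rfl | hi0
      · funext j
        exact hc1 j (Nat.zero_le _)
      · have h2 := hc2 0 hi0
        rw [Finset.univ_unique, Finset.sum_singleton, map_smul, h.smul_left] at h2
        obtain ⟨a, ha⟩ := hspan (T z)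
        have ha0 : a ≠ 0 := by
          rintro rfl
          rw [zero_smul] at ha
          exact hz (hTi T hT (ha.trans (map_zero T).symm))
        change c 0 * h.b (T z) z = 0 at h2
        rw [ha, h.smul_left] at h2
        funext j
        rw [Subsingleton.elim j 0]
        exact (mul_eq_zero.mp h2).resolve_right (mul_ne_zero ha0 hzz)
  | succ m ih =>
    intro n hn V _ _ _ h hnd hdim Ts hTs hTi
    obtain ⟨n', rfl⟩ : ∃ n', n = n' + 2 := ⟨2 * m + 1, by omega⟩
    have hn' : n' = 2 * m + 1 := by omega
    obtain ⟨e, he0, hee⟩ := hiso V h hnd (by omega)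
    obtain ⟨f0, p0⟩ := exists_hyp hK hnd he0 hee
    -- inverses
    have hinv : ∀ T : V →ₗ[K] V, ∃ S : V →ₗ[K] V, T ∈ Ts → (∀ x, S (T x) = x) ∧ ∀ x, T (S x) = x := by
      intro T
      by_cases hT : T ∈ Ts
      · let E := LinearEquiv.ofInjectiveEndo T (hTi T hT)
        refine ⟨(E.symm : V →ₗ[K] V), fun _ => ⟨fun x => E.symm_apply_apply x, fun x =>
          E.apply_symm_apply x⟩⟩
      · exact ⟨0, fun h1 => absurd h1 hT⟩
    choose S hS using hinv
    -- avoid
    have hfin : (({h.orth e} : Set (Submodule K V)) ∪ ((fun T => h.orth (T e)) '' Ts) ∪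
        ((fun T => (h.orth e).comap (S T)) '' Ts)).Finite :=
      ((Set.finite_singleton _).union (hTs.image _)).union (hTs.image _)
    obtain ⟨f1, hf1, hf1H⟩ := avoid (h := h) hK hinf (span_iso hK p0) hfin.toFinset (by
      intro H hH
      rw [Set.Finite.mem_toFinset] at hH
      rcases hH with (hH | ⟨T, hT, rfl⟩) | ⟨T, hT, rfl⟩
      · rw [hH]
        exact orth_ne_top hnd he0
      · refine orth_ne_top hnd fun h0 => he0 (hTi T hT (h0.trans (map_zero T).symm))
      · intro htop
        change (h.orth e).comap (S T) = ⊤ at htop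
        apply he0
        apply hnd
        intro y
        have h1 : T y ∈ (h.orth e).comap (S T) := by rw [htop]; trivial
        have h2 : h.b (S T (T y)) e = 0 := h1
        rwa [(hS T hT).1] at h2)
    have hE : h.b f1 e ≠ 0 := fun h0 => hf1H (h.orth e)
      (hfin.mem_toFinset.mpr (Or.inl (Or.inl rfl))) h0
    have hE' : h.b e f1 ≠ 0 := fun h0 => hE (h.eq_zero_symm h0)
    set f : V := (star (h.b e f1))⁻¹ • f1 with hf
    have hs0 : (star (h.b e f1))⁻¹ ≠ 0 := inv_ne_zero (fun h0 => hE' (by
      rw [← star_star (h.b e f1), h0, star_zero]))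
    have p : h.Hyp e f := by
      refine ⟨hee, ?_, ?_⟩
      · rw [hf, h.smul_left, h.smul_right, hf1, mul_zero, mul_zero]
      · rw [hf, h.smul_right, star_inv₀, star_star, inv_mul_cancel₀ hE']
    have hTf : ∀ T ∈ Ts, h.b (T e) f ≠ 0 := by
      intro T hT h0
      refine hf1H (h.orth (T e)) (hfin.mem_toFinset.mpr (Or.inl (Or.inr ⟨T, hT, rfl⟩))) ?_
      have h1 : h.b f (T e) = 0 := h.eq_zero_symm h0
      rw [hf, h.smul_left] at h1
      exact (mul_eq_zero.mp h1).resolve_left hs0
    have hSf : ∀ T ∈ Ts, h.b (S T f) e ≠ 0 := by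
      intro T hT h0
      refine hf1H ((h.orth e).comap (S T))
        (hfin.mem_toFinset.mpr (Or.inr ⟨T, hT, rfl⟩)) ?_
      rw [hf, map_smul, h.smul_left] at h0
      exact (mul_eq_zero.mp h0).resolve_left hs0
    have hrank := finrank_pp p
    obtain ⟨w, g, hw, hg, hL⟩ := ih n' hn' (h.pp e f) (h.res (h.pp e f)) (res_nondeg hnd p)
      (by omega) ((fun T => h.sch p T) '' Ts) (hTs.image _) (by
        rintro _ ⟨T, hT, rfl⟩
        exact sch_inj p (hS T hT).1 (hTf T hT) (hSf T hT))
    have hG := Gr.cs p hw
    refine ⟨HForm.cs e (fun i => (w i : V)) f, HForm.cs 1 g 1, hG, fun i hi => ?_,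
      fun T hT i hi => ?_⟩
    · induction i using fin_cases with
      | h0 => rfl
      | hl => rw [cs_last]
      | hm i =>
        rw [cs_mid]
        apply hg
        rw [Fin.val_succ, Fin.val_castSucc] at hi
        omega
    · refine LG.cs p hw (hTf T hT) (hTi T hT) (fun x hx => ?_)
        (fun i hi => hL _ ⟨T, hT, rfl⟩ i hi) hi
      -- a vector orthogonal to the frame
      have hspan : Submodule.span K (Set.range (HForm.cs e (fun i => (w i : V)) f)) = ⊤ := by
        apply hG.linearIndependent.span_eq_top_of_card_eq_finrank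
        rw [Fintype.card_fin, hdim]
      apply hnd
      intro y
      have hy : y ∈ Submodule.span K (Set.range (HForm.cs e (fun i => (w i : V)) f)) := by
        rw [hspan]; trivial
      induction hy using Submodule.span_induction with
      | mem y hy =>
        obtain ⟨j, rfl⟩ := hy
        exact h.eq_zero_symm (hx j)
      | zero => exact h.zero_left x
      | add a b _ _ ha hb => rw [h.add_left, ha, hb, add_zero]
      | smul a b _ hb => rw [h.smul_left, hb, mul_zero]

end HForm

end Vale.Agent.P011.H487
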