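import Vale.Agent.P011.H487.SplL
import Vale.Agent.P011.H182.WAU
import Vale.Agent.P011.Arith.Hasse1
import Vale.Agent.P011.One.AdicDefs

/-!
# Split elements over number fields
-/

open Module NumberField IsDedekindDomain Filter Topology Matrix Polynomial

set_option linter.unusedSectionVars false

namespace Vale.Agent.P011.H487.Spl

open Vale.Agent.P011.Arith Vale.Agent.P011.Even Vale.Agent.P011.Two Vale.Agent.P011.One
  Vale.Agent.P011.H182

variable {k K D : Type} [Field k] [NumberField k] [Field K] [StarRing K] [NumberField K]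
    [DivisionRing D] [StarRing D] [Algebra k K] [Algebra k D] [Algebra K D] [IsScalarTower k K D]
    {d : kˣ} {s : K} {N n : ℕ}

/-- The algebra is split at a place which splits in the centre. -/
def SpAt (K D : Type) [Field K] [DivisionRing D] [Algebra k K] [Algebra K D] (n : ℕ) (d : kˣ)
    (v : HeightOneSpectrum (𝓞 k)) : Prop :=
  d ∈ LS (v.valuation k) → ∃ (φ : K →+* v.adicCompletion k)
    (f : D →+* Matrix (Fin n) (Fin n) (v.adicCompletion k)), SplAt K D n v φ f

/-- Almost all places are good. -/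
theorem spAt_almost (hS : Setting k K D d s) (hn : 0 < n) (hdeg : finrank K D = n ^ 2) :
    {v : HeightOneSpectrum (𝓞 k) | ¬ SpAt K D n d v}.Finite := by
  obtain ⟨S, hS1, hS2⟩ := splAt_almost hS hn hdeg
  refine hS1.subset fun v hv => ?_
  by_contra hvS
  exact hv fun hd => hS2 v hvS hd

/-- **Split elements**: one element `g` of reduced norm one, close to one at `P`, such that the
minimal polynomials of the `h * g ^ m` have degree `n` and split at all places above `S`. -/
theorem spl_nf (hS : Setting k K D d s) (ho : Odd n) (hn3 : 3 ≤ n)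
    (hdeg : finrank K D = n ^ 2) {Ω : Type} [Field Ω] [Algebra K Ω]
    (f₀ : D →ₐ[K] Matrix (Fin n) (Fin n) Ω) (B : Basis (Fin N) k D) {P : Set (Pl k)}
    (hP : P.Finite) (S : Finset (HeightOneSpectrum (𝓞 k)))
    (hSP : ∀ v ∈ S, (Sum.inl v : Pl k) ∉ P) (hspl : ∀ v ∈ S, SpAt K D n d v)
    (hs : Finset D) (hu : ∀ h ∈ hs, h * star h = 1) {m : ℕ} (hm : m ≠ 0) {ε : ℝ} (hε : 0 < ε) :
    ∃ g ∈ SUD f₀, (∀ p ∈ P, nm B p ((g : D) - 1) < ε) ∧ ∀ h ∈ hs,
      (minpoly K (h * (g : D) ^ m)).natDegree = n ∧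
        ∀ v ∈ S, ∀ V : HeightOneSpectrum (𝓞 K), Ab V v →
          ((minpoly K (h * (g : D) ^ m)).map (algebraMap K (V.adicCompletion K))).Splits := by
  classical
  have := hS.fin
  have := hS.cen
  obtain ⟨m', hn⟩ := ho
  have hinvu : ∀ x : unitary D, ((x⁻¹ : unitary D) : D) = star (x : D) := fun x => rfl
  -- an auxiliary place
  have hfinP : {v : HeightOneSpectrum (𝓞 k) | (Sum.inl v : Pl k) ∈ P}.Finite :=
    hP.preimage (Sum.inl_injective.injOn)
  obtain ⟨v₀, hv₀, hdv₀⟩ : ∃ v₀ : HeightOneSpectrum (𝓞 k), (Sum.inl v₀ : Pl k) ∉ P ∧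
      d ∉ LS (v₀.valuation k) := by
    obtain ⟨v₀, h1, h2⟩ := exists_nonsplit d hS.ns _ hfinP
    exact ⟨v₀, h1, h2⟩
  obtain ⟨S', hS'⟩ : ∃ S', S' = insert v₀ S := ⟨_, rfl⟩
  have hSP' : ∀ v ∈ S', (Sum.inl v : Pl k) ∉ P := by
    intro v hv
    rw [hS', Finset.mem_insert] at hv
    rcases hv with rfl | hv
    · exact hv₀
    · exact hSP v hv
  have hspl' : ∀ v ∈ S', SpAt K D n d v := by
    intro v hv
    rw [hS', Finset.mem_insert] at hv
    rcases hv with rfl | hv
    · exact fun h => absurd h hdv₀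
    · exact hspl v hv
  -- the local input
  have hloc : ∀ v : HeightOneSpectrum (𝓞 k), ∃ M0 : ℕ, v ∈ S' → ∀ M, M0 ≤ M →
      ∃ (x y : unitary D) (δ : ℝ), 0 < δ ∧ ∀ g : D, g * star g = 1 →
      nm B (Sum.inl v) (g - ((x * y * x⁻¹ * y⁻¹ : unitary D) : D)) < δ →
      ∀ h ∈ hs, (minpoly K (h * g ^ M)).natDegree = n ∧
        ∀ V : HeightOneSpectrum (𝓞 K), Ab V v →
          ((minpoly K (h * g ^ M)).map (algebraMap K (V.adicCompletion K))).Splits := by
    intro v
    by_cases hv : v ∈ S'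
    · obtain ⟨M0, h⟩ := loc_one hS hn hn3 hdeg f₀ B v (hspl' v hv) hs hu
      exact ⟨M0, fun _ => h⟩
    · exact ⟨0, fun h => absurd h hv⟩
  choose M0 hM0 using hloc
  obtain ⟨M1, hM1⟩ : ∃ M1, M1 = S'.sup M0 := ⟨_, rfl⟩
  have hle : ∀ v ∈ S', M0 v ≤ M1 * m := by
    intro v hv
    have h1 : M0 v ≤ M1 := hM1 ▸ Finset.le_sup hv
    exact h1.trans (Nat.le_mul_of_pos_right _ (Nat.pos_of_ne_zero hm))
  have hloc2 : ∀ v : HeightOneSpectrum (𝓞 k), ∃ (x y : unitary D) (δ : ℝ), 0 < δ ∧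
      (v ∈ S' → ∀ g : D, g * star g = 1 →
        nm B (Sum.inl v) (g - ((x * y * x⁻¹ * y⁻¹ : unitary D) : D)) < δ →
        ∀ h ∈ hs, (minpoly K (h * g ^ (M1 * m))).natDegree = n ∧
          ∀ V : HeightOneSpectrum (𝓞 K), Ab V v →
            ((minpoly K (h * g ^ (M1 * m))).map (algebraMap K (V.adicCompletion K))).Splits) := by
    intro v
    by_cases hv : v ∈ S'
    · obtain ⟨x, y, δ, hδ, h⟩ := hM0 v hv (M1 * m) (hle v hv)
      exact ⟨x, y, δ, hδ, fun _ => h⟩
    · exact ⟨1, 1, 1, one_pos, fun h => absurd h hv⟩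
  choose x y δ hδ hxy using hloc2
  -- weak approximation
  let X : Pl k → D := fun p => match p with
    | Sum.inl v => if v ∈ S' then (x v : D) else 1
    | Sum.inr _ => 1
  let Y : Pl k → D := fun p => match p with
    | Sum.inl v => if v ∈ S' then (y v : D) else 1
    | Sum.inr _ => 1
  have hun : ∀ z : unitary D, (z : D) * star (z : D) = 1 := fun z => (Unitary.mem_iff.mp z.2).2
  have hX : ∀ p, X p * star (X p) = 1 := by
    intro p
    rcases p with v | φ
    · change (if v ∈ S' then (x v : D) else 1) * star (if v ∈ S' then (x v : D) else 1) = 1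
      split_ifs
      · exact hun _
      · rw [star_one, one_mul]
    · change (1 : D) * star (1 : D) = 1
      rw [star_one, one_mul]
  have hY : ∀ p, Y p * star (Y p) = 1 := by
    intro p
    rcases p with v | φ
    · change (if v ∈ S' then (y v : D) else 1) * star (if v ∈ S' then (y v : D) else 1) = 1
      split_ifs
      · exact hun _
      · rw [star_one, one_mul]
    · change (1 : D) * star (1 : D) = 1
      rw [star_one, one_mul]
  have hXS : ∀ v ∈ S', X (Sum.inl v) = x v := fun v hv => if_pos hv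
  have hYS : ∀ v ∈ S', Y (Sum.inl v) = y v := fun v hv => if_pos hv
  have hXP : ∀ p ∈ P, X p = 1 := by
    intro p hp
    rcases p with v | φ
    · exact if_neg fun hv => hSP' v hv hp
    · rfl
  have hYP : ∀ p ∈ P, Y p = 1 := by
    intro p hp
    rcases p with v | φ
    · exact if_neg fun hv => hSP' v hv hp
    · rfl
  let Q : Set (Pl k) := P ∪ Sum.inl '' (S' : Set (HeightOneSpectrum (𝓞 k)))
  have hQf : Q.Finite := hP.union (S'.finite_toSet.image _)
  have hst : ∀ (c : k) (x : D), star (c • x) = c • star x :=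
    fun c x => (Setting.sig hS).map_smul c x
  have hs0 : s ≠ 0 := by
    intro h
    have h1 := hS.sq
    rw [h, zero_pow two_ne_zero] at h1
    exact (map_ne_zero (algebraMap k K)).2 d.ne_zero h1.symm
  have ha : star (s • (1 : D)) = -(s • (1 : D)) := by
    rw [hS.star_smul, hS.star_s, star_one, neg_smul]
  have ha0 : s • (1 : D) ≠ 0 := smul_ne_zero hs0 one_ne_zero
  obtain ⟨a, ha1, ha2⟩ := wa_unitary_seq (B := B) hst ha ha0 hQf (u := X) fun p _ => hX p
  obtain ⟨w, hw1, hw2⟩ := wa_unitary_seq (B := B) hst ha ha0 hQf (u := Y) fun p _ => hY p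
  have hcj : ∀ p ∈ Q, Tn B p atTop (fun j => a j * w j * star (a j) * star (w j))
      (X p * Y p * star (X p) * star (Y p)) := fun p hp =>
    (((ha2 p hp).mul (hw2 p hp)).mul (tn_star hS (ha2 p hp))).mul (tn_star hS (hw2 p hp))
  have hPQ : ∀ p ∈ P, p ∈ Q := fun p hp => Or.inl hp
  have hSQ : ∀ v ∈ S', (Sum.inl v : Pl k) ∈ Q := fun v hv => Or.inr ⟨v, hv, rfl⟩
  have ev1 : ∀ᶠ j in atTop, ∀ p ∈ P,
      nm B p ((a j * w j * star (a j) * star (w j)) ^ M1 - 1) < ε := by
    rw [Filter.eventually_all_finite hP]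
    intro p hp
    have h1 := tn_pow (hcj p (hPQ p hp)) M1
    rw [hXP p hp, hYP p hp, star_one, one_mul, one_mul, one_mul, one_pow] at h1
    exact h1.ev_lt hε
  have ev2 : ∀ᶠ j in atTop, ∀ v ∈ S', nm B (Sum.inl v) (a j * w j * star (a j) * star (w j) -
      ((x v * y v * (x v)⁻¹ * (y v)⁻¹ : unitary D) : D)) < δ v := by
    rw [Filter.eventually_all_finset]
    intro v hv
    have h1 := hcj _ (hSQ v hv)
    rw [hXS v hv, hYS v hv] at h1
    exact h1.ev_lt (hδ v)
  obtain ⟨j, hj1, hj2⟩ := (ev1.and ev2).exists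
  obtain ⟨c, hc⟩ : ∃ c, c = a j * w j * star (a j) * star (w j) := ⟨_, rfl⟩
  rw [← hc] at hj1 hj2
  have haj := ha1 j
  have hwj := hw1 j
  have h0a : a j ≠ 0 := left_ne_zero_of_mul_eq_one haj
  have h0w : w j ≠ 0 := left_ne_zero_of_mul_eq_one hwj
  have hcu : c * star c = 1 := by
    rw [hc]
    simp only [star_mul, star_star]
    have haj' : star (a j) * a j = 1 := by
      rw [eq_inv_of_mul_eq_one_right haj, inv_mul_cancel₀ h0a]
    have hwj' : star (w j) * w j = 1 := by
      rw [eq_inv_of_mul_eq_one_right hwj, inv_mul_cancel₀ h0w]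
    calc a j * w j * star (a j) * star (w j) * (w j * (a j * (star (w j) * star (a j))))
        = a j * w j * star (a j) * (star (w j) * w j) * (a j * (star (w j) * star (a j))) := by
          simp only [mul_assoc]
      _ = a j * w j * (star (a j) * a j) * (star (w j) * star (a j)) := by
          rw [hwj', mul_one]; simp only [mul_assoc]
      _ = a j * (w j * star (w j)) * star (a j) := by rw [haj', mul_one]; simp only [mul_assoc]
      _ = 1 := by rw [hwj, mul_one, haj]
  have hc0 : c ≠ 0 := left_ne_zero_of_mul_eq_one hcu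
  have hcd : (f₀ c).det = 1 := by
    have h1 : c = a j * w j * (a j)⁻¹ * (w j)⁻¹ := by
      rw [hc, eq_inv_of_mul_eq_one_right haj, eq_inv_of_mul_eq_one_right hwj]
    have h2 : (f₀ (a j)).det * (f₀ (a j)⁻¹).det = 1 := by
      rw [← Matrix.det_mul, ← map_mul, mul_inv_cancel₀ h0a, map_one, Matrix.det_one]
    have h3 : (f₀ (w j)).det * (f₀ (w j)⁻¹).det = 1 := by
      rw [← Matrix.det_mul, ← map_mul, mul_inv_cancel₀ h0w, map_one, Matrix.det_one]
    rw [h1, map_mul, map_mul, map_mul, Matrix.det_mul, Matrix.det_mul, Matrix.det_mul]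
    calc (f₀ (a j)).det * (f₀ (w j)).det * (f₀ (a j)⁻¹).det * (f₀ (w j)⁻¹).det
        = ((f₀ (a j)).det * (f₀ (a j)⁻¹).det) * ((f₀ (w j)).det * (f₀ (w j)⁻¹).det) := by ring
      _ = 1 := by rw [h2, h3, one_mul]
  have hcS : Units.mk0 c hc0 ∈ SUD f₀ := ⟨hcu, hcd⟩
  have hval : (((Units.mk0 c hc0) ^ M1 : Dˣ) : D) = c ^ M1 := by
    rw [Units.val_pow_eq_pow_val, Units.val_mk0]
  refine ⟨(Units.mk0 c hc0) ^ M1, pow_mem hcS M1, fun p hp => ?_, fun h hh => ?_⟩
  · rw [hval]
    exact hj1 p hp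
  · rw [hval, ← pow_mul]
    have h1 : ∀ v ∈ S', _ := fun v hv => hxy v hv c hcu (hj2 v hv) h hh
    refine ⟨(h1 v₀ (hS' ▸ Finset.mem_insert_self _ _)).1, fun v hv V hV => ?_⟩
    exact (h1 v (hS' ▸ Finset.mem_insert_of_mem hv)).2 V hV

end Vale.Agent.P011.H487.Spl
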