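import Vale.Agent.P011.H487.SplM2
import Vale.Agent.P011.H856.Spl
import Vale.Agent.P011.H525.WeddN
import Vale.Agent.P011.H976.Newt
import Vale.Agent.P011.Arith.Quad

/-!
# Split elements: the minimal polynomial at the places above
-/

open Module NumberField IsDedekindDomain Filter Topology Matrix Polynomial

set_option linter.unusedSectionVars false

namespace Vale.Agent.P011.H487.Spl

open Vale.Agent.P011.Arith Vale.Agent.P011.Even Vale.Agent.P011.Two Vale.Agent.P011.One
  Vale.Agent.P011.H182

section alg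

variable {K : Type} [Field K]

theorem eq_of_sep {P q : K[X]} (hq : Irreducible q) {r n : ℕ} (hn : 0 < n) (hP : P = q ^ r)
    (hd : P.natDegree = n) (hs : P.Separable) : P = q := by
  have hr : r = 1 := by
    by_contra hr
    rcases Nat.lt_or_gt_of_ne hr with h | h
    · have h0 : r = 0 := by omega
      rw [hP, h0, pow_zero, natDegree_one] at hd
      omega
    · have h1 : q * q ∣ P := by
        rw [hP, ← pow_two]
        exact pow_dvd_pow q h
      exact hq.not_isUnit (hs.squarefree q h1)
  rw [hP, hr, pow_one]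

end alg

section core

variable {K D : Type} [Field K] [NumberField K] [StarRing K] [DivisionRing D] [StarRing D]
  [Algebra K D] [FiniteDimensional K D] [Algebra.IsCentral K D] {n : ℕ}

/-- Splitting at a place above, from the Newton condition in an embedding. -/
theorem spl_core (hst : ∀ (c : K) (x : D), star (c • x) = star c • star x) (hn : 0 < n)
    (hdeg : finrank K D = n ^ 2) {Ω : Type} [Field Ω] [Algebra K Ω]
    (f₀ : D →ₐ[K] Matrix (Fin n) (Fin n) Ω) {L : Type} [NormedField L] (φ : K →+* L)
    (f : D →+* Matrix (Fin n) (Fin n) L)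
    (hmap : ∀ c : K, f (algebraMap K D c) = Matrix.scalar (Fin n) (φ c)) {z : D}
    (hz : z * star z = 1) (hNW : NW n fun i => ‖(f z).charpoly.coeff i‖)
    (V : HeightOneSpectrum (𝓞 K))
    (hV : (∀ y : K, V.valuation K y ≤ 1 → ‖φ y‖ ≤ 1) ∨
      ∀ y : K, V.valuation K y ≤ 1 → ‖φ (star y)‖ ≤ 1) :
    (minpoly K z).natDegree = n ∧
      ((minpoly K z).map (algebraMap K (V.adicCompletion K))).Splits := by
  obtain ⟨P, hPm, hPd, hP⟩ := H268.exists_charpoly hn hdeg f₀ z
  have hPf : (f z).charpoly = P.map φ := by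
    let _ : Algebra K L := φ.toAlgebra
    let g : D →ₐ[K] Matrix (Fin n) (Fin n) L :=
      { f with
        commutes' := fun c => by
          change f (algebraMap K D c) = _
          rw [hmap]
          rfl }
    exact H268.charpoly_compare' hn hdeg f₀ g z hP
  obtain ⟨r, hr⟩ := H525.charpoly_eq_pow f₀ z hPm hP
  have hirr : Irreducible (minpoly K z) := minpoly.irreducible (Algebra.IsIntegral.isIntegral z)
  obtain ⟨h0, hc⟩ := hNW
  simp only [hPf, coeff_map] at h0 hc
  have h00 : P.coeff 0 ≠ 0 := by
    intro h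
    rw [h, map_zero, norm_zero] at h0
    exact lt_irrefl _ h0
  rcases hV with hV | hV
  · have hc' : ∀ i, 0 < i → i < n → V.valuation K (P.coeff (i - 1)) *
        V.valuation K (P.coeff (i + 1)) < V.valuation K (P.coeff i) ^ 2 := by
      intro i hi hin
      rw [← map_mul, ← map_pow]
      refine H856.Spl.val_lt_iff φ hV ?_
      rw [map_mul, map_pow, norm_mul, norm_pow]
      exact hc i hi hin
    obtain ⟨h1, h2, -⟩ := H976.Newt.newt_adic V hPm hPd h00 hc'
    have h3 := eq_of_sep hirr hn hr hPd ((separable_map _).mp h2)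
    rw [← h3]
    exact ⟨hPd, h1⟩
  · have hQm : (P.map (starRingEnd K)).Monic := hPm.map _
    have hQd : (P.map (starRingEnd K)).natDegree = n := by rw [natDegree_map, hPd]
    have hQc : ∀ i, (P.map (starRingEnd K)).coeff i = star (P.coeff i) := fun i => coeff_map _ _
    have hsc : ∀ i, 0 < i → i < n → V.valuation K (star (P.coeff (i - 1))) *
        V.valuation K (star (P.coeff (i + 1))) < V.valuation K (star (P.coeff i)) ^ 2 := by
      intro i hi hin
      rw [← map_mul, ← map_pow]
      refine H856.Spl.val_lt_iff (φ.comp (starRingEnd K)) hV ?_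
      change ‖φ (star (star (P.coeff (i - 1)) * star (P.coeff (i + 1))))‖ <
        ‖φ (star (star (P.coeff i) ^ 2))‖
      rw [star_mul', star_star, star_star, star_pow, star_star, map_mul, map_pow, norm_mul,
        norm_pow]
      exact hc i hi hin
    obtain ⟨-, h2, -⟩ := H976.Newt.newt_adic V hQm hQd (by
      rw [hQc]
      exact star_ne_zero.mpr h00) fun i hi hin => by
        rw [hQc, hQc, hQc]
        exact hsc i hi hin
    have h3 := eq_of_sep hirr hn hr hPd ((separable_map _).mp ((separable_map _).mp h2))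
    have hrev : ∀ i ≤ n, P.coeff (n - i) = star (P.coeff i) * P.coeff 0 := by
      intro i hi
      have h4 := H856.Spl.rev_coeff (K := K) hst hz (i := i) (by rw [← h3, hPd]; exact hi)
      rw [← h3, hPd] at h4
      exact h4.symm
    have hc' : ∀ i, 0 < i → i < n → V.valuation K (P.coeff (i - 1)) *
        V.valuation K (P.coeff (i + 1)) < V.valuation K (P.coeff i) ^ 2 := by
      intro i hi hin
      have e1 : P.coeff (i - 1) = star (P.coeff (n - i + 1)) * P.coeff 0 := by
        rw [← hrev _ (by omega)]
        congr 1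
        omega
      have e2 : P.coeff (i + 1) = star (P.coeff (n - i - 1)) * P.coeff 0 := by
        rw [← hrev _ (by omega)]
        congr 1
        omega
      have e3 : P.coeff i = star (P.coeff (n - i)) * P.coeff 0 := by
        rw [← hrev _ (by omega)]
        congr 1
        omega
      have h5 := hsc (n - i) (by omega) (by omega)
      have h6 : 0 < V.valuation K (P.coeff 0) := by
        rw [zero_lt_iff]
        exact (Valuation.ne_zero_iff _).mpr h00
      rw [e1, e2, e3, map_mul, map_mul, map_mul]
      calc V.valuation K (star (P.coeff (n - i + 1))) * V.valuation K (P.coeff 0) *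
            (V.valuation K (star (P.coeff (n - i - 1))) * V.valuation K (P.coeff 0))
          = (V.valuation K (star (P.coeff (n - i - 1))) *
            V.valuation K (star (P.coeff (n - i + 1)))) * V.valuation K (P.coeff 0) ^ 2 := by
            rw [pow_two, mul_mul_mul_comm, mul_comm (V.valuation K (star (P.coeff (n - i + 1))))]
        _ < V.valuation K (star (P.coeff (n - i))) ^ 2 * V.valuation K (P.coeff 0) ^ 2 :=
            mul_lt_mul_of_pos_right h5 (pow_pos h6 2)
        _ = _ := by rw [mul_pow]
    obtain ⟨h1, -, -⟩ := H976.Newt.newt_adic V hPm hPd h00 hc'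
    rw [← h3]
    exact ⟨hPd, h1⟩

end core

section loc

variable {k K D : Type} [Field k] [NumberField k] [Field K] [StarRing K] [NumberField K]
    [DivisionRing D] [StarRing D] [Algebra k K] [Algebra k D] [Algebra K D] [IsScalarTower k K D]
    {d : kˣ} {s : K} {N n : ℕ}

/-- **The local input at one place.** -/
theorem loc_one (hS : Setting k K D d s) {m : ℕ} (hn : n = 2 * m + 1) (hn3 : 3 ≤ n)
    (hdeg : finrank K D = n ^ 2) {Ω : Type} [Field Ω] [Algebra K Ω]
    (f₀ : D →ₐ[K] Matrix (Fin n) (Fin n) Ω) (B : Basis (Fin N) k D) (v : HeightOneSpectrum (𝓞 k))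
    (hv : d ∈ LS (v.valuation k) → ∃ (φ : K →+* v.adicCompletion k)
      (f : D →+* Matrix (Fin n) (Fin n) (v.adicCompletion k)), SplAt K D n v φ f)
    (hs : Finset D) (hu : ∀ h ∈ hs, h * star h = 1) :
    ∃ M0 : ℕ, ∀ M, M0 ≤ M → ∃ (x y : unitary D) (δ : ℝ), 0 < δ ∧ ∀ g : D, g * star g = 1 →
      nm B (Sum.inl v) (g - ((x * y * x⁻¹ * y⁻¹ : unitary D) : D)) < δ →
      ∀ h ∈ hs, (minpoly K (h * g ^ M)).natDegree = n ∧
        ∀ V : HeightOneSpectrum (𝓞 K), Ab V v →
          ((minpoly K (h * g ^ M)).map (algebraMap K (V.adicCompletion K))).Splits := by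
  have := hS.fin
  have := hS.cen
  have hn0 : 0 < n := by omega
  have hfix : ∀ x : K, star x = x → ∃ c : k, algebraMap k K c = x := fun x hx => (hS.fix x).mp hx
  obtain ⟨L, iL, φ, f, hL⟩ : ∃ (L : Type) (_ : NormedField L) (φ : K →+* L)
      (f : D →+* Matrix (Fin n) (Fin n) L), LocM B v n L φ f := by
    by_cases hd : d ∈ LS (v.valuation k)
    · obtain ⟨φ, f, h⟩ := hv hd
      exact ⟨v.adicCompletion k, inferInstance, φ, f, locM_split hS h hn0 hdeg B⟩
    · exact locM_nonsplit hS hn hn3 hdeg B v hd
  have hult := hL.ult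
  obtain ⟨M0, hM0⟩ := hL.spl hs fun h hh h0 => by
    have h1 := hu h hh
    rw [h0, zero_mul] at h1
    exact zero_ne_one h1
  refine ⟨M0, fun M hM => ?_⟩
  obtain ⟨x, y, δ, hδ, hg⟩ := hM0 M hM
  refine ⟨x, y, δ, hδ, fun g hgu hgd h hh => ?_⟩
  have hNW := hg g hgd h hh
  have hgM : ∀ M : ℕ, g ^ M * star (g ^ M) = 1 := by
    intro M
    induction M with
    | zero => rw [pow_zero, star_one, one_mul]
    | succ M ih =>
      rw [pow_succ, star_mul, mul_assoc, ← mul_assoc g, hgu, one_mul, ih]
  have hz : (h * g ^ M) * star (h * g ^ M) = 1 := by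
    rw [star_mul, mul_assoc, ← mul_assoc (g ^ M), hgM, one_mul, hu h hh]
  have key : ∀ V : HeightOneSpectrum (𝓞 K), Ab V v → (minpoly K (h * g ^ M)).natDegree = n ∧
      ((minpoly K (h * g ^ M)).map (algebraMap K (V.adicCompletion K))).Splits := fun V hV =>
    spl_core hS.star_smul hn0 hdeg f₀ φ f hL.map hz hNW V
      (H856.Spl.place_or hfix hV φ hL.base)
  obtain ⟨V₀, hV₀⟩ := exists_above (E := K) v
  exact ⟨(key V₀ hV₀).1, fun V hV => (key V hV).2⟩

end loc

end Vale.Agent.P011.H487.Spl
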