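import Vale.Agent.P011.H487.SplO
import Vale.Agent.P011.H182.LocS
import Vale.Agent.P011.One.TwoSplit
import Vale.Agent.P011.H496.Spl.GL

/-!
# Split elements: the places which split
-/

open Module NumberField IsDedekindDomain Filter Topology Matrix TensorProduct

set_option linter.unusedSectionVars false

namespace Vale.Agent.P011.H487.Spl

open Vale.Agent.P011.Arith Vale.Agent.P011.Even Vale.Agent.P011.Two Vale.Agent.P011.One
  Vale.Agent.P011.H182

/-- **The local step**, in the form which is used for all places. -/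
structure LocM {k K D : Type} [Field k] [NumberField k] [Field K] [StarRing K]
    [DivisionRing D] [StarRing D] [Algebra k K] [Algebra k D] [Algebra K D] {N : ℕ}
    (B : Basis (Fin N) k D) (v : HeightOneSpectrum (𝓞 k)) (n : ℕ)
    (L : Type) [NormedField L] (φ : K →+* L) (f : D →+* Matrix (Fin n) (Fin n) L) : Prop where
  ult : IsUltrametricDist L
  base : ∀ c : k, ‖φ (algebraMap k K c)‖ = ‖algebraMap k (v.adicCompletion k) c‖
  map : ∀ c : K, f (algebraMap K D c) = Matrix.scalar (Fin n) (φ c)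
  spl : ∀ hs : Finset D, (∀ h ∈ hs, h ≠ 0) → ∃ M0 : ℕ, ∀ M, M0 ≤ M →
    ∃ (x y : unitary D) (δ : ℝ), 0 < δ ∧ ∀ g : D,
      nm B (Sum.inl v) (g - ((x * y * x⁻¹ * y⁻¹ : unitary D) : D)) < δ →
      ∀ h ∈ hs, NW n fun i => ‖(f (h * g ^ M)).charpoly.coeff i‖

variable {k K D : Type} [Field k] [NumberField k] [Field K] [StarRing K]
    [DivisionRing D] [StarRing D] [Algebra k K] [Algebra k D] [Algebra K D] [IsScalarTower k K D]
    {d : kˣ} {s : K} {N n : ℕ}

/-- The model at a place which splits. -/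
theorem mdl_split (hS : Setting k K D d s) {v : HeightOneSpectrum (𝓞 k)}
    {φ : K →+* v.adicCompletion k} {f : D →+* Matrix (Fin n) (Fin n) (v.adicCompletion k)}
    (h : SplAt K D n v φ f) (hn : 0 < n) (hdeg : finrank K D = n ^ 2) (B : Basis (Fin N) k D) :
    ∃ (BE : Basis (Fin N) (v.adicCompletion k) (Matrix (Fin n) (Fin n) (v.adicCompletion k) ×
        (Matrix (Fin n) (Fin n) (v.adicCompletion k))ᵐᵒᵖ))
      (jm : D →+* Matrix (Fin n) (Fin n) (v.adicCompletion k) ×
        (Matrix (Fin n) (Fin n) (v.adicCompletion k))ᵐᵒᵖ)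
      (_ : Mdl BE (swp (v.adicCompletion k) (Matrix (Fin n) (Fin n) (v.adicCompletion k))) B
        (fa v) jm), ∀ x, (jm x).1 = f x := by
  have := hS.fin
  have hst : ∀ (c : k) (x : D), star (c • x) = c • star x :=
    fun c x => (Setting.sig hS).map_smul c x
  let F := v.adicCompletion k
  let A := Matrix (Fin n) (Fin n) F
  let i2 : D →+* Aᵐᵒᵖ :=
    { toFun := fun x => MulOpposite.op (f (star x))
      map_one' := by rw [star_one, map_one]; rfl
      map_mul' := fun x y => by rw [star_mul, map_mul]; rfl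
      map_zero' := by rw [star_zero, map_zero]; rfl
      map_add' := fun x y => by rw [star_add, map_add]; rfl }
  let jm : D →+* A × Aᵐᵒᵖ := f.prod i2
  have hjm : ∀ x, jm x = (f x, MulOpposite.op (f (star x))) := fun x => rfl
  have hfs : ∀ (a : k) (x : D), f (a • x) = algebraMap k F a • f x := by
    intro a x
    have e : a • x = algebraMap K D (algebraMap k K a) * x := by
      rw [← IsScalarTower.algebraMap_apply k K D, Algebra.smul_def]
    rw [e, map_mul, h.map, h.base, Matrix.scalar_apply, ← Matrix.smul_eq_diagonal_mul]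
  have hsm : ∀ (a : k) (x : D), jm (a • x) = algebraMap k F a • jm x := by
    intro a x
    rw [hjm, hjm, hst, hfs, hfs]
    rfl
  have htop : ⊤ ≤ Submodule.span F (Set.range fun j => jm (B j)) := by
    rintro ⟨X, Y⟩ -
    obtain ⟨z, hz⟩ := h.mod_surj hS hn hdeg (X, Y.unop)
    rw [SplAt.mod_apply, Prod.mk.injEq] at hz
    let BA := Algebra.TensorProduct.basis F B
    have hzs : ∑ j, BA.repr z j • ((1 : F) ⊗ₜ[k] B j) = z := by
      conv_rhs => rw [← BA.sum_repr z]
      exact Finset.sum_congr rfl fun j _ => by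
        rw [Algebra.TensorProduct.basis_apply]
    have e1 : ∑ j, BA.repr z j • jm (B j) = (X, Y) := by
      have h1 : X = ∑ j, BA.repr z j • f (B j) := by
        rw [← hz.1]
        conv_lhs => rw [← hzs]
        rw [map_sum]
        refine Finset.sum_congr rfl fun j _ => ?_
        rw [map_smul, h.pr_tmul, one_smul]
      have h2 : Y.unop = ∑ j, BA.repr z j • f (star (B j)) := by
        rw [← hz.2]
        conv_lhs => rw [← hzs]
        rw [map_sum, map_sum]
        refine Finset.sum_congr rfl fun j _ => ?_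
        rw [map_smul, map_smul, sg_tmul, h.pr_tmul, one_smul]
      refine Prod.ext ?_ (MulOpposite.unop_injective ?_)
      · rw [Prod.fst_sum, h1]
        rfl
      · rw [Prod.snd_sum, h2, Finset.unop_sum]
        rfl
    rw [← e1]
    exact Submodule.sum_mem _ fun j _ => Submodule.smul_mem _ _
      (Submodule.subset_span ⟨j, rfl⟩)
  have hfA : Module.finrank F A = n ^ 2 := by
    rw [Module.finrank_matrix, Fintype.card_fin, finrank_self, mul_one, sq]
  have hfinA : Module.Finite F A := inferInstance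
  have hfO : Module.finrank F Aᵐᵒᵖ = n ^ 2 := by
    rw [← hfA]
    exact (LinearEquiv.finrank_eq (MulOpposite.opLinearEquiv F : A ≃ₗ[F] Aᵐᵒᵖ)).symm
  have hfinO : Module.Finite F Aᵐᵒᵖ :=
    Module.Finite.equiv (MulOpposite.opLinearEquiv F : A ≃ₗ[F] Aᵐᵒᵖ)
  have hcard : Module.finrank F (A × Aᵐᵒᵖ) = N := by
    have h1 : finrank k D = N := by rw [Module.finrank_eq_card_basis B, Fintype.card_fin]
    have h2 := Module.finrank_mul_finrank k K D
    rw [hS.rank, hdeg, h1] at h2
    rw [Module.finrank_prod, hfA, hfO, ← h2]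
    ring
  let BE : Basis (Fin N) F (A × Aᵐᵒᵖ) :=
    basisOfTopLeSpanOfCardEqFinrank (fun j => jm (B j)) htop (by rw [Fintype.card_fin, hcard])
  have hBE : ∀ j, BE j = jm (B j) := fun j => by
    rw [coe_basisOfTopLeSpanOfCardEqFinrank]
  refine ⟨BE, jm, ?_, fun x => rfl⟩
  exact
    { smul := hsm
      basis := hBE
      star := fun x => by
        rw [hjm, hjm, star_star]
        rfl
      norm := fun x => norm_algebraMap_eq v x }

/-- **The places which split.** -/
theorem locM_split (hS : Setting k K D d s) {v : HeightOneSpectrum (𝓞 k)}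
    {φ : K →+* v.adicCompletion k} {f : D →+* Matrix (Fin n) (Fin n) (v.adicCompletion k)}
    (h : SplAt K D n v φ f) (hn : 0 < n) (hdeg : finrank K D = n ^ 2) (B : Basis (Fin N) k D) :
    LocM B v n (v.adicCompletion k) φ f := by
  classical
  let _ := nnf v
  have := isUltra v
  have := hS.fin
  have : NeZero n := ⟨hn.ne'⟩
  obtain ⟨BE, jm, hm, hj⟩ := mdl_split hS h hn hdeg B
  refine ⟨isUltra v, fun c => by rw [h.base], h.map, fun hs hs0 => ?_⟩
  have hfin : Module.Finite (v.adicCompletion k) (Matrix (Fin n) (Fin n) (v.adicCompletion k)) :=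
    inferInstance
  have hden : ∀ (y : v.adicCompletion k) (ε : ℝ), 0 < ε →
      ∃ x : k, ‖algebraMap k (v.adicCompletion k) x - y‖ < ε := by
    intro y ε hε
    obtain ⟨x, hx⟩ := dense v y ε hε
    exact ⟨x, by rwa [← norm_neg, neg_sub]⟩
  have hshift : ∀ S : UT BE (swp (v.adicCompletion k) (Matrix (Fin n) (Fin n) (v.adicCompletion k))),
      ∃ Z : UT BE (swp (v.adicCompletion k) (Matrix (Fin n) (Fin n) (v.adicCompletion k))),
        (∀ W, Z * W = W * Z) ∧ IsUnit (1 + (Z * S).val) := by
    intro S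
    obtain ⟨a, rfl⟩ := mkU_surj BE S
    obtain ⟨t, ht, htu⟩ := exists_shift (F := v.adicCompletion k) a
    refine ⟨mkU BE t, fun W => ?_, ?_⟩
    · obtain ⟨w, rfl⟩ := mkU_surj BE W
      rw [← map_mul, ht, map_mul]
    · rw [← map_mul, mkU_val]
      obtain ⟨V, hV⟩ := htu
      have h3 : IsUnit (1 + (((t * a)⁻¹ : (Matrix (Fin n) (Fin n) (v.adicCompletion k))ˣ) :
          Matrix (Fin n) (Fin n) (v.adicCompletion k))) := by
        have e : 1 + (((t * a)⁻¹ : (Matrix (Fin n) (Fin n) (v.adicCompletion k))ˣ) :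
            Matrix (Fin n) (Fin n) (v.adicCompletion k)) =
            (((t * a)⁻¹ : (Matrix (Fin n) (Fin n) (v.adicCompletion k))ˣ) :
              Matrix (Fin n) (Fin n) (v.adicCompletion k)) *
            (1 + ((t * a : (Matrix (Fin n) (Fin n) (v.adicCompletion k))ˣ) :
              Matrix (Fin n) (Fin n) (v.adicCompletion k))) := by
          rw [mul_add, mul_one, Units.inv_mul, add_comm]
        rw [e, ← hV]
        exact (Units.isUnit _).mul V.isUnit
      rw [Prod.isUnit_iff]
      refine ⟨?_, ?_⟩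
      · change IsUnit (1 + ((t * a : (Matrix (Fin n) (Fin n) (v.adicCompletion k))ˣ) :
          Matrix (Fin n) (Fin n) (v.adicCompletion k)))
        rw [← hV]
        exact V.isUnit
      · change IsUnit (1 + MulOpposite.op (((t * a)⁻¹ :
          (Matrix (Fin n) (Fin n) (v.adicCompletion k))ˣ) :
            Matrix (Fin n) (Fin n) (v.adicCompletion k)))
        exact h3.op
  let π : (Matrix (Fin n) (Fin n) (v.adicCompletion k) ×
      (Matrix (Fin n) (Fin n) (v.adicCompletion k))ᵐᵒᵖ) →ₐ[v.adicCompletion k]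
      Matrix (Fin n) (Fin n) (v.adicCompletion k) := AlgHom.fst _ _ _
  have hdet : ∀ A ∈ hs.image f, A.det ≠ 0 := by
    intro A hA
    obtain ⟨x, hx, rfl⟩ := Finset.mem_image.mp hA
    have h1 : f x * f x⁻¹ = 1 := by rw [← map_mul, mul_inv_cancel₀ (hs0 x hx), map_one]
    intro h0
    have h2 := congrArg Matrix.det h1
    rw [Matrix.det_mul, h0, zero_mul, Matrix.det_one] at h2
    exact zero_ne_one h2
  obtain ⟨a, w, M0, hM0⟩ := Vale.Agent.P011.H496.Spl.loc_gl (hs.image f) hdet
  refine ⟨M0, fun M hM => ?_⟩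
  have h1 : ∀ A ∈ hs.image f, NW n fun i =>
      ‖(A * π (mkU BE a * mkU BE w * (mkU BE a)⁻¹ * (mkU BE w)⁻¹).val ^ M).charpoly.coeff i‖ := by
    intro A hA
    have e : π (mkU BE a * mkU BE w * (mkU BE a)⁻¹ * (mkU BE w)⁻¹).val =
        ((a * w * a⁻¹ * w⁻¹ : (Matrix (Fin n) (Fin n) (v.adicCompletion k))ˣ) :
          Matrix (Fin n) (Fin n) (v.adicCompletion k)) := by
      rw [← map_inv, ← map_inv, ← map_mul, ← map_mul, ← map_mul, mkU_val]
      rfl
    rw [e]
    exact hM0 M hM A hA
  obtain ⟨x, y, δ, hδ, hg⟩ := loc_mdl hm hden hshift π (hs.image f) h1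
  refine ⟨x, y, δ, hδ, fun g hgd h hh => ?_⟩
  have h2 := hg g hgd (f h) (Finset.mem_image_of_mem _ hh)
  have e : f (h * g ^ M) = f h * π (jm g) ^ M := by
    rw [map_mul, map_pow]
    change _ = f h * (jm g).1 ^ M
    rw [hj]
  rw [e]
  exact h2

end Vale.Agent.P011.H487.Spl
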