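import Vale.Agent.P011.H487.SplU
import Vale.Agent.P011.H487.UnbdU
import Vale.Agent.P011.H496.Spl.Asym

/-!
# Split elements of the unitary group of a hermitian form over a local field, existence
-/

open Module Matrix

namespace Vale.Agent.P011.H487.Spl

variable {n : ℕ}

section alg

variable {L : Type} [Field L]

/-- Characteristic polynomials of conjugates. -/
theorem charpoly_conj (P : (Matrix (Fin n) (Fin n) L)ˣ) (A : Matrix (Fin n) (Fin n) L) :
    ((P : Matrix (Fin n) (Fin n) L) * A * ((P⁻¹ : (Matrix (Fin n) (Fin n) L)ˣ) :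
      Matrix (Fin n) (Fin n) L)).charpoly = A.charpoly := by
  rw [Matrix.charpoly_mul_comm, ← Matrix.mul_assoc, Units.inv_mul, Matrix.one_mul]

/-- The characteristic polynomial of `A (P⁻¹ D P) ^ M` for a diagonal matrix. -/
theorem charpoly_frame (P : (Matrix (Fin n) (Fin n) L)ˣ) (A A' : Matrix (Fin n) (Fin n) L)
    (hA : (P : Matrix (Fin n) (Fin n) L) * A = A' * P) (t : Fin n → L) (M : ℕ) :
    (A * (((P⁻¹ : (Matrix (Fin n) (Fin n) L)ˣ) : Matrix (Fin n) (Fin n) L) *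
      Matrix.diagonal t * P) ^ M).charpoly = (A'ᵀ * Matrix.diagonal t ^ M).charpoly := by
  have h1 : (P : Matrix (Fin n) (Fin n) L) * (((P⁻¹ : (Matrix (Fin n) (Fin n) L)ˣ) :
      Matrix (Fin n) (Fin n) L) * Matrix.diagonal t * P) ^ M = Matrix.diagonal t ^ M * P := by
    induction M with
    | zero => rw [pow_zero, pow_zero, Matrix.one_mul, Matrix.mul_one]
    | succ M ih =>
      rw [pow_succ, ← Matrix.mul_assoc, ih, pow_succ]
      calc Matrix.diagonal t ^ M * (P : Matrix (Fin n) (Fin n) L) *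
            (((P⁻¹ : (Matrix (Fin n) (Fin n) L)ˣ) : Matrix (Fin n) (Fin n) L) *
              Matrix.diagonal t * P)
          = Matrix.diagonal t ^ M * ((P : Matrix (Fin n) (Fin n) L) *
            ((P⁻¹ : (Matrix (Fin n) (Fin n) L)ˣ) : Matrix (Fin n) (Fin n) L)) *
              (Matrix.diagonal t * P) := by simp only [Matrix.mul_assoc]
        _ = _ := by rw [Units.mul_inv, Matrix.mul_one, Matrix.mul_assoc]
  rw [← charpoly_conj P, ← Matrix.mul_assoc, hA]
  have h2 : A' * (P : Matrix (Fin n) (Fin n) L) * (((P⁻¹ : (Matrix (Fin n) (Fin n) L)ˣ) :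
      Matrix (Fin n) (Fin n) L) * Matrix.diagonal t * P) ^ M *
      ((P⁻¹ : (Matrix (Fin n) (Fin n) L)ˣ) : Matrix (Fin n) (Fin n) L) =
      A' * Matrix.diagonal t ^ M := by
    rw [Matrix.mul_assoc A', h1, Matrix.mul_assoc, Matrix.mul_assoc, Units.mul_inv, Matrix.mul_one]
  rw [h2, ← Matrix.charpoly_transpose, Matrix.transpose_mul, Matrix.charpoly_mul_comm,
    Matrix.transpose_pow, Matrix.diagonal_transpose]

end alg

section uni

variable {L : Type} [NontriviallyNormedField L] [IsUltrametricDist L] [StarRing L]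

/-- elements fixed by the involution form an infinite set -/
theorem infinite_fixed (hst : ∀ x : L, ‖star x‖ = ‖x‖) : {t : L | star t = t}.Infinite := by
  obtain ⟨t, ht, ht1⟩ := exists_real hst
  have hinj : Function.Injective fun j : ℕ => t ^ j := by
    intro i j hij
    have h1 : ‖t‖ ^ i = ‖t‖ ^ j := by rw [← norm_pow, ← norm_pow]; exact congrArg norm hij
    exact (pow_right_injective₀ (by linarith) ht1.ne') h1
  refine (Set.infinite_range_of_injective hinj).mono ?_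
  rintro _ ⟨j, rfl⟩
  change star (t ^ j) = t ^ j
  rw [star_pow, ht]

/-- **Split elements of the unitary group.** -/
theorem loc_u (hne : ∃ x : L, star x ≠ x) (hst : ∀ x : L, ‖star x‖ = ‖x‖)
    (hiso : ∀ (V : Type) [AddCommGroup V] [Module L V] [FiniteDimensional L V] (h : HForm L V),
      h.Nondeg → 3 ≤ finrank L V → ∃ z : V, z ≠ 0 ∧ h.b z z = 0)
    {m : ℕ} (hn : n = 2 * m + 1) {H : Matrix (Fin n) (Fin n) L} (hH : Hᴴ = H) (hdet : H.det ≠ 0)
    (hs : Finset (Matrix (Fin n) (Fin n) L)) (hs0 : ∀ A ∈ hs, A.det ≠ 0) :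
    ∃ a w : (Matrix (Fin n) (Fin n) L)ˣ,
      ((a : Matrix (Fin n) (Fin n) L) * H * (a : Matrix (Fin n) (Fin n) L)ᴴ = H) ∧
      ((w : Matrix (Fin n) (Fin n) L) * H * (w : Matrix (Fin n) (Fin n) L)ᴴ = H) ∧
      ∃ M0 : ℕ, ∀ M, M0 ≤ M → ∀ A ∈ hs, NW n fun i =>
        ‖(A * ((a * w * a⁻¹ * w⁻¹ : (Matrix (Fin n) (Fin n) L)ˣ) :
          Matrix (Fin n) (Fin n) L) ^ M).charpoly.coeff i‖ := by
  classical
  have hnd := rowForm_nondeg hH hdet
  obtain ⟨v, g, hv, hg, hL⟩ := HForm.exists_frame (K := L) hne (infinite_fixed hst) hiso m n hn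
    (Fin n → L) (rowForm H hH) hnd (by rw [Module.finrank_fin_fun])
    ((fun A : Matrix (Fin n) (Fin n) L => A.vecMulLinear) '' (hs : Set _))
    (hs.finite_toSet.image _) (by
      rintro _ ⟨A, hA, rfl⟩
      exact Matrix.vecMul_injective_of_isUnit
        ((Matrix.isUnit_iff_isUnit_det A).mpr (isUnit_iff_ne_zero.mpr (hs0 A hA))))
  -- the change of basis
  have hPu : IsUnit (Matrix.of v : Matrix (Fin n) (Fin n) L) := by
    have h1 := hv.linearIndependent
    exact Matrix.linearIndependent_rows_iff_isUnit.mp h1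
  obtain ⟨P, hP⟩ := hPu
  have hJ : (P : Matrix (Fin n) (Fin n) L) * H * (P : Matrix (Fin n) (Fin n) L)ᴴ = ad g := by
    ext i j
    have h1 := hv.gram i j
    rw [rowForm_b] at h1
    rw [hP, ad, ← h1, Matrix.mul_assoc, Matrix.mul_apply, dotProduct]
    refine Finset.sum_congr rfl fun l _ => ?_
    rfl
  have hconj : ∀ T : (Matrix (Fin n) (Fin n) L)ˣ,
      (T : Matrix (Fin n) (Fin n) L) * ad g * (T : Matrix (Fin n) (Fin n) L)ᴴ = ad g →
      ((P⁻¹ * T * P : (Matrix (Fin n) (Fin n) L)ˣ) : Matrix (Fin n) (Fin n) L) * H *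
        ((P⁻¹ * T * P : (Matrix (Fin n) (Fin n) L)ˣ) : Matrix (Fin n) (Fin n) L)ᴴ = H := by
    intro T hT
    rw [Units.val_mul, Units.val_mul, Matrix.conjTranspose_mul, Matrix.conjTranspose_mul]
    calc ((P⁻¹ : (Matrix (Fin n) (Fin n) L)ˣ) : Matrix (Fin n) (Fin n) L) * T * P * H *
          ((P : Matrix (Fin n) (Fin n) L)ᴴ * ((T : Matrix (Fin n) (Fin n) L)ᴴ *
            ((P⁻¹ : (Matrix (Fin n) (Fin n) L)ˣ) : Matrix (Fin n) (Fin n) L)ᴴ))
        = ((P⁻¹ : (Matrix (Fin n) (Fin n) L)ˣ) : Matrix (Fin n) (Fin n) L) * (T *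
          (P * H * (P : Matrix (Fin n) (Fin n) L)ᴴ) * (T : Matrix (Fin n) (Fin n) L)ᴴ) *
            ((P⁻¹ : (Matrix (Fin n) (Fin n) L)ˣ) : Matrix (Fin n) (Fin n) L)ᴴ := by
          simp only [Matrix.mul_assoc]
      _ = ((P⁻¹ : (Matrix (Fin n) (Fin n) L)ˣ) : Matrix (Fin n) (Fin n) L) *
            (P * H * (P : Matrix (Fin n) (Fin n) L)ᴴ) *
            ((P⁻¹ : (Matrix (Fin n) (Fin n) L)ˣ) : Matrix (Fin n) (Fin n) L)ᴴ := by
          rw [hJ, hT]
      _ = (((P⁻¹ : (Matrix (Fin n) (Fin n) L)ˣ) : Matrix (Fin n) (Fin n) L) *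
            (P : Matrix (Fin n) (Fin n) L)) * H *
            (((P⁻¹ : (Matrix (Fin n) (Fin n) L)ˣ) : Matrix (Fin n) (Fin n) L) *
            (P : Matrix (Fin n) (Fin n) L))ᴴ := by
          rw [Matrix.conjTranspose_mul]
          simp only [Matrix.mul_assoc]
      _ = H := by rw [Units.inv_mul, Matrix.conjTranspose_one, Matrix.one_mul, Matrix.mul_one]
  -- the torus
  obtain ⟨c, hcs, hc1⟩ := exists_real hst
  have hc0 : c ≠ 0 := by
    rintro rfl
    rw [norm_zero] at hc1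
    linarith
  have hgr : ∀ i, g (Fin.rev i) = g i := hv.rev
  refine ⟨P⁻¹ * dg n m hc0 * P, P⁻¹ * rv n L * P, hconj _ (dg_ad hn hc0 hcs g),
    hconj _ (rv_ad hgr), ?_⟩
  set t : Fin n → L := fun i => (c ^ 2) ^ ((m : ℤ) - (i : ℕ)) with ht
  have hcomm : ((P⁻¹ * dg n m hc0 * P * (P⁻¹ * rv n L * P) * (P⁻¹ * dg n m hc0 * P)⁻¹ *
      (P⁻¹ * rv n L * P)⁻¹ : (Matrix (Fin n) (Fin n) L)ˣ) : Matrix (Fin n) (Fin n) L) =
      ((P⁻¹ : (Matrix (Fin n) (Fin n) L)ˣ) : Matrix (Fin n) (Fin n) L) *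
        Matrix.diagonal t * P := by
    have e1 : P⁻¹ * dg n m hc0 * P * (P⁻¹ * rv n L * P) * (P⁻¹ * dg n m hc0 * P)⁻¹ *
        (P⁻¹ * rv n L * P)⁻¹ = P⁻¹ * (dg n m hc0 * rv n L * (dg n m hc0)⁻¹ * (rv n L)⁻¹) * P := by
      group
    rw [e1, Units.val_mul, Units.val_mul, comm_dg hn hc0]
  have hc2 : 1 < ‖c ^ 2‖ := by
    rw [norm_pow]
    exact one_lt_pow₀ hc1 two_ne_zero
  have ht0 : ∀ i, t i ≠ 0 := fun i => zpow_ne_zero _ (pow_ne_zero _ hc0)
  have hta : StrictAnti fun i => ‖t i‖ := by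
    intro i j hij
    change ‖(c ^ 2) ^ ((m : ℤ) - (j : ℕ))‖ < ‖(c ^ 2) ^ ((m : ℤ) - (i : ℕ))‖
    rw [norm_zpow, norm_zpow]
    refine zpow_lt_zpow_right₀ hc2 ?_
    have : (i : ℕ) < (j : ℕ) := hij
    omega
  -- all matrices
  have hall : ∀ A : Matrix (Fin n) (Fin n) L, ∃ M0 : ℕ, A ∈ hs → ∀ M, M0 ≤ M → NW n fun i =>
      ‖(A * (((P⁻¹ : (Matrix (Fin n) (Fin n) L)ˣ) : Matrix (Fin n) (Fin n) L) *
        Matrix.diagonal t * P) ^ M).charpoly.coeff i‖ := by
    intro A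
    by_cases hA : A ∈ hs
    · set A' : Matrix (Fin n) (Fin n) L := P * A *
        ((P⁻¹ : (Matrix (Fin n) (Fin n) L)ˣ) : Matrix (Fin n) (Fin n) L) with hA'
      have h1 : (P : Matrix (Fin n) (Fin n) L) * A = A' * P := by
        rw [hA', Matrix.mul_assoc, Units.inv_mul, Matrix.mul_one]
      have h2 : Lead A'ᵀ := lead_of hH hv (A := A) (by rw [← hP]; exact h1)
        (fun i hi => hL _ ⟨A, hA, rfl⟩ i hi)
      obtain ⟨M0, hM0⟩ := H496.Spl.nw_asym h2 ht0 hta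
      refine ⟨M0, fun _ M hM => ?_⟩
      have h3 := hM0 M hM
      rwa [← charpoly_frame P A A' h1 t M] at h3
    · exact ⟨0, fun h => absurd h hA⟩
  choose M0 hM0 using hall
  refine ⟨hs.sup M0, fun M hM A hA => ?_⟩
  rw [hcomm]
  exact hM0 A hA M ((Finset.le_sup hA).trans hM)

end uni

end Vale.Agent.P011.H487.Spl
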