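import Vale.Agent.P011.H487.SplM1
import Vale.Agent.P011.H487.SplU2
import Vale.Agent.P011.H182.LocNS

/-!
# Split elements: the places which do not split
-/

open Module NumberField IsDedekindDomain Filter Topology Matrix TensorProduct
open Vale.Agent.P011.T2 (QuadL HF)

set_option linter.unusedSectionVars false

namespace Vale.Agent.P011.H487.Spl

open Vale.Agent.P011.Arith Vale.Agent.P011.Even Vale.Agent.P011.Two Vale.Agent.P011.One
  Vale.Agent.P011.H182 Vale.Agent.P011.One.Ns

variable {k K D : Type} [Field k] [NumberField k] [Field K] [StarRing K]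
    [DivisionRing D] [StarRing D] [Algebra k K] [Algebra k D] [Algebra K D] [IsScalarTower k K D]
    {d : kˣ} {s : K} {N n : ℕ}

/-- **The places which do not split.** -/
theorem locM_nonsplit (hS : Setting k K D d s) {m : ℕ} (hn : n = 2 * m + 1) (hn3 : 3 ≤ n)
    (hdeg : finrank K D = n ^ 2) (B : Basis (Fin N) k D) (v : HeightOneSpectrum (𝓞 k))
    (hv : d ∉ LS (v.valuation k)) :
    ∃ (L : Type) (_ : NormedField L) (φ : K →+* L) (f : D →+* Matrix (Fin n) (Fin n) L),
      LocM B v n L φ f := by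
  classical
  have := hS.fin
  have := hS.cen
  have : CharZero K := charZero_of_injective_algebraMap (algebraMap k K).injective
  let _ := nnf v
  have := isUltra v
  have : NeZero n := ⟨by omega⟩
  obtain ⟨L, _, _, _, ρ, G, hfix, hL2, hGu, hGs, hG⟩ := exists_local_model hS hdeg v hv
  obtain ⟨dL, hQ⟩ := exists_quadL hfix hL2
  have : CharZero L :=
    charZero_of_injective_algebraMap (algebraMap (v.adicCompletion k) L).injective
  have : FiniteDimensional (v.adicCompletion k) L :=
    Module.finite_of_finrank_pos (by rw [hL2]; exact two_pos)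
  have hσ : ∀ x, hS.sig x = star x := fun x => rfl
  have hG' : ∀ T, G * ρ (sg hS v T) = (ρ T)ᴴ * G := hG
  obtain ⟨θ, -, -, hθs, hθd⟩ := model_theta (by omega) hGu hG'
  have hU := univ2 hv hfix hθs hθd
  have hGd : IsUnit G.det := (Matrix.isUnit_iff_isUnit_det G).mp hGu
  have hGG : G * G⁻¹ = 1 := Matrix.mul_nonsing_inv _ hGd
  have hGG' : G⁻¹ * G = 1 := Matrix.nonsing_inv_mul _ hGd
  have hGis : (G⁻¹)ᴴ = G⁻¹ := by rw [Matrix.conjTranspose_nonsing_inv, hGs]
  have hGid : (G⁻¹).det ≠ 0 := by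
    have h1 : IsUnit G⁻¹ := ⟨⟨G⁻¹, G, hGG', hGG⟩, rfl⟩
    exact ((Matrix.isUnit_iff_isUnit_det _).mp h1).ne_zero
  let f : D →+* Matrix (Fin n) (Fin n) L :=
    (ρ.toAlgHom : v.adicCompletion k ⊗[k] D →+* Matrix (Fin n) (Fin n) L).comp
      (Algebra.TensorProduct.includeRight : D →ₐ[k] v.adicCompletion k ⊗[k] D).toRingHom
  have hf : ∀ x, f x = ρ (1 ⊗ₜ x) := fun x => rfl
  have hspan : ∀ Y, ∃ b : Fin N → v.adicCompletion k, ∑ j, b j • f (B j) = Y := by
    intro Y
    let BA := Algebra.TensorProduct.basis (v.adicCompletion k) B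
    refine ⟨fun j => BA.repr (ρ.symm Y) j, ?_⟩
    have h1 : ∑ j, BA.repr (ρ.symm Y) j • BA j = ρ.symm Y := BA.sum_repr _
    have h2 := congrArg ρ h1
    rw [map_sum, AlgEquiv.apply_symm_apply] at h2
    refine Eq.trans (Finset.sum_congr rfl fun j _ => ?_) h2
    rw [map_smul, hf, Algebra.TensorProduct.basis_apply]
  obtain ⟨φ, hφ⟩ := exists_center (K := K) (by omega) B f hspan
  -- the model
  have hcard : finrank (v.adicCompletion k) (Matrix (Fin n) (Fin n) L) = N :=
    card_basis hS hdeg B hL2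
  let BA : Basis (Fin N) (v.adicCompletion k) (Matrix (Fin n) (Fin n) L) :=
    basisOfTopLeSpanOfCardEqFinrank (fun j => f (B j)) (by
      intro Y _
      obtain ⟨b, hb⟩ := hspan Y
      rw [← hb]
      exact Submodule.sum_mem _ fun j _ => Submodule.smul_mem _ _
        (Submodule.subset_span ⟨j, rfl⟩)) (by rw [Fintype.card_fin, hcard])
  have hBA : ∀ j, BA j = f (B j) := fun j => by
    rw [coe_basisOfTopLeSpanOfCardEqFinrank]
  let I := invM hQ G⁻¹ G hGis hGG hGG'
  have hf1 : ∀ (a : k) x, f (a • x) = algebraMap k (v.adicCompletion k) a • f x := by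
    intro a x
    rw [hf, hf, TensorProduct.tmul_smul, ← map_smul,
      ← algebraMap_smul (v.adicCompletion k) a ((1 : v.adicCompletion k) ⊗ₜ[k] x)]
  have hf2 : ∀ x, f (star x) * G⁻¹ = G⁻¹ * (f x)ᴴ := by
    intro x
    have h1 := hG (1 ⊗ₜ x)
    rw [LinearMap.baseChange_tmul, hσ, ← hf, ← hf] at h1
    calc f (star x) * G⁻¹ = G⁻¹ * (G * f (star x)) * G⁻¹ := by
          rw [← mul_assoc, hGG', one_mul]
      _ = G⁻¹ * (f x)ᴴ * (G * G⁻¹) := by rw [h1]; simp only [mul_assoc]
      _ = _ := by rw [hGG, mul_one]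
  have hI : ∀ x, I.τ (f x) = f (star x) := by
    intro x
    change G⁻¹ * (f x)ᴴ * G = _
    rw [← hf2, mul_assoc, hGG', mul_one]
  have hmdl : Mdl BA I B (fa v) f :=
    { smul := hf1
      basis := hBA
      star := hI
      norm := fun x => norm_algebraMap_eq v x }
  -- density
  have hden : ∀ (y : v.adicCompletion k) (ε : ℝ), 0 < ε →
      ∃ x : k, ‖algebraMap k (v.adicCompletion k) x - y‖ < ε := by
    intro y ε hε
    obtain ⟨x, hx⟩ := dense v y ε hε
    exact ⟨x, by rwa [← norm_neg, neg_sub]⟩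
  have hshift : ∀ S : UT BA I, ∃ Z : UT BA I, (∀ W, Z * W = W * Z) ∧ IsUnit (1 + (Z * S).val) := by
    intro S
    obtain ⟨ζ, hζ, hζu⟩ := exists_norm_one_unit hQ S.val
    have hζ' : star ζ * ζ = 1 := by rw [mul_comm]; exact hζ
    let z : (Matrix (Fin n) (Fin n) L)ˣ := ⟨Matrix.scalar (Fin n) ζ, Matrix.scalar (Fin n) (star ζ),
      by rw [← map_mul, hζ, map_one], by rw [← map_mul, hζ', map_one]⟩
    have hz : ∀ M : Matrix (Fin n) (Fin n) L, Matrix.scalar (Fin n) ζ * M = ζ • M := by
      intro M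
      rw [Matrix.scalar_apply, ← Matrix.smul_eq_diagonal_mul]
    have hzc : ∀ M : Matrix (Fin n) (Fin n) L,
        M * Matrix.scalar (Fin n) ζ = Matrix.scalar (Fin n) ζ * M := fun M =>
      ((Matrix.scalar_commute ζ (fun _ => mul_comm _ _) M)).eq.symm
    have hzU : z ∈ I.grp := by
      rw [mem_invM]
      change Matrix.scalar (Fin n) ζ * G⁻¹ * (Matrix.scalar (Fin n) ζ)ᴴ = G⁻¹
      have h1 : (Matrix.scalar (Fin n) ζ)ᴴ = Matrix.scalar (Fin n) (star ζ) := by
        rw [Matrix.scalar_apply, Matrix.scalar_apply, Matrix.diagonal_conjTranspose]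
        rfl
      rw [h1, ← hzc G⁻¹, mul_assoc, ← map_mul, hζ, map_one, mul_one]
    refine ⟨⟨z, hzU⟩, fun W => ?_, ?_⟩
    · apply UT.ext
      exact (hzc W.val).symm
    · change IsUnit (1 + Matrix.scalar (Fin n) ζ * S.val)
      rw [hz]
      exact hζu
  have hbase : ∀ c : k, φ (algebraMap k K c) = algebraMap (v.adicCompletion k) L
      (algebraMap k (v.adicCompletion k) c) := by
    intro c
    have h1 := hφ (algebraMap k K c)
    rw [← IsScalarTower.algebraMap_apply k K D, Algebra.algebraMap_eq_smul_one, hf1, map_one,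
      ← Algebra.algebraMap_eq_smul_one, IsScalarTower.algebraMap_apply (v.adicCompletion k) L] at h1
    exact (Matrix.scalar_inj.mp (h1.symm.trans rfl))
  have hiso : ∀ (V : Type) [AddCommGroup V] [Module L V] [FiniteDimensional L V] (h : HForm L V),
      h.Nondeg → 3 ≤ finrank L V → ∃ z : V, z ≠ 0 ∧ h.b z z = 0 := by
    intro V _ _ _ h hnd hV
    let b : HF L V := ⟨h.b, h.add_left, h.smul_left, h.star_b⟩
    have hbnd : b.Nondeg := fun x hx => hnd x fun y => by
      have h1 : h.b x y = 0 := hx y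
      rw [← h.star_b, h1, star_zero]
    obtain ⟨z, z', hp⟩ := Fr.exists_hp hQ hU b hbnd hV
    refine ⟨z, ?_, hp.zz⟩
    rintro rfl
    have h1 : h.b 0 z' = 1 := hp.one
    rw [h.zero_left] at h1
    exact zero_ne_one h1
  have hne : ∃ x : L, star x ≠ x := by
    refine ⟨θ, fun h => ?_⟩
    rw [hθs] at h
    have hθ0 : θ = 0 := self_eq_neg.mp h.symm
    rw [hθ0, zero_pow two_ne_zero] at hθd
    have h1 := (map_eq_zero (algebraMap (v.adicCompletion k) L)).mp hθd.symm
    exact d.ne_zero ((map_eq_zero (algebraMap k (v.adicCompletion k))).mp h1)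
  have hfixc : ∀ c, star (algebraMap (v.adicCompletion k) L c) = algebraMap (v.adicCompletion k) L c :=
    fun c => (hfix _).mpr ⟨c, rfl⟩
  -- the norm
  have : Algebra.IsAlgebraic (v.adicCompletion k) L := Algebra.IsAlgebraic.of_finite _ L
  let iN : NontriviallyNormedField L := spectralNorm.nontriviallyNormedField (v.adicCompletion k) L
  let _ : NormedSpace (v.adicCompletion k) L := spectralNorm.normedSpace (v.adicCompletion k) L
  have hnorm : ∀ x : L, ‖x‖ = spectralNorm (v.adicCompletion k) L x := fun _ => rfl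
  have hUL : IsUltrametricDist L :=
    IsUltrametricDist.isUltrametricDist_of_forall_norm_add_le_max_norm fun x y =>
      isNonarchimedean_spectralNorm x y
  let e : L ≃ₐ[v.adicCompletion k] L := AlgEquiv.ofRingEquiv (f := (starRingAut : L ≃+* L)) hfixc
  have he : ∀ x : L, e x = star x := fun _ => rfl
  have hstn : ∀ x : L, ‖star x‖ = ‖x‖ := fun x => by
    rw [hnorm, hnorm, ← he]
    exact (spectralNorm_eq_of_equiv e x).symm
  refine ⟨L, iN.toNormedField, φ, f, ⟨hUL, fun c => ?_, hφ, fun hs hs0 => ?_⟩⟩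
  · rw [hbase]
    change spectralNorm (v.adicCompletion k) L (algebraMap (v.adicCompletion k) L
      (algebraMap k (v.adicCompletion k) c)) = _
    rw [spectralNorm_extends]
  have hdet : ∀ A ∈ hs.image f, A.det ≠ 0 := by
    intro A hA
    obtain ⟨x, hx, rfl⟩ := Finset.mem_image.mp hA
    have h1 : f x * f x⁻¹ = 1 := by rw [← map_mul, mul_inv_cancel₀ (hs0 x hx), map_one]
    intro h0
    have h2 := congrArg Matrix.det h1
    rw [Matrix.det_mul, h0, zero_mul, Matrix.det_one] at h2
    exact zero_ne_one h2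
  obtain ⟨a, w, ha, hw, M0, hM0⟩ := loc_u hne hstn hiso hn hGis hGid (hs.image f) hdet
  have ha' : a ∈ I.grp := (mem_invM hQ hGis hGG hGG').mpr ha
  have hw' : w ∈ I.grp := (mem_invM hQ hGis hGG hGG').mpr hw
  refine ⟨M0, fun M hM => ?_⟩
  let S : UT BA I := ⟨a, ha'⟩
  let T : UT BA I := ⟨w, hw'⟩
  have h1 : ∀ A ∈ hs.image f, NW n fun i =>
      ‖(A * (AlgHom.id (v.adicCompletion k) (Matrix (Fin n) (Fin n) L))
        (S * T * S⁻¹ * T⁻¹).val ^ M).charpoly.coeff i‖ := by
    intro A hA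
    exact hM0 M hM A hA
  obtain ⟨x, y, δ, hδ, hg⟩ := loc_mdl hmdl hden hshift
    (AlgHom.id (v.adicCompletion k) (Matrix (Fin n) (Fin n) L)) (hs.image f) h1
  refine ⟨x, y, δ, hδ, fun g hgd h hh => ?_⟩
  have h2 := hg g hgd (f h) (Finset.mem_image_of_mem _ hh)
  rw [map_mul, map_pow]
  exact h2

end Vale.Agent.P011.H487.Spl
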