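import Vale.Agent.P011.H487.SplDef
import Vale.Agent.P011.H182.Dens
import Mathlib.LinearAlgebra.Matrix.Charpoly.Univ

/-!
# Split elements: the Newton condition is open, and commutators are approximated
-/

open Module NumberField IsDedekindDomain Filter Topology Matrix

set_option linter.unusedSectionVars false

namespace Vale.Agent.P011.H487.Spl

open Vale.Agent.P011.Arith Vale.Agent.P011.Even Vale.Agent.P011.Two Vale.Agent.P011.One
  Vale.Agent.P011.H182

section opn

/-- The coefficients of the characteristic polynomial are continuous. -/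
theorem cont_charpoly_coeff {F : Type*} [CommRing F] [TopologicalSpace F]
    [IsTopologicalRing F] {n : Type*} [Fintype n] [DecidableEq n] (i : ℕ) :
    Continuous fun X : Matrix n n F => X.charpoly.coeff i := by
  have h1 : (fun X : Matrix n n F => X.charpoly.coeff i) = fun X : Matrix n n F =>
      MvPolynomial.eval (fun p : n × n => X p.1 p.2) ((charpoly.univ F n).coeff i) := by
    funext X
    have h2 := charpoly.univ_coeff_eval₂Hom n (RingHom.id F) (fun p : n × n => X p.1 p.2) i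
    have h3 : Matrix.of (Function.curry fun p : n × n => X p.1 p.2) = X := by
      ext a b
      rfl
    rw [h3] at h2
    exact h2.symm
  rw [h1]
  refine (MvPolynomial.continuous_eval _).comp (continuous_pi fun p => ?_)
  exact (continuous_apply p.2).comp (continuous_apply p.1)

variable {L : Type*} [NormedField L] {n : ℕ}

theorem isOpen_nw1 : IsOpen {A : Matrix (Fin n) (Fin n) L | NW n fun i => ‖A.charpoly.coeff i‖} := by
  have hc : ∀ i, Continuous fun A : Matrix (Fin n) (Fin n) L => ‖A.charpoly.coeff i‖ := fun i =>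
    (cont_charpoly_coeff i).norm
  have h1 : {A : Matrix (Fin n) (Fin n) L | NW n fun i => ‖A.charpoly.coeff i‖} =
      {A | 0 < ‖A.charpoly.coeff 0‖} ∩ ⋂ i : Fin n, {A | 0 < (i : ℕ) →
        ‖A.charpoly.coeff (i - 1)‖ * ‖A.charpoly.coeff (i + 1)‖ < ‖A.charpoly.coeff i‖ ^ 2} := by
    ext A
    simp only [NW, Set.mem_ofPred_eq, Set.mem_inter_iff, Set.mem_iInter]
    refine and_congr Iff.rfl ⟨fun h i hi => h i hi i.2, fun h i hi hin => h ⟨i, hin⟩ hi⟩
  rw [h1]
  refine (isOpen_lt continuous_const (hc 0)).inter (isOpen_iInter_of_finite fun i => ?_)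
  by_cases hi : 0 < (i : ℕ)
  · simp only [hi, true_imp_iff]
    exact isOpen_lt ((hc _).mul (hc _)) ((hc _).pow 2)
  · simp only [hi, false_imp_iff, Set.ofPred_true]
    exact isOpen_univ

/-- **Openness.** -/
theorem isOpen_nw (hs : Finset (Matrix (Fin n) (Fin n) L)) (M : ℕ) :
    IsOpen {C : Matrix (Fin n) (Fin n) L |
      ∀ A ∈ hs, NW n fun i => ‖(A * C ^ M).charpoly.coeff i‖} := by
  have h1 : {C : Matrix (Fin n) (Fin n) L | ∀ A ∈ hs, NW n fun i => ‖(A * C ^ M).charpoly.coeff i‖} =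
      ⋂ A ∈ hs, {C | NW n fun i => ‖(A * C ^ M).charpoly.coeff i‖} := by
    ext C
    simp
  rw [h1]
  refine isOpen_biInter_finset fun A _ => ?_
  exact isOpen_nw1.preimage (continuous_const.mul (continuous_id.pow M))

end opn

section mdl

variable {k K D : Type} [Field k] [NumberField k] [Field K] [StarRing K]
  [DivisionRing D] [StarRing D] [Algebra k K] [Algebra k D] [Algebra K D] [IsScalarTower k K D]
  {N : ℕ} {n : ℕ}
  {F E : Type} [NormedField F] [ProperSpace F] [Algebra k F] [Ring E] [Algebra F E]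
  {BE : Basis (Fin N) F E} {I : Inv F E} {B : Basis (Fin N) k D}
  {a : AbsoluteValue k ℝ} {jm : D →+* E}

/-- **Commutators are approximated by commutators.** -/
theorem comm_app [CharZero F] (h : Mdl BE I B a jm)
    (hdense : ∀ (y : F) (ε : ℝ), 0 < ε → ∃ x : k, ‖algebraMap k F x - y‖ < ε)
    (hshift : ∀ S : UT BE I, ∃ Z : UT BE I, (∀ W, Z * W = W * Z) ∧ IsUnit (1 + (Z * S).val))
    (S T : UT BE I) {O : Set (UT BE I)} (hO : O ∈ 𝓝 (S * T * S⁻¹ * T⁻¹)) :
    ∃ x y : unitary D, h.gU (x * y * x⁻¹ * y⁻¹) ∈ O := by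
  classical
  have : CharZero D := charZero_of_injective_algebraMap (algebraMap k D).injective
  have hspan : ∀ Y : E, ∃ b : Fin N → F, ∑ j, b j • jm (B j) = Y := fun Y =>
    ⟨fun j => BE.repr Y j, by
      conv_rhs => rw [← BE.sum_repr Y]
      exact Finset.sum_congr rfl fun i _ => by rw [h.basis]⟩
  have hR : ∀ T : UT BE I, IsUnit (1 + T.val) → T ∈ closure (Set.range fun β => h.gU (Two.cay β)) := by
    intro T hT
    rw [mem_closure_iff_nhds]
    intro O hO
    obtain ⟨b, δ, hδ, hb⟩ := app_nhds BE jm I h.star B h.smul hspan T hT hO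
    choose x hx using fun j => hdense (b j) δ hδ
    refine ⟨h.gU (cay (∑ j, x j • B j)), hb _ fun j => ?_, ⟨_, rfl⟩⟩
    rw [B.repr_sum_self]
    exact hx j
  have hC1 : ∀ S T : UT BE I, IsUnit (1 + S.val) → IsUnit (1 + T.val) →
      S * T * S⁻¹ * T⁻¹ ∈ closure {U : UT BE I | ∃ x y : unitary D,
        h.gU (x * y * x⁻¹ * y⁻¹) = U} := by
    intro S T hS hT
    have hcont : Continuous (Function.uncurry fun S T : UT BE I => S * T * S⁻¹ * T⁻¹) := by
      change Continuous fun x : UT BE I × UT BE I => x.1 * x.2 * x.1⁻¹ * x.2⁻¹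
      fun_prop
    refine map_mem_closure₂ (f := fun S T : UT BE I => S * T * S⁻¹ * T⁻¹) hcont (hR S hS)
      (hR T hT) ?_
    rintro _ ⟨β, rfl⟩ _ ⟨γ, rfl⟩
    refine ⟨Two.cay β, Two.cay γ, ?_⟩
    rw [map_mul, map_mul, map_mul, map_inv, map_inv]
  obtain ⟨Z, hZ, hZu⟩ := hshift S
  obtain ⟨X, hX, hXu⟩ := hshift T
  have h1 := hC1 (Z * S) (X * T) hZu hXu
  rw [comm_central hX hZ, mem_closure_iff_nhds] at h1
  obtain ⟨U, hU1, x, y, rfl⟩ := h1 O hO
  exact ⟨x, y, hU1⟩

variable {L : Type} [NormedField L] [Algebra F L] [ContinuousSMul F L]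

theorem repr_sum (h : Mdl BE I B a jm) (π : E →ₗ[F] Matrix (Fin n) (Fin n) L) (g : D) :
    π (jm g) = ∑ j, algebraMap k F (B.repr g j) • π (BE j) := by
  conv_lhs => rw [← BE.sum_repr (jm g)]
  rw [map_sum]
  exact Finset.sum_congr rfl fun j _ => by rw [map_smul, h.repr]

theorem cont_pi (π : E →ₗ[F] Matrix (Fin n) (Fin n) L) :
    Continuous fun T : UT BE I => π T.val := by
  have h1 : (fun T : UT BE I => π T.val) = fun T => ∑ j, BE.repr T.val j • π (BE j) := by
    funext T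
    conv_lhs => rw [← BE.sum_repr T.val]
    rw [map_sum]
    exact Finset.sum_congr rfl fun i _ => by rw [map_smul]
  rw [h1]
  have h2 : Continuous (fun (T : UT BE I) (i : Fin N) => BE.repr T.val i) :=
    continuous_induced_dom
  exact continuous_finsetSum _ fun i _ => ((continuous_apply i).comp h2).smul continuous_const

/-- Openness in the global algebra. -/
theorem open_glob (h : Mdl BE I B a jm) (π : E →ₗ[F] Matrix (Fin n) (Fin n) L)
    {O : Set (Matrix (Fin n) (Fin n) L)} (hO : IsOpen O) {g₀ : D} (h0 : π (jm g₀) ∈ O) :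
    ∃ δ : ℝ, 0 < δ ∧ ∀ g : D, na B a (g - g₀) < δ → π (jm g) ∈ O := by
  let Q : (Fin N → F) → Matrix (Fin n) (Fin n) L := fun c => ∑ j, c j • π (BE j)
  have hQ : Continuous Q :=
    continuous_finsetSum _ fun i _ => (continuous_apply i).smul continuous_const
  have h1 : IsOpen (Q ⁻¹' O) := hO.preimage hQ
  have hQg : ∀ g : D, Q (fun j => algebraMap k F (B.repr g j)) = π (jm g) := fun g =>
    (repr_sum h π g).symm
  have h2 : (fun j => algebraMap k F (B.repr g₀ j)) ∈ Q ⁻¹' O := by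
    change Q _ ∈ O
    rw [hQg]
    exact h0
  obtain ⟨δ, hδ, hb⟩ := Metric.isOpen_iff.mp h1 _ h2
  refine ⟨δ, hδ, fun g hg => ?_⟩
  have h3 : (fun j => algebraMap k F (B.repr g j)) ∈ Metric.ball
      (fun j => algebraMap k F (B.repr g₀ j)) δ := by
    rw [Metric.mem_ball, dist_pi_lt_iff hδ]
    intro j
    rw [dist_eq_norm, ← map_sub, h.norm]
    have h4 : B.repr g j - B.repr g₀ j = B.repr (g - g₀) j := by
      rw [map_sub, Finsupp.sub_apply]
    rw [h4]
    refine lt_of_le_of_lt ?_ hg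
    exact Finset.single_le_sum (f := fun i => a (B.repr (g - g₀) i))
      (fun _ _ => a.nonneg _) (Finset.mem_univ j)
  have h5 : Q (fun j => algebraMap k F (B.repr g j)) ∈ O := hb h3
  rwa [hQg] at h5

/-- **The local step in a model.** -/
theorem loc_mdl [CharZero F] (h : Mdl BE I B a jm)
    (hdense : ∀ (y : F) (ε : ℝ), 0 < ε → ∃ x : k, ‖algebraMap k F x - y‖ < ε)
    (hshift : ∀ S : UT BE I, ∃ Z : UT BE I, (∀ W, Z * W = W * Z) ∧ IsUnit (1 + (Z * S).val))
    (π : E →ₐ[F] Matrix (Fin n) (Fin n) L) (hs : Finset (Matrix (Fin n) (Fin n) L))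
    {S T : UT BE I} {M : ℕ}
    (hM : ∀ A ∈ hs, NW n fun i => ‖(A * π (S * T * S⁻¹ * T⁻¹).val ^ M).charpoly.coeff i‖) :
    ∃ (x y : unitary D) (δ : ℝ), 0 < δ ∧ ∀ g : D,
      na B a (g - ((x * y * x⁻¹ * y⁻¹ : unitary D) : D)) < δ →
      ∀ A ∈ hs, NW n fun i => ‖(A * π (jm g) ^ M).charpoly.coeff i‖ := by
  have h1 := isOpen_nw hs M
  have h2 : {U : UT BE I | π.toLinearMap U.val ∈ {C : Matrix (Fin n) (Fin n) L |
      ∀ A ∈ hs, NW n fun i => ‖(A * C ^ M).charpoly.coeff i‖}} ∈ 𝓝 (S * T * S⁻¹ * T⁻¹) :=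
    (h1.preimage (cont_pi π.toLinearMap)).mem_nhds hM
  obtain ⟨x, y, hxy⟩ := comm_app h hdense hshift S T h2
  obtain ⟨δ, hδ, hd⟩ := open_glob h π.toLinearMap h1 (g₀ := ((x * y * x⁻¹ * y⁻¹ : unitary D) : D)) hxy
  exact ⟨x, y, δ, hδ, fun g hg => hd g hg⟩

end mdl

end Vale.Agent.P011.H487.Spl
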