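import Vale.Agent.P011.H487.SplFr4

/-!
# Split elements of the unitary group of a hermitian form over a local field
-/

open Module Matrix

namespace Vale.Agent.P011.H487.Spl

variable {L : Type} [Field L] [StarRing L] {n : ℕ}

/-- the hermitian form of a hermitian matrix, on rows -/
def rowForm (H : Matrix (Fin n) (Fin n) L) (hH : Hᴴ = H) : HForm L (Fin n → L) where
  b x y := x ⬝ᵥ (H *ᵥ star y)
  add_left x y z := by rw [add_dotProduct]
  smul_left a x y := by rw [smul_dotProduct, smul_eq_mul]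
  star_b x y := by
    rw [← star_dotProduct_star, star_mulVec, star_star, hH, dotProduct_comm,
      dotProduct_mulVec, dotProduct_comm]

theorem rowForm_b {H : Matrix (Fin n) (Fin n) L} (hH : Hᴴ = H) (x y : Fin n → L) :
    (rowForm H hH).b x y = x ⬝ᵥ (H *ᵥ star y) := rfl

theorem rowForm_nondeg {H : Matrix (Fin n) (Fin n) L} (hH : Hᴴ = H) (hdet : H.det ≠ 0) :
    (rowForm H hH).Nondeg := by
  intro x hx
  have h1 : H *ᵥ star x = 0 := by
    ext i
    have := hx (Pi.single i 1)
    rw [rowForm_b, single_dotProduct, one_mul] at this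
    exact this
  have h2 : star x = 0 := by
    have hu : IsUnit H.det := isUnit_iff_ne_zero.2 hdet
    have h3 : H⁻¹ *ᵥ (H *ᵥ star x) = star x := by
      rw [mulVec_mulVec, Matrix.nonsing_inv_mul _ hu, one_mulVec]
    rw [← h3, h1, mulVec_zero]
  rw [← star_star x, h2, star_zero]

/-- the leading minors from the operators -/
theorem lead_of {H : Matrix (Fin n) (Fin n) L} (hH : Hᴴ = H) {v : Fin n → Fin n → L}
    {g : Fin n → L} (hv : (rowForm H hH).Gr v g) {A A' : Matrix (Fin n) (Fin n) L}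
    (hA : Matrix.of v * A = A' * Matrix.of v)
    (hL : ∀ i ≤ n, (rowForm H hH).LG v A.vecMulLinear i) : Lead A'ᵀ := by
  intro i hi h0
  obtain ⟨c, hc0, hc⟩ := Matrix.exists_mulVec_eq_zero_iff.mpr h0
  apply hc0
  have h1 : ∀ j : Fin n, i ≤ (j : ℕ) → c j = 0 := by
    intro j hj
    have h2 := congrFun hc j
    rw [Matrix.mulVec, dotProduct, Pi.zero_apply] at h2
    simp only [LM, if_neg (not_lt.mpr hj), Matrix.one_apply, ite_mul, one_mul, zero_mul,
      Finset.sum_ite_eq, Finset.mem_univ, if_true] at h2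
    exact h2
  have h2 : ∀ j : Fin n, (j : ℕ) < i → ∑ l, c l * A' l j = 0 := by
    intro j hj
    have h2 := congrFun hc j
    rw [Matrix.mulVec, dotProduct, Pi.zero_apply] at h2
    simp only [LM, if_pos hj, Matrix.transpose_apply] at h2
    rw [← h2]
    exact Finset.sum_congr rfl fun l _ => mul_comm _ _
  refine hL i hi c h1 fun j hj => ?_
  have h3 : A.vecMulLinear (∑ l, c l • v l) = ∑ j, (∑ l, c l * A' l j) • v j := by
    have e1 : ∑ l, c l • v l = c ᵥ* Matrix.of v := by
      ext x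
      rw [Finset.sum_apply, Matrix.vecMul, dotProduct]
      rfl
    have e2 : ∑ j, (∑ l, c l * A' l j) • v j = (c ᵥ* A') ᵥ* Matrix.of v := by
      ext x
      rw [Finset.sum_apply, Matrix.vecMul, dotProduct]
      rfl
    rw [Matrix.vecMulLinear_apply, e1, e2, Matrix.vecMul_vecMul, Matrix.vecMul_vecMul, hA]
  rw [h3, hv.coord, h2 j hj, zero_mul]

section nostar

variable {L : Type} [Field L] {n : ℕ}

/-- the torus element -/
noncomputable def dg (n : ℕ) (m : ℕ) {c : L} (hc : c ≠ 0) : (Matrix (Fin n) (Fin n) L)ˣ where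
  val := Matrix.diagonal fun i : Fin n => c ^ ((m : ℤ) - (i : ℕ))
  inv := Matrix.diagonal fun i : Fin n => c ^ (-((m : ℤ) - (i : ℕ)))
  val_inv := by
    rw [Matrix.diagonal_mul_diagonal, ← Matrix.diagonal_one]
    congr 1
    funext i
    rw [← zpow_add₀ hc, add_neg_cancel, zpow_zero]
  inv_val := by
    rw [Matrix.diagonal_mul_diagonal, ← Matrix.diagonal_one]
    congr 1
    funext i
    rw [← zpow_add₀ hc, neg_add_cancel, zpow_zero]

/-- the reversal -/
def rvM (n : ℕ) (L : Type) [Field L] : Matrix (Fin n) (Fin n) L :=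
  fun i j => if j = Fin.rev i then 1 else 0

theorem rvM_mul (A : Matrix (Fin n) (Fin n) L) (i j : Fin n) :
    (rvM n L * A) i j = A (Fin.rev i) j := by
  rw [Matrix.mul_apply, Finset.sum_eq_single (Fin.rev i)]
  · simp [rvM]
  · intro b _ hb
    simp [rvM, hb]
  · intro h
    exact absurd (Finset.mem_univ _) h

theorem mul_rvM (A : Matrix (Fin n) (Fin n) L) (i j : Fin n) :
    (A * rvM n L) i j = A i (Fin.rev j) := by
  rw [Matrix.mul_apply, Finset.sum_eq_single (Fin.rev j)]
  · simp [rvM]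
  · intro b _ hb
    have : j ≠ Fin.rev b := fun h => hb (by rw [h, Fin.rev_rev])
    simp [rvM, this]
  · intro h
    exact absurd (Finset.mem_univ _) h

theorem rvM_sq : rvM n L * rvM n L = 1 := by
  ext i j
  rw [rvM_mul, rvM, Fin.rev_rev, Matrix.one_apply]
  simp only [eq_comm]

/-- the reversal as a unit -/
def rv (n : ℕ) (L : Type) [Field L] : (Matrix (Fin n) (Fin n) L)ˣ := ⟨rvM n L, rvM n L, rvM_sq, rvM_sq⟩

/-- the commutator of the torus element and the reversal -/
theorem comm_dg {m : ℕ} (hn : n = 2 * m + 1) {c : L} (hc : c ≠ 0) :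
    ((dg n m hc * rv n L * (dg n m hc)⁻¹ * (rv n L)⁻¹ : (Matrix (Fin n) (Fin n) L)ˣ) :
      Matrix (Fin n) (Fin n) L) =
      Matrix.diagonal fun i : Fin n => (c ^ 2) ^ ((m : ℤ) - (i : ℕ)) := by
  change Matrix.diagonal (fun i : Fin n => c ^ ((m : ℤ) - (i : ℕ))) * rvM n L *
    Matrix.diagonal (fun i : Fin n => c ^ (-((m : ℤ) - (i : ℕ)))) * rvM n L = _
  ext i j
  rw [mul_rvM, Matrix.mul_assoc, Matrix.diagonal_mul, rvM_mul, Matrix.diagonal_apply,
    Matrix.diagonal_apply]
  by_cases h : i = j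
  · subst h
    have h1 : ((Fin.rev i : Fin n) : ℕ) = n - (i + 1) := Fin.val_rev i
    have h2 := i.2
    have h3 : (((Fin.rev i : Fin n) : ℕ) : ℤ) = 2 * m - (i : ℕ) := by omega
    rw [if_pos rfl, if_pos rfl, ← zpow_natCast, ← _root_.zpow_mul, ← zpow_add₀ hc, h3]
    congr 1
    push_cast
    ring
  · rw [if_neg h, if_neg (fun h2 => h (Fin.rev_injective h2)), mul_zero]

/-- antidiagonal matrices -/
def ad (g : Fin n → L) : Matrix (Fin n) (Fin n) L := fun i j => if j = Fin.rev i then g i else 0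

end nostar

theorem rvM_star : (rvM n L)ᴴ = rvM n L := by
  ext i j
  rw [Matrix.conjTranspose_apply, rvM, rvM]
  by_cases h : i = Fin.rev j
  · rw [if_pos h, if_pos (by rw [h, Fin.rev_rev]), star_one]
  · rw [if_neg h, if_neg (fun h2 => h (by rw [h2, Fin.rev_rev])), star_zero]

theorem rv_ad {g : Fin n → L} (hg : ∀ i, g (Fin.rev i) = g i) :
    rvM n L * ad g * (rvM n L)ᴴ = ad g := by
  ext i j
  rw [rvM_star, mul_rvM, rvM_mul, ad, ad, Fin.rev_rev, hg]
  by_cases h : j = Fin.rev i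
  · rw [if_pos h, if_pos (by rw [h, Fin.rev_rev])]
  · rw [if_neg h, if_neg (fun h2 => h (by rw [← h2, Fin.rev_rev]))]

theorem dg_ad {m : ℕ} (hn : n = 2 * m + 1) {c : L} (hc : c ≠ 0) (hcs : star c = c)
    (g : Fin n → L) : (dg n m hc : Matrix (Fin n) (Fin n) L) * ad g *
      (dg n m hc : Matrix (Fin n) (Fin n) L)ᴴ = ad g := by
  change Matrix.diagonal (fun i : Fin n => c ^ ((m : ℤ) - (i : ℕ))) * ad g *
    (Matrix.diagonal (fun i : Fin n => c ^ ((m : ℤ) - (i : ℕ))))ᴴ = _
  rw [Matrix.diagonal_conjTranspose]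
  ext i j
  rw [Matrix.mul_diagonal, Matrix.diagonal_mul, ad]
  by_cases h : j = Fin.rev i
  · subst h
    rw [if_pos rfl, Pi.star_apply, star_zpow₀, hcs, mul_right_comm, ← zpow_add₀ hc]
    have h1 : ((Fin.rev i : Fin n) : ℕ) = n - (i + 1) := Fin.val_rev i
    have h2 := i.2
    have h3 : (m : ℤ) - (i : ℕ) + ((m : ℤ) - ((Fin.rev i : Fin n) : ℕ)) = 0 := by omega
    rw [h3, zpow_zero, one_mul]
  · rw [if_neg h, mul_zero, zero_mul]

end Vale.Agent.P011.H487.Spl
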