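import Vale.Agent.P011.H487.Sva
import Vale.Agent.P011.H518.Pair
import Vale.Agent.P011.H872.RootType
import Vale.Agent.P011.H698.TorNF

/-!
**The commutators of unitary elements close to one.** If `[G, H] ≤ Q` for an open subgroup `H` and a
normal subgroup `Q` of `SU_1(D, *)`, `D` of degree three over a number field, then the commutators
of unitary elements close to one at the places of `Tdiv` are in `Q`.
-/

open NumberField IsDedekindDomain Module
open scoped commutatorElement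

set_option linter.unusedSectionVars false

namespace Vale.Agent.P011.H487

open Vale.Agent.P011.H775 Vale.Agent.P011.H948
open Vale.Agent.P011.Arith Vale.Agent.P011.Even Vale.Agent.P011.Two Vale.Agent.P011.One
open Vale.Agent.P011.H518 (Nr Gd Sv Pr)

variable {k K D : Type} [Field k] [NumberField k] [Field K] [NumberField K] [StarRing K]
  [DivisionRing D] [StarRing D] [Algebra k K] [Algebra k D] [Algebra K D] [IsScalarTower k K D]
  {d : kˣ} {s : K} {Ω : Type} [Field Ω] [Algebra K Ω] {N : ℕ}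

/-- **The condition (S3b).** -/
theorem star_pr (hS : Setting k K D d s) (hdeg : finrank K D = 3 ^ 2) (C : Cub K D)
    (f : D →ₐ[K] Matrix (Fin 3) (Fin 3) Ω) (B : Basis (Fin N) k D) : Pr k f B := by
  have hfin := hS.fin
  have hcen := hS.cen
  have hTf : (Tdiv k K D).Finite := Pow.tdiv_finite (n := 3) (by norm_num) hdeg
  exact H518.pr_of' hS hdeg C f B hTf
    (fun hP hPT a1 => H872.exists_root_type hS hdeg C hP hPT a1) (H698.s7_nf hS hdeg C f B hTf)

/-- **The commutators of unitary elements close to one.** -/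
theorem star_nf (hS : Setting k K D d s) (hdeg : finrank K D = 3 ^ 2)
    (f : D →ₐ[K] Matrix (Fin 3) (Fin 3) Ω) (B : Basis (Fin N) k D) {Q H : Subgroup (SUD f)}
    (hQ : Q.Normal) (hH : PF B (GU f) (Im H) (Tdiv k K D))
    (hc : ∀ g : SUD f, ∀ x ∈ H, ⁅g, x⁆ ∈ Q) :
    ∃ ε : ℝ, 0 < ε ∧ ∀ u w : Dˣ, H518.Un u → H518.Un w → Nr k K B ε u → Nr k K B ε w →
      ⁅u, w⁆ ∈ Q.map (SUD f).subtype := by
  have hfin := hS.fin
  have hcen := hS.cen
  have hTf : (Tdiv k K D).Finite := Pow.tdiv_finite (n := 3) (by norm_num) hdeg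
  have hst : ∀ (c : k) (x : D), star (c • x) = c • star x := fun c x => (sig hS).map_smul c x
  obtain ⟨C⟩ := exists_cub (K := K) (D := D) hdeg
  exact H518.star_of hst hTf hQ hH hc (sv hS hdeg C f B) (star_pr hS hdeg C f B)

/-- The same statement for elements of `D`. -/
theorem star_nf' (hS : Setting k K D d s) (hdeg : finrank K D = 3 ^ 2)
    (f : D →ₐ[K] Matrix (Fin 3) (Fin 3) Ω) (B : Basis (Fin N) k D) {Q H : Subgroup (SUD f)}
    (hQ : Q.Normal) (hH : PF B (GU f) (Im H) (Tdiv k K D))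
    (hc : ∀ g : SUD f, ∀ x ∈ H, ⁅g, x⁆ ∈ Q) :
    ∃ ε : ℝ, 0 < ε ∧ ∀ (u w : D), u * star u = 1 → w * star w = 1 →
      (∀ p ∈ Tdiv k K D, nm B p (u - 1) < ε) → (∀ p ∈ Tdiv k K D, nm B p (w - 1) < ε) →
      ∀ x : SUD f, ((x : Dˣ) : D) = u * w * u⁻¹ * w⁻¹ → x ∈ Q := by
  obtain ⟨ε, hε, h⟩ := star_nf hS hdeg f B hQ hH hc
  refine ⟨ε, hε, fun u w hu hw hun hwn x hx => ?_⟩
  have hu0 : u ≠ 0 := left_ne_zero_of_mul_eq_one hu
  have hw0 : w ≠ 0 := left_ne_zero_of_mul_eq_one hw
  obtain ⟨y, hy, hyx⟩ := h (Units.mk0 u hu0) (Units.mk0 w hw0) hu hw hun hwn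
  have hxy : y = x := by
    apply Subtype.ext
    apply Units.ext
    rw [hx]
    have h1 := congrArg (fun g : Dˣ => (g : D)) hyx
    rw [commutatorElement_def] at h1
    simpa using h1
  rwa [← hxy]

end Vale.Agent.P011.H487
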