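import Vale.Agent.P011.H487.Poly
import Vale.Agent.P011.H373.S1

/-!
The local points at the places where the group element is not good.
-/

open NumberField IsDedekindDomain Module MvPolynomial

set_option linter.unusedSectionVars false

namespace Vale.Agent.P011.H487

open Vale.Agent.P011.H775 Vale.Agent.P011.H948
open Vale.Agent.P011.Arith (Z0)
open Vale.Agent.P011.Even

section cube

variable {K D : Type} [Field K] [NumberField K] [DivisionRing D] [Algebra K D] (C : Cub K D)

/-- The eigenvalues do not have the same size. -/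
def Un (V : HeightOneSpectrum (𝓞 K)) (x : D) : Prop :=
  V.valuation K (C.N x) < V.valuation K (C.T x) ^ 3 ∨
    V.valuation K (C.N x) ^ 2 < V.valuation K (C.S x) ^ 3

theorem un_smul {V : HeightOneSpectrum (𝓞 K)} {x : D} {c : K} (hc : c ≠ 0) (h : Un C V x) :
    Un C V (c • x) := by
  have hc0 : 0 < V.valuation K c := zero_lt_iff.mpr ((V.valuation K).ne_zero_iff.mpr hc)
  rcases h with h | h
  · left
    rw [C.N_smul, map_smul, smul_eq_mul, map_mul, map_mul, map_pow, mul_pow]
    exact mul_lt_mul_of_pos_left h (pow_pos hc0 3)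
  · right
    rw [C.N_smul, C.S_smul, map_mul, map_mul, map_pow, map_pow, mul_pow, mul_pow, ← pow_mul,
      ← pow_mul]
    exact mul_lt_mul_of_pos_left h (pow_pos hc0 6)

theorem cub_N_pow (x : D) (n : ℕ) : C.N (x ^ n) = C.N x ^ n := by
  induction n with
  | zero => rw [pow_zero, pow_zero, C.N_one]
  | succ n ih => rw [pow_succ, pow_succ, C.N_mul, ih]

theorem T_cube (x : D) : C.T (x ^ 3) = C.T x ^ 3 - 3 * C.T x * C.S x + 3 * C.N x := by
  have h1 := C.cayley x
  have h2 : x ^ 3 = C.T x • (x * x) - C.S x • x + C.N x • (1 : D) := by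
    have e : x ^ 3 = (x * x * x - C.T x • (x * x) + C.S x • x - C.N x • (1 : D)) +
        (C.T x • (x * x) - C.S x • x + C.N x • (1 : D)) := by
      rw [pow_succ, pow_two]
      abel
    rw [e, h1, zero_add]
  have h3 := S_formula C x
  have h4 : C.T (x * x) = C.T x * C.T x - 2 * C.S x := by
    rw [h3]
    field_simp
    ring
  rw [h2, map_add, map_sub, map_smul, map_smul, map_smul, C.T_one, h4]
  simp only [smul_eq_mul]
  ring

theorem adj_pow (x : D) (n : ℕ) : C.adj (x ^ n) = C.adj x ^ n := by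
  induction n with
  | zero => rw [pow_zero, pow_zero, C.adj_one]
  | succ n ih => rw [pow_succ, C.adj_mul_distrib, ih, pow_succ']

theorem S_cube (x : D) : C.S (x ^ 3) = C.S x ^ 3 - 3 * C.T x * C.S x * C.N x + 3 * C.N x ^ 2 := by
  rw [Cub.S, adj_pow, T_cube, C.N_adj]
  have h1 : C.S (C.adj x) = C.N x * C.T x := by
    rw [Cub.S, C.adj_adj, map_smul, smul_eq_mul]
  have h2 : C.T (C.adj x) = C.S x := rfl
  rw [h1, h2]
  ring

theorem un_cube {V : HeightOneSpectrum (𝓞 K)} {x : D} (h : Un C V x) : Un C V (x ^ 3) := by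
  have h3 : V.valuation K (3 : K) ≤ 1 := val_nat_le V 3
  obtain ⟨t, ht⟩ : ∃ t, t = V.valuation K (C.T x) := ⟨_, rfl⟩
  obtain ⟨r, hr⟩ : ∃ r, r = V.valuation K (C.S x) := ⟨_, rfl⟩
  obtain ⟨n, hn⟩ : ∃ n, n = V.valuation K (C.N x) := ⟨_, rfl⟩
  rw [Un, ← ht, ← hr, ← hn] at h
  rw [Un, T_cube, S_cube, cub_N_pow, map_pow, ← hn]
  by_cases hA : r < t ^ 2 ∧ n < t ^ 3
  · left
    obtain ⟨hA1, hA2⟩ := hA
    have ht0 : 0 < t := by
      rcases (zero_le (a := t)).eq_or_lt with h | h
      · rw [← h] at hA2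
        simp at hA2
      · exact h
    have e1 : V.valuation K (C.T x ^ 3 - 3 * C.T x * C.S x + 3 * C.N x) = t ^ 3 := by
      have e2 : C.T x ^ 3 - 3 * C.T x * C.S x + 3 * C.N x =
          C.T x ^ 3 + (3 * C.N x - 3 * C.T x * C.S x) := by ring
      rw [e2, (V.valuation K).map_add_eq_of_lt_left, map_pow, ← ht]
      rw [map_pow, ← ht]
      refine (V.valuation K).map_sub_lt ?_ ?_
      · rw [map_mul, ← hn]
        exact (mul_le_of_le_one_left' h3).trans_lt hA2
      · rw [map_mul, map_mul, ← ht, ← hr]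
        calc V.valuation K 3 * t * r ≤ t * r :=
              mul_le_mul_left (mul_le_of_le_one_left' h3) _
          _ < t * t ^ 2 := mul_lt_mul_of_pos_left hA1 ht0
          _ = t ^ 3 := (pow_succ' t 2).symm
    rw [e1]
    exact pow_lt_pow_left₀ hA2 zero_le (by norm_num)
  · right
    have hB : n ^ 2 < r ^ 3 ∧ t * n < r ^ 2 := by
      have h5 : t ^ 2 ≤ r := by
        by_contra hcon
        rw [not_le] at hcon
        have h6 : t ^ 3 ≤ n := by
          by_contra hcon2
          rw [not_le] at hcon2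
          exact hA ⟨hcon, hcon2⟩
        rcases h with h | h
        · exact absurd h (not_lt.mpr h6)
        · have h7 : r ^ 3 ≤ (t ^ 2) ^ 3 := pow_le_pow_left₀ zero_le hcon.le 3
          have h8 : (t ^ 3) ^ 2 ≤ n ^ 2 := pow_le_pow_left₀ zero_le h6 2
          have h9 : (t ^ 2) ^ 3 = (t ^ 3) ^ 2 := by rw [← pow_mul, ← pow_mul]
          exact absurd (h.trans_le (h7.trans (h9.le.trans h8))) (lt_irrefl _)
      have h6 : n ^ 2 < r ^ 3 := by
        rcases h with h | h
        · calc n ^ 2 < (t ^ 3) ^ 2 := pow_lt_pow_left₀ h zero_le (by norm_num)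
            _ = (t ^ 2) ^ 3 := by rw [← pow_mul, ← pow_mul]
            _ ≤ r ^ 3 := pow_le_pow_left₀ zero_le h5 3
        · exact h
      refine ⟨h6, ?_⟩
      have hr0 : 0 < r := by
        rcases (zero_le (a := r)).eq_or_lt with h | h
        · rw [← h] at h6
          simp at h6
        · exact h
      have h7 : (t * n) ^ 2 < (r ^ 2) ^ 2 := by
        calc (t * n) ^ 2 = t ^ 2 * n ^ 2 := mul_pow _ _ _
          _ ≤ r * n ^ 2 := mul_le_mul_left h5 _
          _ < r * r ^ 3 := mul_lt_mul_of_pos_left h6 hr0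
          _ = (r ^ 2) ^ 2 := by rw [← pow_succ', ← pow_mul]
      exact lt_of_pow_lt_pow_left₀ 2 zero_le h7
    obtain ⟨hB1, hB2⟩ := hB
    have hr0 : 0 < r := by
      rcases (zero_le (a := r)).eq_or_lt with h | h
      · rw [← h] at hB1
        simp at hB1
      · exact h
    have e1 : V.valuation K (C.S x ^ 3 - 3 * C.T x * C.S x * C.N x + 3 * C.N x ^ 2) = r ^ 3 := by
      have e2 : C.S x ^ 3 - 3 * C.T x * C.S x * C.N x + 3 * C.N x ^ 2 =
          C.S x ^ 3 + (3 * C.N x ^ 2 - 3 * C.T x * C.S x * C.N x) := by ring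
      rw [e2, (V.valuation K).map_add_eq_of_lt_left, map_pow, ← hr]
      rw [map_pow, ← hr]
      refine (V.valuation K).map_sub_lt ?_ ?_
      · rw [map_mul, map_pow, ← hn]
        exact (mul_le_of_le_one_left' h3).trans_lt hB1
      · rw [map_mul, map_mul, map_mul, ← ht, ← hr, ← hn]
        calc V.valuation K 3 * t * r * n ≤ t * r * n :=
              mul_le_mul_left (mul_le_mul_left (mul_le_of_le_one_left' h3) _) _
          _ = r * (t * n) := by rw [mul_comm t r, mul_assoc]
          _ < r * r ^ 2 := mul_lt_mul_of_pos_left hB2 hr0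
          _ = r ^ 3 := (pow_succ' r 2).symm
    rw [e1]
    calc (n ^ 3) ^ 2 = (n ^ 2) ^ 3 := by rw [← pow_mul, ← pow_mul]
      _ < (r ^ 3) ^ 3 := pow_lt_pow_left₀ hB1 zero_le (by norm_num)

theorem one_lt_of_un {V : HeightOneSpectrum (𝓞 K)} {x : D} (hN : C.N x = 1) (h : Un C V x) :
    1 < V.valuation K (C.T x) ∨ 1 < V.valuation K (C.S x) := by
  rw [Un, hN, map_one, one_pow] at h
  rcases h with h | h
  · left
    by_contra hcon
    rw [not_lt] at hcon
    exact absurd h (not_lt.mpr (pow_le_one₀ zero_le hcon))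
  · right
    by_contra hcon
    rw [not_lt] at hcon
    exact absurd h (not_lt.mpr (pow_le_one₀ zero_le hcon))

end cube

section pt

variable {K D : Type} [Field K] [NumberField K] [StarRing K] [DivisionRing D] [StarRing D]
  [Algebra K D] (C : Cub K D)

/-- Some translate has a large trace. -/
def Large (C : Cub K D) : Prop := ∀ (V : HeightOneSpectrum (𝓞 K)) (h t : D), C.N t = 1 →
  (1 < V.valuation K (C.T t) ∨ 1 < V.valuation K (C.S t)) → C.T h ≠ 0 →
  ∃ j : ℤ, 1 < V.valuation K (C.T (h * t ^ j))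

theorem zpow_mul_star {t : D} (ht : t * star t = 1) (j : ℤ) : t ^ j * star (t ^ j) = 1 := by
  have ht0 : t ≠ 0 := left_ne_zero_of_mul_eq_one ht
  have hst : star t = t⁻¹ := (inv_eq_of_mul_eq_one_right ht).symm
  rw [star_zpow₀, hst, inv_zpow, mul_inv_cancel₀ (zpow_ne_zero j ht0)]

theorem N_zpow (t : D) (hN : C.N t = 1) (j : ℤ) : C.N (t ^ j) = 1 := by
  cases j with
  | ofNat n => rw [Int.ofNat_eq_natCast, zpow_natCast, N_pow, hN, one_pow]
  | negSucc n => rw [zpow_negSucc, C.N_inv, N_pow, hN, one_pow, inv_one]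

/-- **The local point.** -/
theorem exists_pt (h : SCub C) (hL : Large C) {x e : D} (hT : C.T x ≠ 0)
    (he : e * star e = 1) {V : HeightOneSpectrum (𝓞 K)} (hu : Un C V e) :
    ∃ z : D, z ≠ 0 ∧ In K e z ∧ 1 < V.valuation K (C.T (x * tz C z)) := by
  have he0 : e ≠ 0 := left_ne_zero_of_mul_eq_one he
  have hNe0 := C.N_ne_zero he0
  have hNs : C.N e * star (C.N e) = 1 := by
    have := congrArg C.N he
    rwa [C.N_mul, h.N, C.N_one] at this
  have hst : star e = e⁻¹ := (inv_eq_of_mul_eq_one_right he).symm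
  set t : D := (C.N e)⁻¹ • e ^ 3 with ht
  have htN : C.N t = 1 := by
    rw [ht, C.N_smul, N_pow, inv_pow, inv_mul_cancel₀ (pow_ne_zero 3 hNe0)]
  have htu : t * star t = 1 := by
    rw [ht, h.smul, star_pow, star_inv₀, smul_mul_smul_comm, ← mul_inv, hNs, inv_one, one_smul,
      hst, mul_inv_pow he0]
  have ht0 : t ≠ 0 := left_ne_zero_of_mul_eq_one htu
  have hut : Un C V t := un_smul C (inv_ne_zero hNe0) (un_cube C hu)
  have hut3 := one_lt_of_un C (by rw [N_pow, htN, one_pow]) (un_cube C hut)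
  obtain ⟨j, hj⟩ := hL V x (t ^ 3) (by rw [N_pow, htN, one_pow]) hut3 hT
  have h2 : (t ^ 3) ^ j = (t ^ j) ^ 3 := by
    rw [← zpow_natCast, ← zpow_mul, ← zpow_natCast, ← zpow_mul, mul_comm]
  have hN1 := N_zpow C t htN j
  have h0 : 1 + t ^ j ≠ 0 := by
    intro h0
    have h3 : t ^ j = -1 := eq_neg_of_add_eq_zero_right h0
    rw [h3, C.N_neg, C.N_one] at hN1
    have : (2 : K) = 0 := by linear_combination -hN1
    exact two_ne_zero this
  refine ⟨1 + t ^ j, h0, ?_, ?_⟩
  · refine (In.one e).add ?_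
    have h3 : t ^ j = ((C.N e)⁻¹) ^ j • e ^ (3 * j) := by
      have hc : ∀ (c : K) (y : D), (c • y) = algebraMap K D c * y := fun c y =>
        Algebra.smul_def c y
      have hcm : Commute (algebraMap K D (C.N e)⁻¹) (e ^ 3) := Algebra.commutes _ _
      rw [ht, hc, hc, hcm.mul_zpow, map_zpow₀, zpow_mul]
      norm_cast
    rw [h3]
    exact (In.zpow C he0 _).smul _
  · rw [tz_one_add C h (zpow_mul_star htu j) hN1 h0, ← h2]
    exact hj

end pt

end Vale.Agent.P011.H487
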